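import Mathlib

/-! Moments determine the characteristic function. -/

open MeasureTheory Filter Topology Set

noncomputable section

namespace Vale.Agent.P153

theorem d1b_mem {Ω : Type} [MeasurableSpace Ω] {μ : Measure Ω} {Y : Ω → ℝ} (hY : Measurable Y)
    {a : ℝ} (h1 : Integrable (fun ω => Real.exp (a * |Y ω|)) μ) {t : ℝ} (ht : t ∈ Ioo (-a) a) :
    t ∈ interior (ProbabilityTheory.integrableExpSet Y μ) := by
  refine interior_maximal (fun s hs => ?_) isOpen_Ioo ht
  refine h1.mono' (by fun_prop) (Eventually.of_forall fun ω => ?_)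
  rw [Real.norm_of_nonneg (Real.exp_pos _).le]
  refine Real.exp_le_exp.2 ((le_abs_self _).trans ?_)
  rw [abs_mul]
  exact mul_le_mul_of_nonneg_right (abs_lt.2 hs).le (abs_nonneg _)

/-- Both `ProbabilityTheory.complexMGF` are analytic on the strip `|re z| < min a a'`
(`analyticOnNhd_complexMGF`, `integrable_exp_mul_of_le...` or `exp (t Y) ≤ exp (a |Y|)`), have the
same `iteratedDeriv` at `0` (`iteratedDeriv_complexMGF`), so agree near `0` (Taylor series,
`AnalyticAt.hasFPowerSeriesAt`), so on the convex strip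
(`AnalyticOnNhd.eqOn_of_preconnected_of_eventuallyEq`); evaluate at `I`. -/
theorem char_eq_of_mom {Ω Ω' : Type} [MeasurableSpace Ω] [MeasurableSpace Ω'] {μ : Measure Ω}
    {μ' : Measure Ω'} [IsProbabilityMeasure μ] [IsProbabilityMeasure μ'] {Y : Ω → ℝ} {Y' : Ω' → ℝ}
    (hY : Measurable Y) (hY' : Measurable Y') {a a' : ℝ} (ha : 0 < a) (ha' : 0 < a')
    (h1 : Integrable (fun ω => Real.exp (a * |Y ω|)) μ)
    (h2 : Integrable (fun ω => Real.exp (a' * |Y' ω|)) μ')
    (h : ∀ n : ℕ, ∫ ω, Y ω ^ n ∂μ = ∫ ω, Y' ω ^ n ∂μ') :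
    ∫ ω, Complex.exp (Y ω * Complex.I) ∂μ = ∫ ω, Complex.exp (Y' ω * Complex.I) ∂μ' := by
  have hm : 0 < min a a' := lt_min ha ha'
  have m1 : ∀ z : ℂ, z.re ∈ Ioo (-min a a') (min a a') →
      z.re ∈ interior (ProbabilityTheory.integrableExpSet Y μ) := fun z hz =>
    d1b_mem hY h1 (Ioo_subset_Ioo (neg_le_neg (min_le_left _ _)) (min_le_left _ _) hz)
  have m2 : ∀ z : ℂ, z.re ∈ Ioo (-min a a') (min a a') →
      z.re ∈ interior (ProbabilityTheory.integrableExpSet Y' μ') := fun z hz =>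
    d1b_mem hY' h2 (Ioo_subset_Ioo (neg_le_neg (min_le_right _ _)) (min_le_right _ _) hz)
  have z0 : (0 : ℂ).re ∈ Ioo (-min a a') (min a a') := ⟨neg_neg_of_pos hm, hm⟩
  have p1 := (ProbabilityTheory.analyticAt_complexMGF (m1 0 z0)).hasFPowerSeriesAt
  have p2 := (ProbabilityTheory.analyticAt_complexMGF (m2 0 z0)).hasFPowerSeriesAt
  have e : (fun n => iteratedDeriv n (ProbabilityTheory.complexMGF Y μ) 0 / (n.factorial : ℂ)) =
      fun n => iteratedDeriv n (ProbabilityTheory.complexMGF Y' μ') 0 / (n.factorial : ℂ) := by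
    funext n
    rw [ProbabilityTheory.iteratedDeriv_complexMGF (m1 0 z0),
      ProbabilityTheory.iteratedDeriv_complexMGF (m2 0 z0)]
    simp only [zero_mul, Complex.exp_zero, mul_one, ← Complex.ofReal_pow, integral_complex_ofReal,
      h n]
  rw [e] at p1
  have p3 := p1.sub p2
  rw [sub_self] at p3
  have h3 := AnalyticOnNhd.eqOn_of_preconnected_of_eventuallyEq
    (U := {z : ℂ | z.re ∈ Ioo (-min a a') (min a a')})
    (fun z hz => ProbabilityTheory.analyticAt_complexMGF (m1 z hz))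
    (fun z hz => ProbabilityTheory.analyticAt_complexMGF (m2 z hz))
    ((convex_Ioo _ _).linear_preimage Complex.reLm).isPreconnected z0
    (p3.eventually_eq_zero.mono fun z hz => sub_eq_zero.1 hz)
    (show Complex.I.re ∈ Ioo (-min a a') (min a a') from z0)
  simpa only [ProbabilityTheory.complexMGF, mul_comm Complex.I] using h3

end Vale.Agent.P153
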