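import Vale.Agent.P153.D1d

/-! Radial laws and polarisation. -/

open MeasureTheory Filter Topology Set

noncomputable section

namespace Vale.Agent.P153

open scoped InnerProductSpace

variable {N : ℕ} {μ : Measure (EuclideanSpace ℝ (Fin N))} [IsProbabilityMeasure μ]

theorem d1e_map (h : ∀ t t', ‖t‖ = ‖t'‖ → charFun μ t = charFun μ t')
    (R : EuclideanSpace ℝ (Fin N) ≃ₗᵢ[ℝ] EuclideanSpace ℝ (Fin N)) : μ.map R = μ := by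
  refine Measure.ext_of_charFun (funext fun t => ?_)
  rw [← h (R.symm t) t (R.symm.norm_map t), charFun_apply, charFun_apply,
    integral_map R.continuous.measurable.aemeasurable (Continuous.aestronglyMeasurable (by fun_prop))]
  simp only [R.inner_map_eq_flip]

/-- The reflection `R = (ℝ ∙ (u - v))ᗮ.reflection` sends `u` to `v` (`Submodule.reflection_sub`);
`μ.map R = μ` by `Measure.ext_of_charFun` since `⟪R x, t⟫ = ⟪x, R.symm t⟫`. -/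
theorem sm_rad (h : ∀ t t', ‖t‖ = ‖t'‖ → charFun μ t = charFun μ t') (u v : EuclideanSpace ℝ (Fin N))
    (huv : ‖u‖ = ‖v‖) : sm μ u = sm μ v := by
  have h1 := Submodule.reflection_sub huv
  generalize (ℝ ∙ (u - v))ᗮ.reflection = R at h1
  have h2 : ∫ x, tent (x - v) ∂(μ.map R) = ∫ x, tent (R x - v) ∂μ :=
    integral_map_equiv R.toHomeomorph.toMeasurableEquiv _
  rw [d1e_map h R] at h2
  rw [sm, sm, h2, ← h1]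
  simp only [← map_sub, tent, R.norm_map]

omit [IsProbabilityMeasure μ] in
theorem d1e_pol {c₂ : ℝ} (hi : ∀ t, ∀ m : ℕ, Integrable (fun x => ⟪x, t⟫_ℝ ^ m) μ)
    (h4 : ∀ t, ∫ x, ⟪x, t⟫_ℝ ^ 4 ∂μ = 3 * c₂ * ‖t‖ ^ 4) (s t : EuclideanSpace ℝ (Fin N)) :
    Integrable (fun x => ⟪x, s⟫_ℝ ^ 2 * ⟪x, t⟫_ℝ ^ 2) μ ∧
      ∫ x, ⟪x, s⟫_ℝ ^ 2 * ⟪x, t⟫_ℝ ^ 2 ∂μ = c₂ * (‖s‖ ^ 2 * ‖t‖ ^ 2 + 2 * ⟪s, t⟫_ℝ ^ 2) := by
  have e : (fun x => ⟪x, s⟫_ℝ ^ 2 * ⟪x, t⟫_ℝ ^ 2) = fun x : EuclideanSpace ℝ (Fin N) =>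
      (1 / 12) * (⟪x, s + t⟫_ℝ ^ 4 + ⟪x, s - t⟫_ℝ ^ 4) -
        (1 / 6) * (⟪x, s⟫_ℝ ^ 4 + ⟪x, t⟫_ℝ ^ 4) := by
    funext x
    rw [inner_add_right, inner_sub_right]
    ring
  have a1 : Integrable (fun x => ⟪x, s + t⟫_ℝ ^ 4 + ⟪x, s - t⟫_ℝ ^ 4) μ := (hi _ 4).add (hi _ 4)
  have a2 : Integrable (fun x => ⟪x, s⟫_ℝ ^ 4 + ⟪x, t⟫_ℝ ^ 4) μ := (hi _ 4).add (hi _ 4)
  rw [e]
  refine ⟨(a1.const_mul _).sub (a2.const_mul _), ?_⟩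
  rw [integral_sub (a1.const_mul _) (a2.const_mul _), integral_const_mul, integral_const_mul,
    integral_add (hi _ 4) (hi _ 4), integral_add (hi _ 4) (hi _ 4), h4, h4, h4, h4,
    show ‖s + t‖ ^ 4 = (‖s + t‖ ^ 2) ^ 2 by ring, show ‖s - t‖ ^ 4 = (‖s - t‖ ^ 2) ^ 2 by ring,
    norm_add_sq_real, norm_sub_sq_real]
  ring

/-- `‖x‖ ^ 2 = ∑ x i ^ 2` (`EuclideanSpace.real_norm_sq_eq`), `x i = ⟪x, single i 1⟫`, and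
`12 a ^ 2 b ^ 2 = (a + b) ^ 4 + (a - b) ^ 4 - 2 a ^ 4 - 2 b ^ 4` for `i ≠ j`. -/
theorem norm_mom {c₁ c₂ : ℝ} (hi : ∀ t, ∀ m : ℕ, Integrable (fun x => ⟪x, t⟫_ℝ ^ m) μ)
    (h2 : ∀ t, ∫ x, ⟪x, t⟫_ℝ ^ 2 ∂μ = c₁ * ‖t‖ ^ 2)
    (h4 : ∀ t, ∫ x, ⟪x, t⟫_ℝ ^ 4 ∂μ = 3 * c₂ * ‖t‖ ^ 4) :
    Integrable (fun x => ‖x‖ ^ 4) μ ∧ ∫ x, ‖x‖ ^ 2 ∂μ = N * c₁ ∧
      ∫ x, ‖x‖ ^ 4 ∂μ = N * (N + 2) * c₂ := by
  let b := EuclideanSpace.basisFun (Fin N) ℝ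
  have e2 : (fun x : EuclideanSpace ℝ (Fin N) => ‖x‖ ^ 2) = fun x => ∑ i, ⟪x, b i⟫_ℝ ^ 2 :=
    funext fun x => (b.sum_sq_inner_left x).symm
  have e4 : (fun x : EuclideanSpace ℝ (Fin N) => ‖x‖ ^ 4) =
      fun x => ∑ i, ∑ j, ⟪x, b i⟫_ℝ ^ 2 * ⟪x, b j⟫_ℝ ^ 2 := funext fun x => by
    rw [← Finset.sum_mul_sum, b.sum_sq_inner_left x]
    ring
  have a1 : ∀ i, Integrable (fun x => ∑ j, ⟪x, b i⟫_ℝ ^ 2 * ⟪x, b j⟫_ℝ ^ 2) μ := fun i =>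
    integrable_finset_sum _ fun j _ => (d1e_pol hi h4 _ _).1
  rw [e2, e4]
  refine ⟨integrable_finset_sum _ fun i _ => a1 i, ?_, ?_⟩
  · rw [integral_finset_sum _ fun i _ => hi _ 2]
    simp only [h2, b.orthonormal.1, one_pow, mul_one, Finset.sum_const, Finset.card_univ,
      Fintype.card_fin, nsmul_eq_mul]
  · rw [integral_finset_sum _ fun i _ => a1 i]
    have a2 : ∀ i, ∫ x, ∑ j, ⟪x, b i⟫_ℝ ^ 2 * ⟪x, b j⟫_ℝ ^ 2 ∂μ = (N + 2) * c₂ := fun i => by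
      rw [integral_finset_sum _ fun j _ => (d1e_pol hi h4 _ _).1]
      simp only [(d1e_pol hi h4 _ _).2, b.orthonormal.1, one_pow, mul_one]
      rw [← Finset.mul_sum, Finset.sum_add_distrib, ← Finset.mul_sum, b.sum_sq_inner_left,
        b.orthonormal.1]
      simp only [Finset.sum_const, Finset.card_univ, Fintype.card_fin, nsmul_eq_mul]
      ring
    simp only [a2, Finset.sum_const, Finset.card_univ, Fintype.card_fin, nsmul_eq_mul]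
    ring

end Vale.Agent.P153
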