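import Vale.Agent.P153.D1s

/-! A moment inequality for log-concave functions of a half line. -/

open MeasureTheory Filter Topology Set

noncomputable section

namespace Vale.Agent.P153

/-- `Real.integral_rpow_mul_exp_neg_mul_Ioi`, `Real.Gamma_nat_eq_factorial`,
`integrableOn_rpow_mul_exp_neg_mul_rpow`. -/
theorem exp_mom (j : ℕ) {a : ℝ} (ha : 0 < a) :
    IntegrableOn (fun x : ℝ => x ^ j * Real.exp (-(a * x))) (Ioi 0) ∧
    ∫ x in Ioi (0 : ℝ), x ^ j * Real.exp (-(a * x)) = j.factorial / a ^ (j + 1) := by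
  have h := Real.integral_rpow_mul_exp_neg_mul_Ioi (a := j + 1) (by positivity) ha
  rw [add_sub_cancel_right, Real.Gamma_nat_eq_factorial, ← Nat.cast_succ, Real.rpow_natCast] at h
  simp only [Real.rpow_natCast] at h
  have e : ∫ x in Ioi (0 : ℝ), x ^ j * Real.exp (-(a * x)) = j.factorial / a ^ (j + 1) := by
    rw [h, one_div, inv_pow, mul_comm, div_eq_mul_inv]
  refine ⟨Integrable.of_integral_ne_zero ?_, e⟩
  rw [e]
  positivity

theorem d1c_core (n : ℕ) {d : ℝ → ℝ} (i0 : IntegrableOn (fun x : ℝ => x ^ n * d x) (Ioi 0))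
    (i2 : IntegrableOn (fun x : ℝ => x ^ (n + 2) * d x) (Ioi 0))
    (i4 : IntegrableOn (fun x : ℝ => x ^ (n + 4) * d x) (Ioi 0))
    (z0 : ∫ x in Ioi (0 : ℝ), x ^ n * d x = 0) (z2 : ∫ x in Ioi (0 : ℝ), x ^ (n + 2) * d x = 0)
    (h : (∃ s t : ℝ, ∀ x, 0 < x → d x * ((x ^ 2 - s ^ 2) * (x ^ 2 - t ^ 2)) ≤ 0) ∨
      ∃ s : ℝ, ∀ x, 0 < x → 0 ≤ d x * (x ^ 2 - s ^ 2)) :
    ∫ x in Ioi (0 : ℝ), x ^ (n + 4) * d x ≤ 0 := by
  rcases h with ⟨s, t, h⟩ | ⟨s, h⟩
  · have e := setIntegral_nonpos (μ := volume) (s := Ioi (0 : ℝ)) (f := fun x =>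
      x ^ (n + 4) * d x - ((s ^ 2 + t ^ 2) * (x ^ (n + 2) * d x) - s ^ 2 * t ^ 2 * (x ^ n * d x)))
      measurableSet_Ioi fun x hx => by
        have := mul_nonpos_of_nonneg_of_nonpos (pow_pos hx n).le (h x hx)
        refine Eq.trans_le ?_ this
        ring
    have i : IntegrableOn (fun x : ℝ => (s ^ 2 + t ^ 2) * (x ^ (n + 2) * d x) -
        s ^ 2 * t ^ 2 * (x ^ n * d x)) (Ioi 0) := (i2.const_mul _).sub (i0.const_mul _)
    rwa [integral_sub i4 i,
      integral_sub (i2.const_mul _) (i0.const_mul _), integral_const_mul, integral_const_mul, z0,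
      z2, mul_zero, mul_zero, sub_zero, sub_zero] at e
  · have e := (setIntegral_eq_zero_iff_of_nonneg_ae (μ := volume) (s := Ioi (0 : ℝ))
      (f := fun x => x ^ (n + 2) * d x - s ^ 2 * (x ^ n * d x))
      ((ae_restrict_mem measurableSet_Ioi).mono fun x hx => by
        have := mul_nonneg (pow_pos hx n).le (h x hx)
        refine this.trans_eq ?_
        ring) (i2.sub (i0.const_mul _))).1 (by
          rw [integral_sub i2 (i0.const_mul _), integral_const_mul, z0, z2, mul_zero, sub_zero])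
    have e2 : ∫ x in Ioi (0 : ℝ), x ^ (n + 4) * d x =
        ∫ x in Ioi (0 : ℝ), s ^ 2 * (x ^ (n + 2) * d x) := by
      refine integral_congr_ae (e.mono fun x hx => ?_)
      have hx' : x ^ (n + 2) * d x - s ^ 2 * (x ^ n * d x) = 0 := hx
      show x ^ (n + 4) * d x = s ^ 2 * (x ^ (n + 2) * d x)
      linear_combination x ^ 2 * hx'
    rw [e2, integral_const_mul, z2, mul_zero]

/-- Write `m j = ∫ x ^ j p`. If `m n = 0` nothing to prove; otherwise `m n, m (n + 2) > 0`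
(`setIntegral_eq_zero_iff_of_nonneg_ae`). Let `a = √((n + 1) (n + 2) m n / m (n + 2))`,
`C = m n a ^ (n + 1) / n!`: `C exp (-a x)` has the same moments `n`, `n + 2`. Integrate `sign_pat`
against `x ^ n`: first case gives `m (n + 4) ≤ C (n + 4)! / a ^ (n + 5)`; in the second the
nonnegative integrand has integral zero, so vanishes a.e., multiply by `x ^ 2`: equality. -/
theorem berwald (n : ℕ) {p : ℝ → ℝ} (hp : Continuous p) (h0 : ∀ t, 0 ≤ p t)
    (hm : ∀ s t, 0 ≤ s → 0 ≤ t → p s * p t ≤ p ((s + t) / 2) ^ 2)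
    (i0 : IntegrableOn (fun x : ℝ => x ^ n * p x) (Ioi 0))
    (i2 : IntegrableOn (fun x : ℝ => x ^ (n + 2) * p x) (Ioi 0))
    (i4 : IntegrableOn (fun x : ℝ => x ^ (n + 4) * p x) (Ioi 0)) :
    (∫ x in Ioi (0 : ℝ), x ^ (n + 4) * p x) * (∫ x in Ioi (0 : ℝ), x ^ n * p x) *
      ((n + 1) * (n + 2)) ≤ (∫ x in Ioi (0 : ℝ), x ^ (n + 2) * p x) ^ 2 * ((n + 3) * (n + 4)) := by
  have hn : ∀ j : ℕ, 0 ≤ᵐ[volume.restrict (Ioi (0 : ℝ))] fun x : ℝ => x ^ j * p x := fun j =>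
    (ae_restrict_mem measurableSet_Ioi).mono fun x hx => mul_nonneg (pow_pos hx j).le (h0 x)
  rcases (integral_nonneg_of_ae (hn n)).eq_or_lt with p0 | p0
  · rw [← p0, mul_zero, zero_mul]
    positivity
  have p2 : 0 < ∫ x in Ioi (0 : ℝ), x ^ (n + 2) * p x := by
    refine (integral_nonneg_of_ae (hn (n + 2))).lt_of_ne' fun e => p0.ne' ?_
    refine integral_eq_zero_of_ae ?_
    filter_upwards [(setIntegral_eq_zero_iff_of_nonneg_ae (hn (n + 2)) i2).1 e,
      ae_restrict_mem measurableSet_Ioi] with x h1 hx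
    have h2 : x ^ (n + 2) * p x = 0 := h1
    rw [(mul_eq_zero.1 h2).resolve_left (pow_pos hx _).ne', mul_zero, Pi.zero_apply]
  obtain ⟨m0, e0⟩ : ∃ m, ∫ x in Ioi (0 : ℝ), x ^ n * p x = m := ⟨_, rfl⟩
  obtain ⟨m2, e2⟩ : ∃ m, ∫ x in Ioi (0 : ℝ), x ^ (n + 2) * p x = m := ⟨_, rfl⟩
  obtain ⟨m4, e4⟩ : ∃ m, ∫ x in Ioi (0 : ℝ), x ^ (n + 4) * p x = m := ⟨_, rfl⟩
  rw [e0] at p0
  rw [e2] at p2
  rw [e0, e2, e4]
  obtain ⟨a, ha, ha2⟩ : ∃ a : ℝ, 0 < a ∧ m2 = (n + 1) * (n + 2) * m0 / a ^ 2 := by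
    refine ⟨√((n + 1) * (n + 2) * m0 / m2), by positivity, ?_⟩
    rw [Real.sq_sqrt (by positivity)]
    field_simp
  have hf : (0 : ℝ) < n.factorial := by positivity
  set C := m0 * a ^ (n + 1) / n.factorial with hC
  have key : ∀ j : ℕ, IntegrableOn (fun x : ℝ => x ^ j * p x) (Ioi 0) →
      IntegrableOn (fun x : ℝ => x ^ j * (p x - C * Real.exp (-(a * x)))) (Ioi 0) ∧
      ∫ x in Ioi (0 : ℝ), x ^ j * (p x - C * Real.exp (-(a * x))) =
        (∫ x in Ioi (0 : ℝ), x ^ j * p x) - C * (j.factorial / a ^ (j + 1)) := fun j hj => by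
    have e : (fun x : ℝ => x ^ j * (p x - C * Real.exp (-(a * x)))) =
        fun x => x ^ j * p x - C * (x ^ j * Real.exp (-(a * x))) := funext fun x => by ring
    rw [e, integral_sub hj ((exp_mom j ha).1.const_mul C), integral_const_mul, (exp_mom j ha).2]
    exact ⟨hj.sub ((exp_mom j ha).1.const_mul C), rfl⟩
  have h := d1c_core n (key n i0).1 (key _ i2).1 (key _ i4).1
    (by
      rw [(key n i0).2, e0, hC]
      field_simp
      ring)
    (by
      rw [(key _ i2).2, e2, hC, ha2, Nat.factorial_succ, Nat.factorial_succ]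
      push_cast
      field_simp
      ring)
    (sign_pat hp h0 hm (by positivity))
  rw [(key _ i4).2, e4, sub_nonpos] at h
  refine (mul_le_mul_of_nonneg_right (mul_le_mul_of_nonneg_right h p0.le) (by positivity)).trans_eq
    ?_
  rw [hC, ha2, Nat.factorial_succ, Nat.factorial_succ, Nat.factorial_succ, Nat.factorial_succ]
  push_cast
  field_simp
  ring

end Vale.Agent.P153
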