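import Vale.Agent.P153.D1m
import Vale.Agent.P153.D1c

/-! The thin shell inequality for radial log-concave laws. -/

open MeasureTheory Filter Topology Set

noncomputable section

namespace Vale.Agent.P153

theorem d1r_polar {n : ℕ} {μ : Measure (EuclideanSpace ℝ (Fin (n + 1)))} [IsProbabilityMeasure μ]
    (h4 : Integrable (fun x => ‖x‖ ^ 4) μ) {p : ℝ → ℝ} (hp : ∀ u, sm μ u = p ‖u‖) {j : ℕ}
    (hj : j ≤ 4) : IntegrableOn (fun x : ℝ => x ^ (n + j) * p x) (Ioi 0) ∧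
    ∫ u, ‖u‖ ^ j * sm μ u =
      ((n + 1 : ℕ) * volume.real (Metric.ball (0 : EuclideanSpace ℝ (Fin (n + 1))) 1)) *
        ∫ x in Ioi (0 : ℝ), x ^ (n + j) * p x := by
  have e1 : (fun u : EuclideanSpace ℝ (Fin (n + 1)) => ‖u‖ ^ j * sm μ u) =
      fun u => (fun y : ℝ => y ^ j * p y) ‖u‖ := by
    funext u
    rw [hp]
  have e2 : (fun y : ℝ => y ^ (Module.finrank ℝ (EuclideanSpace ℝ (Fin (n + 1))) - 1) •
      (y ^ j * p y)) = fun x : ℝ => x ^ (n + j) * p x := by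
    funext y
    rw [finrank_euclideanSpace_fin, Nat.add_sub_cancel, smul_eq_mul, pow_add, mul_assoc]
  have h1 := (sm_fub h4 hj).1
  rw [e1] at h1
  have h2 := (integrable_fun_norm_addHaar volume (f := fun y : ℝ => y ^ j * p y)).1 h1
  have h3 := integral_fun_norm_addHaar (volume : Measure (EuclideanSpace ℝ (Fin (n + 1))))
    (fun y : ℝ => y ^ j * p y)
  rw [e2] at h2 h3
  refine ⟨h2, ?_⟩
  rw [e1, h3, finrank_euclideanSpace_fin, nsmul_eq_mul, smul_eq_mul, mul_assoc]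

/-- Let `e = EuclideanSpace.single 0 1`, `p t = sm μ (t • e)`, so `sm μ u = p ‖u‖`. By
`integral_fun_norm_addHaar` and `integrable_fun_norm_addHaar`, `∫ ‖u‖ ^ j sm μ u = κ ∫ x ^ (n + j) p`
with `κ = (n + 1) * volume.real (ball 0 1)`. Use `berwald`, `sm_mom`, `tent_pos`. -/
theorem shell_rad {n : ℕ} {μ : Measure (EuclideanSpace ℝ (Fin (n + 1)))} [IsProbabilityMeasure μ]
    (h4 : Integrable (fun x => ‖x‖ ^ 4) μ) (hr : ∀ u v, ‖u‖ = ‖v‖ → sm μ u = sm μ v)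
    (hm : ∀ u v, sm μ u * sm μ v ≤ sm μ ((1 / 2 : ℝ) • (u + v)) ^ 2) :
    (∫ x, ‖x‖ ^ 4 ∂μ) * ((n + 1) * (n + 2)) ≤ (∫ x, ‖x‖ ^ 2 ∂μ + 1) ^ 2 * ((n + 3) * (n + 4)) := by
  obtain ⟨e, he⟩ : ∃ e : EuclideanSpace ℝ (Fin (n + 1)), ‖e‖ = 1 :=
    ⟨EuclideanSpace.single 0 1, by simp⟩
  obtain ⟨p, hp⟩ : ∃ p : ℝ → ℝ, ∀ t, p t = sm μ (t • e) := ⟨_, fun _ => rfl⟩
  have hpu : ∀ u, sm μ u = p ‖u‖ := fun u => by
    rw [hp]
    exact hr _ _ (by rw [norm_smul, he, mul_one, norm_norm])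
  have hc : Continuous p := by
    rw [show p = fun t => sm μ (t • e) from funext hp]
    exact sm_cont.comp (continuous_id.smul continuous_const)
  have h0 : ∀ t, 0 ≤ p t := fun t => by
    rw [hp]
    exact sm_nonneg _
  have hmid : ∀ s t, 0 ≤ s → 0 ≤ t → p s * p t ≤ p ((s + t) / 2) ^ 2 := fun s t _ _ => by
    have := hm (s • e) (t • e)
    rw [← add_smul, smul_smul, show 1 / 2 * (s + t) = (s + t) / 2 by ring] at this
    rw [hp, hp, hp]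
    exact this
  obtain ⟨i0, j0⟩ := d1r_polar h4 hpu (j := 0) (by norm_num)
  obtain ⟨i2, j2⟩ := d1r_polar h4 hpu (j := 2) (by norm_num)
  obtain ⟨i4, j4⟩ := d1r_polar h4 hpu (j := 4) le_rfl
  simp only [pow_zero, one_mul, add_zero] at i0 j0
  have hb := berwald n hc h0 hmid i0 i2 i4
  obtain ⟨m0, m2, m4⟩ := sm_mom h4
  have hτ := tent_pos (N := n + 1)
  have n2 : 0 ≤ ∫ u, ‖u‖ ^ 2 * sm μ u :=
    integral_nonneg fun u => mul_nonneg (by positivity) (sm_nonneg u)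
  generalize ((n + 1 : ℕ) * volume.real (Metric.ball (0 : EuclideanSpace ℝ (Fin (n + 1))) 1) : ℝ)
    = κ at j0 j2 j4
  have hb2 := mul_le_mul_of_nonneg_left hb (sq_nonneg κ)
  have hb3 : (∫ u, ‖u‖ ^ 4 * sm μ u) * (∫ u, sm μ u) * ((n + 1) * (n + 2)) ≤
      (∫ u, ‖u‖ ^ 2 * sm μ u) ^ 2 * ((n + 3) * (n + 4)) := by
    rw [j0, j2, j4]
    linarith
  rw [m0] at hb3
  have k2 := pow_le_pow_left₀ n2 m2 2
  generalize (∫ y : EuclideanSpace ℝ (Fin (n + 1)), tent y) = τ at hτ m4 hb3 k2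
  have c1 : (0 : ℝ) ≤ (n + 1) * (n + 2) := by positivity
  have c2 : (0 : ℝ) ≤ (n + 3) * (n + 4) := by positivity
  have k3 := mul_le_mul_of_nonneg_right k2 c2
  have k4 := mul_le_mul_of_nonneg_right (mul_le_mul_of_nonneg_right m4 hτ.le) c1
  refine le_of_mul_le_mul_left ?_ (pow_pos hτ 2)
  linarith

end Vale.Agent.P153
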