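import Vale.Agent.P152.C4bH

/-! From Gaussian moments to the characteristic function, along any filter. -/

open MeasureTheory Filter Topology Set

noncomputable section

namespace Vale.Agent.P153

open Vale.Agent.P152.C4

variable {Ω : Type} [MeasurableSpace Ω] {P : Measure Ω} [IsProbabilityMeasure P]

theorem d3a_err {Y : Ω → ℝ} (hY : AEStronglyMeasurable Y P)
    (hI : ∀ n : ℕ, Integrable (fun ω => Y ω ^ n) P) (N : ℕ) :
    ‖∫ ω, Complex.exp (Y ω * Complex.I) ∂P - ∑ k ∈ Finset.range (2 * N),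
      ((∫ ω, Y ω ^ k ∂P : ℝ) : ℂ) * (Complex.I ^ k / (k.factorial : ℂ))‖ ≤
        (∫ ω, Y ω ^ (2 * N) ∂P) / (2 * N).factorial := by
  have i1 : Integrable (fun ω => Complex.exp (Y ω * Complex.I)) P :=
    (integrable_const (1 : ℝ)).mono'
      (Complex.continuous_exp.comp_aestronglyMeasurable
        ((Complex.continuous_ofReal.comp_aestronglyMeasurable hY).mul_const _))
      (Eventually.of_forall fun ω => (Complex.norm_exp_ofReal_mul_I _).le)
  have i2 : ∀ k : ℕ, Integrable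
      (fun ω => ((Y ω ^ k : ℝ) : ℂ) * (Complex.I ^ k / (k.factorial : ℂ))) P := fun k =>
    (hI k).ofReal.mul_const _
  simp only [← integral_complex_ofReal, ← integral_mul_const]
  rw [← integral_finsetSum _ fun k _ => i2 k,
    ← integral_sub i1 (integrable_finsetSum _ fun k _ => i2 k), ← integral_div]
  refine norm_integral_le_of_norm_le ((hI _).div_const _) (Eventually.of_forall fun ω => ?_)
  have h := exp_taylor (2 * N) (Y ω)
  rw [(even_two_mul N).pow_abs] at h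
  simpa only [mul_pow, mul_div_assoc, Complex.ofReal_pow] using h

theorem char_of_mom {ι : Type} {l : Filter ι} [l.NeBot] {Z : ι → Ω → ℝ}
    (hZ : ∀ᶠ δ in l, AEStronglyMeasurable (Z δ) P ∧ ∀ n : ℕ, Integrable (fun ω => Z δ ω ^ n) P)
    {M : ℕ → ℝ} (hM : ∀ n, Tendsto (fun δ => ∫ ω, Z δ ω ^ n ∂P) l (𝓝 (M n))) (h1 : M 1 = 0)
    (h2 : ∀ n, M (n + 2) = (n + 1) * M 2 * M n) :
    Tendsto (fun δ => ∫ ω, Complex.exp (Z δ ω * Complex.I) ∂P) l
      (𝓝 (Real.exp (-(M 2 / 2)) : ℂ)) := by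
  have h0 : M 0 = 1 := by
    refine tendsto_nhds_unique (hM 0) ?_
    simp
  have hs : Tendsto (fun N => ∑ l ∈ Finset.range N, (-(M 2 / 2)) ^ l / (l.factorial : ℝ)) atTop
      (𝓝 (Real.exp (-(M 2 / 2)))) := by
    rw [Real.exp_eq_exp_ℝ]
    exact (NormedSpace.expSeries_div_hasSum_exp (-(M 2 / 2))).tendsto_sum_nat
  have hz := (Real.summable_pow_div_factorial (M 2 / 2)).tendsto_atTop_zero
  refine Metric.tendsto_nhds.2 fun ε hε => ?_
  have hε3 : 0 < ε / 3 := by positivity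
  obtain ⟨N, hN1, hN2⟩ := ((Metric.tendsto_nhds.1 hs _ hε3).and (hz.eventually_lt_const hε3)).exists
  have t1 : Tendsto (fun δ => ∑ k ∈ Finset.range (2 * N),
      ((∫ ω, Z δ ω ^ k ∂P : ℝ) : ℂ) * (Complex.I ^ k / (k.factorial : ℂ))) l
      (𝓝 (∑ k ∈ Finset.range (2 * N), (M k : ℂ) * (Complex.I ^ k / (k.factorial : ℂ)))) :=
    tendsto_finsetSum _ fun k _ => ((Complex.continuous_ofReal.tendsto _).comp (hM k)).mul_const _
  rw [c4bh_part h0 h1 h2] at t1
  have t2 := (hM (2 * N)).div_const ((2 * N).factorial : ℝ)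
  rw [(c4bh_mom h0 h1 h2 N).1] at t2
  filter_upwards [hZ, Metric.tendsto_nhds.1 t1 _ hε3, t2.eventually_lt_const hN2]
    with δ hδ e1 e2
  have e3 := d3a_err (P := P) hδ.1 hδ.2 N
  rw [← dist_eq_norm] at e3
  rw [← Complex.isometry_ofReal.dist_eq] at hN1
  refine (dist_triangle4 _ _ _ _).trans_lt
    ((add_lt_add (add_lt_add (e3.trans_lt e2) e1) hN1).trans_eq ?_)
  ring

end Vale.Agent.P153
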