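import Vale.Agent.P153.T2

/-! Bounds for the covariance form. -/

open MeasureTheory Filter Topology

noncomputable section

namespace Vale.Agent.P153

variable {f : ℂ → ℝ}

/-- Three ranges of frequencies: `ft_le_m1`, `ft_le`, `ft_le_tv`. -/
theorem cov_le (hf : Test f) {a b : ℝ} (ha : 0 < a) (hb : a ≤ b) :
    cov f f ≤ 4 * a ^ 2 * m1 f ^ 2 + (∫ z, |f z|) ^ 2 * Real.log (b / a) + tv f ^ 2 / b ^ 2 := by
  obtain ⟨i1, e1⟩ := int_ball ha.le
  obtain ⟨i2, e2⟩ := int_annulus ha hb
  obtain ⟨i3, e3⟩ := int_tail (ha.trans_le hb)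
  have hπ := Real.pi_gt_three
  have j1 := i1.const_mul (m1 f ^ 2)
  have j2 := i2.const_mul ((∫ z, |f z|) ^ 2 / (2 * Real.pi))
  have j3 := i3.const_mul (tv f ^ 2 / Real.pi)
  rw [cov_self]
  refine (integral_mono_of_nonneg (Eventually.of_forall fun ξ => by positivity) ((j1.add j2).add j3)
    (Eventually.of_forall fun ξ => ?_)).trans ?_
  · simp only [Pi.add_apply, Set.indicator, Set.mem_ofPred_eq]
    have n0 := norm_nonneg (ft f ξ)
    by_cases h1 : ‖ξ‖ ≤ a
    · rw [if_pos h1, if_neg fun h => h.1.not_ge h1, if_neg (not_lt.2 (h1.trans hb)), mul_one,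
        mul_zero, mul_zero, add_zero, add_zero]
      refine div_le_of_le_mul₀ (by positivity) (sq_nonneg _) ?_
      exact (pow_le_pow_left₀ n0 (ft_le_m1 hf ξ) 2).trans_eq (by ring)
    have x0 : 0 < ‖ξ‖ := ha.trans (not_le.1 h1)
    by_cases h2 : ‖ξ‖ ≤ b
    · rw [if_neg h1, if_pos ⟨not_le.1 h1, h2⟩, if_neg (not_lt.2 h2), mul_zero, mul_zero, zero_add,
        add_zero, ← div_eq_mul_inv, div_div]
      refine div_le_div₀ (sq_nonneg _) (pow_le_pow_left₀ n0 (ft_le f ξ) 2) (by positivity)
        (mul_le_mul_of_nonneg_right (by nlinarith) (sq_nonneg _))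
    · rw [if_neg h1, if_neg fun h => h2 h.2, if_pos (not_le.1 h2), mul_zero, mul_zero, zero_add,
        zero_add, ← div_eq_mul_inv, div_div, div_le_div_iff₀ (by positivity) (by positivity)]
      have h3 := pow_le_pow_left₀ (by positivity) (ft_le_tv hf.cc ξ) 2
      calc _ = (2 * Real.pi * ‖ξ‖ * ‖ft f ξ‖) ^ 2 * ((4 * Real.pi)⁻¹ * ‖ξ‖ ^ 2) := by
            field_simp
            ring
        _ ≤ _ := by
          refine mul_le_mul h3 (mul_le_mul_of_nonneg_right ?_ (sq_nonneg _)) (by positivity)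
            (sq_nonneg _)
          exact (inv_le_one_of_one_le₀ (by linarith)).trans (by nlinarith)
  · rw [integral_add' (j1.add j2) j3, integral_add' j1 j2, integral_const_mul, integral_const_mul,
      integral_const_mul, e1, e2, e3]
    refine add_le_add (add_le_add ?_ (le_of_eq ?_)) (le_of_eq ?_)
    · nlinarith [mul_nonneg (mul_nonneg (sq_nonneg a) (sq_nonneg (m1 f)))
        (sub_nonneg.2 Real.pi_le_four)]
    · field_simp
    · field_simp

theorem m1_nonneg (f : ℂ → ℝ) : 0 ≤ m1 f := integral_nonneg fun _ => by positivity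

theorem tv_nonneg (f : ℂ → ℝ) : 0 ≤ tv f := integral_nonneg fun _ => norm_nonneg _

theorem m1_le (hf : Cc f) {R : ℝ} (hR : tsupport f ⊆ Metric.closedBall 0 R) :
    m1 f ≤ R * ∫ z, |f z| := by
  rw [← integral_const_mul]
  refine integral_mono_of_nonneg (Eventually.of_forall fun z => by positivity)
    (hf.int.abs.const_mul R) (Eventually.of_forall fun z => ?_)
  by_cases h : z ∈ tsupport f
  · exact mul_le_mul_of_nonneg_right (mem_closedBall_zero_iff.1 (hR h)) (abs_nonneg _)
  · simp only [image_eq_zero_of_notMem_tsupport h, abs_zero, mul_zero, le_refl]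

theorem t3_lim (hf : Cc f) {w : ℂ → ℝ} (hw : Continuous w) :
    Tendsto (fun a : ℂ => ∫ z, w z * |tr a f z - f z|) (𝓝 0) (𝓝 0) := by
  obtain ⟨R, hR⟩ := hf.2.isCompact.isBounded.subset_closedBall 0
  have hc := hf.1.continuous
  have h0 : ∀ z, R < ‖z‖ → f z = 0 := fun z hz => image_eq_zero_of_notMem_tsupport
    fun h => hz.not_ge (mem_closedBall_zero_iff.1 (hR h))
  have h1 : ContinuousOn (fun a : ℂ => ∫ z, w z * |tr a f z - f z|) (Metric.closedBall 0 1) := by
    refine continuousOn_integral_of_compact_support (isCompact_closedBall (0 : ℂ) (R + 1))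
      (Continuous.continuousOn ?_) fun a z ha hz => ?_
    · unfold tr Function.uncurry
      fun_prop
    · rw [mem_closedBall_zero_iff] at ha hz
      rw [tr, h0 z (by linarith), h0 (z - a) (by linarith [norm_sub_norm_le z a]), sub_self,
        abs_zero, mul_zero]
  have h2 := (h1.continuousAt (Metric.closedBall_mem_nhds 0 one_pos)).tendsto
  simpa only [tr_zero, sub_self, abs_zero, mul_zero, integral_zero] using h2

theorem t3_tv (hf : Cc f) (a : ℂ) : (tv fun z => tr a f z - f z) ≤ 2 * tv f := by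
  have hd : Differentiable ℝ f := hf.1.differentiable (by simp)
  have hi : Integrable fun z => ‖fderiv ℝ f z‖ :=
    ((hf.1.continuous_fderiv (by simp)).integrable_of_hasCompactSupport (hf.2.fderiv ℝ)).norm
  have hi' := hi.comp_sub_right a
  rw [two_mul]
  nth_rw 2 [tv]
  rw [← integral_sub_right_eq_self _ a, tv, tv, ← integral_add hi' hi]
  refine integral_mono_of_nonneg (Eventually.of_forall fun z => norm_nonneg _) (hi'.add hi)
    (Eventually.of_forall fun z => ?_)
  have h1 : HasFDerivAt (fun z => tr a f z - f z) (fderiv ℝ f (z - a) - fderiv ℝ f z) z :=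
    ((hasFDerivAt_comp_sub a).2 (hd (z - a)).hasFDerivAt).sub (hd z).hasFDerivAt
  simp only [h1.fderiv]
  exact norm_sub_le _ _

/-- Uniform continuity on a compact set. -/
theorem l1_tr (hf : Cc f) : Tendsto (fun a : ℂ => ∫ z, |tr a f z - f z|) (𝓝 0) (𝓝 0) := by
  simpa only [one_mul] using t3_lim hf (w := fun _ => 1) continuous_const

/-- First factor small, second factor at most `2 tv f`. -/
theorem m1_tv_tr (hf : Cc f) : Tendsto (fun a : ℂ =>
    m1 (fun z => tr a f z - f z) * tv fun z => tr a f z - f z) (𝓝 0) (𝓝 0) := by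
  have h := (t3_lim hf continuous_norm).mul_const (2 * tv f)
  rw [zero_mul] at h
  exact squeeze_zero (fun a => mul_nonneg (m1_nonneg _) (tv_nonneg _))
    (fun a => mul_le_mul_of_nonneg_left (t3_tv hf a) (m1_nonneg _)) h

end Vale.Agent.P153

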