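import Vale.Agent.P153.Defs

/-! Radial integrals. -/

open MeasureTheory Filter Topology

noncomputable section

namespace Vale.Agent.P153

theorem t3r_key {s t : Set ℝ} (hs : MeasurableSet s) (ht : Set.Ioi 0 ∩ s = t) (f : ℝ → ℝ)
    {g : ℝ → ℝ} (he : ∀ y ∈ t, g y = y * f y) (hg : IntegrableOn g t) :
    Integrable (Set.indicator {ξ : ℂ | ‖ξ‖ ∈ s} fun ξ => f ‖ξ‖) ∧
    ∫ ξ : ℂ, Set.indicator {ξ : ℂ | ‖ξ‖ ∈ s} (fun ξ => f ‖ξ‖) ξ = 2 * Real.pi * ∫ y in t, g y := by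
  have e : (Set.indicator {ξ : ℂ | ‖ξ‖ ∈ s} fun ξ => f ‖ξ‖) = fun ξ => s.indicator f ‖ξ‖ := rfl
  have e2 : (fun y : ℝ => y ^ (Module.finrank ℝ ℂ - 1) • s.indicator f y) =
      s.indicator fun y => y * f y := by
    funext y
    simp [Set.indicator_mul_right]
  have hm : MeasurableSet t := ht ▸ measurableSet_Ioi.inter hs
  rw [e, integrable_fun_norm_addHaar, integral_fun_norm_addHaar, e2, integrableOn_indicator_iff hs,
    setIntegral_indicator hs, Set.inter_comm s, ht, setIntegral_congr_fun hm he]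
  refine ⟨hg.congr_fun he hm, ?_⟩
  simp [Measure.real, mul_assoc]

theorem t3r_Ioi {b : ℝ} (hb : 0 < b) : Set.Ioi 0 ∩ Set.Ioi b = Set.Ioi b :=
  Set.inter_eq_right.2 (Set.Ioi_subset_Ioi hb.le)

/-- `integral_fun_norm_addHaar` or `Complex.integral_comp_polarCoord_symm`. -/
theorem int_ball {a : ℝ} (ha : 0 ≤ a) :
    Integrable (Set.indicator {ξ : ℂ | ‖ξ‖ ≤ a} fun _ => (1 : ℝ)) ∧
    ∫ ξ : ℂ, Set.indicator {ξ : ℂ | ‖ξ‖ ≤ a} (fun _ => (1 : ℝ)) ξ = Real.pi * a ^ 2 := by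
  obtain ⟨h1, h2⟩ := t3r_key measurableSet_Iic (Set.Ioi_inter_Iic (a := 0) (b := a)) (fun _ => 1)
    (g := fun y => y) (fun y _ => (mul_one y).symm)
    (continuous_id.integrableOn_Icc.mono_set Set.Ioc_subset_Icc_self)
  refine ⟨h1, h2.trans ?_⟩
  rw [← intervalIntegral.integral_of_le ha, integral_id]
  ring

theorem int_annulus {a b : ℝ} (ha : 0 < a) (hb : a ≤ b) :
    Integrable (Set.indicator {ξ : ℂ | a < ‖ξ‖ ∧ ‖ξ‖ ≤ b} fun ξ => (‖ξ‖ ^ 2)⁻¹) ∧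
    ∫ ξ : ℂ, Set.indicator {ξ : ℂ | a < ‖ξ‖ ∧ ‖ξ‖ ≤ b} (fun ξ => (‖ξ‖ ^ 2)⁻¹) ξ =
      2 * Real.pi * Real.log (b / a) := by
  obtain ⟨h1, h2⟩ := t3r_key (s := Set.Ioc a b) measurableSet_Ioc
    (Set.inter_eq_right.2 fun y hy => ha.trans hy.1) (fun y => (y ^ 2)⁻¹) (g := fun y => y⁻¹)
    (fun y hy => by field_simp [(ha.trans hy.1).ne'])
    ((continuousOn_id.inv₀ fun y hy => (ha.trans_le hy.1).ne').integrableOn_Icc.mono_set
      Set.Ioc_subset_Icc_self)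
  refine ⟨h1, h2.trans ?_⟩
  rw [← intervalIntegral.integral_of_le hb, integral_inv_of_pos ha (ha.trans_le hb)]

theorem int_tail {b : ℝ} (hb : 0 < b) :
    Integrable (Set.indicator {ξ : ℂ | b < ‖ξ‖} fun ξ => (‖ξ‖ ^ 4)⁻¹) ∧
    ∫ ξ : ℂ, Set.indicator {ξ : ℂ | b < ‖ξ‖} (fun ξ => (‖ξ‖ ^ 4)⁻¹) ξ = Real.pi / b ^ 2 := by
  obtain ⟨h1, h2⟩ := t3r_key measurableSet_Ioi (t3r_Ioi hb) (fun y => (y ^ 4)⁻¹)
    (g := fun y => y ^ (-3 : ℝ)) (fun y hy => by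
      have := hb.trans hy
      rw [Real.rpow_neg this.le, Real.rpow_ofNat]
      field_simp) (integrableOn_Ioi_rpow_of_lt (by norm_num) hb)
  refine ⟨h1, h2.trans ?_⟩
  rw [integral_Ioi_rpow_of_lt (by norm_num) hb, show (-3 + 1 : ℝ) = -2 by norm_num,
    Real.rpow_neg hb.le, Real.rpow_ofNat]
  field_simp

theorem int_inv_ball : Integrable (Set.indicator {ξ : ℂ | ‖ξ‖ ≤ 1} fun ξ => ‖ξ‖⁻¹) :=
  (t3r_key measurableSet_Iic (Set.Ioi_inter_Iic (a := 0) (b := 1)) (fun y => y⁻¹)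
    (g := fun _ => 1) (fun _ hy => (mul_inv_cancel₀ hy.1.ne').symm)
    (continuous_const.integrableOn_Icc.mono_set Set.Ioc_subset_Icc_self)).1

theorem int_cube_tail : Integrable (Set.indicator {ξ : ℂ | 1 < ‖ξ‖} fun ξ => (‖ξ‖ ^ 3)⁻¹) :=
  (t3r_key measurableSet_Ioi (t3r_Ioi one_pos) (fun y => (y ^ 3)⁻¹)
    (g := fun y => y ^ (-2 : ℝ)) (fun y hy => by
      have : 0 < y := one_pos.trans (Set.mem_Ioi.1 hy)
      rw [Real.rpow_neg this.le, Real.rpow_ofNat]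
      field_simp) (integrableOn_Ioi_rpow_of_lt (by norm_num) one_pos)).1

end Vale.Agent.P153

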