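import Vale.Agent.P153.T2F
import Vale.Agent.P153.T3R

/-! The covariance form. -/

open MeasureTheory Filter Topology

noncomputable section

namespace Vale.Agent.P153

variable {f g u : ℂ → ℝ}

theorem t2_m1 (f : ℂ → ℝ) : 0 ≤ m1 f := integral_nonneg fun z => by positivity

/-- `ft_le_m1` on the unit ball, Plancherel outside. -/
theorem cov_int (hf : Test f) (hg : Test g) : Integrable fun ξ : ℂ =>
    (ft f ξ * (starRingEnd ℂ) (ft g ξ)).re / (4 * Real.pi ^ 2 * ‖ξ‖ ^ 2) := by
  have c1 := ft_cont hf.cc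
  have c2 := ft_cont hg.cc
  have c3 : Continuous fun ξ : ℂ => (ft f ξ * (starRingEnd ℂ) (ft g ξ)).re :=
    Complex.continuous_re.comp (c1.mul (Complex.continuous_conj.comp c2))
  have c4 : Continuous fun ξ : ℂ => 4 * Real.pi ^ 2 * ‖ξ‖ ^ 2 := by fun_prop
  refine (((int_ball zero_le_one).1.const_mul (m1 f * m1 g)).add
    (ft_planch hf.cc hg.cc).1.abs).mono' (c3.measurable.div c4.measurable).aestronglyMeasurable
    (Eventually.of_forall fun ξ => ?_)
  have hm := mul_nonneg (t2_m1 f) (t2_m1 g)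
  have hp := Real.pi_gt_three
  have h0 := abs_nonneg (ft f ξ * (starRingEnd ℂ) (ft g ξ)).re
  rw [Real.norm_eq_abs, abs_div, abs_of_nonneg (a := 4 * Real.pi ^ 2 * ‖ξ‖ ^ 2) (by positivity)]
  simp only [Pi.add_apply, Set.indicator_apply, Set.mem_setOf_eq]
  split_ifs with h
  · have h1 : |(ft f ξ * (starRingEnd ℂ) (ft g ξ)).re| ≤
        m1 f * m1 g * (4 * Real.pi ^ 2 * ‖ξ‖ ^ 2) := by
      refine (Complex.abs_re_le_norm _).trans ?_
      rw [norm_mul, Complex.norm_conj]
      refine (mul_le_mul (ft_le_m1 hf ξ) (ft_le_m1 hg ξ) (norm_nonneg _)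
        (mul_nonneg (by positivity) (t2_m1 f))).trans_eq (by ring)
    have h2 := div_le_of_le_mul₀ (by positivity) hm h1
    linarith
  · have h1 : 1 < ‖ξ‖ := not_le.1 h
    have h2 : 1 ≤ 4 * Real.pi ^ 2 * ‖ξ‖ ^ 2 :=
      one_le_mul_of_one_le_of_one_le (by nlinarith) (by nlinarith)
    have h3 := div_le_self h0 h2
    linarith

theorem cov_self (f : ℂ → ℝ) :
    cov f f = ∫ ξ : ℂ, ‖ft f ξ‖ ^ 2 / (4 * Real.pi ^ 2 * ‖ξ‖ ^ 2) := by
  simp only [cov, Complex.mul_conj, Complex.ofReal_re, Complex.normSq_eq_norm_sq]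

theorem cov_symm (f g : ℂ → ℝ) : cov f g = cov g f := by
  refine integral_congr_ae (Eventually.of_forall fun ξ => ?_)
  simp only [Complex.mul_re, Complex.conj_re, Complex.conj_im]
  ring

theorem cov_nonneg (f : ℂ → ℝ) : 0 ≤ cov f f := by
  rw [cov_self]
  exact integral_nonneg fun ξ => by positivity

theorem cov_lin {h : ℂ → ℝ} (hf : Test f) (hg : Test g) (hh : Test h) (a b : ℝ) :
    cov (fun z => a * f z + b * g z) h = a * cov f h + b * cov g h := by
  unfold cov
  rw [← integral_const_mul, ← integral_const_mul,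
    ← integral_add ((cov_int hf hh).const_mul a) ((cov_int hg hh).const_mul b)]
  refine integral_congr_ae (Eventually.of_forall fun ξ => ?_)
  simp only [ft_lin hf.cc hg.cc, Complex.mul_re, Complex.mul_im, Complex.add_re, Complex.add_im,
    Complex.ofReal_re, Complex.ofReal_im, Complex.conj_re, Complex.conj_im]
  ring

theorem cov_smul (hf : Test f) (hg : Test g) (a : ℝ) : cov (fun z => a * f z) g = a * cov f g := by
  simpa using cov_lin hf hf hg a 0

theorem cov_sum {ι : Type} (s : Finset ι) (a : ι → ℝ) {F : ι → ℂ → ℝ} (hF : ∀ i, Test (F i))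
    (hg : Test g) : cov (fun z => ∑ i ∈ s, a i * F i z) g = ∑ i ∈ s, a i * cov (F i) g := by
  classical
  induction s using Finset.induction_on with
  | empty => simpa using cov_smul hg hg 0
  | insert j s hj ih =>
    have h := cov_lin (hF j) (Test.sum s fun i _ => (hF i).smul (a i)) hg (a j) 1
    simp only [one_mul] at h
    simp only [Finset.sum_insert hj]
    rw [h, ih]

theorem t2_sq (hf : Test f) (hg : Test g) (a b : ℝ) :
    cov (fun z => a * f z + b * g z) (fun z => a * f z + b * g z) =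
      a ^ 2 * cov f f + 2 * a * b * cov f g + b ^ 2 * cov g g := by
  rw [cov_lin hf hg (hf.lin hg a b), cov_symm f, cov_symm g, cov_lin hf hg hf, cov_lin hf hg hg,
    cov_symm g f]
  ring

/-- `discrim_le_zero`. -/
theorem cov_cs (hf : Test f) (hg : Test g) : |cov f g| ≤ √(cov f f) * √(cov g g) := by
  have h := discrim_le_zero (a := cov f f) (b := 2 * cov f g) (c := cov g g) fun x => by
    have h1 := cov_nonneg fun z => x * f z + 1 * g z
    rw [t2_sq hf hg] at h1
    linarith
  rw [← Real.sqrt_mul (cov_nonneg f)]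
  refine Real.abs_le_sqrt ?_
  unfold discrim at h
  linarith

theorem cov_tr (f g : ℂ → ℝ) (a : ℂ) : cov (tr a f) (tr a g) = cov f g := by
  refine integral_congr_ae (Eventually.of_forall fun ξ => ?_)
  simp only [ft_tr]
  generalize (-2 * Real.pi * inner ℝ a ξ : ℝ) = t
  have h : Complex.exp (t * Complex.I) * (starRingEnd ℂ) (Complex.exp (t * Complex.I)) = 1 := by
    rw [Complex.mul_conj, Complex.normSq_eq_norm_sq, Complex.norm_exp_ofReal_mul_I]
    simp
  rw [map_mul, mul_mul_mul_comm, h, one_mul]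

theorem cov_lap (hu : Cc u) (hg : Test g) : cov (lap u) g = -∫ z, u z * g z := by
  rw [← (ft_planch hu hg.cc).2, ← integral_neg]
  refine integral_congr_ae ?_
  filter_upwards [compl_mem_ae_iff.2 (measure_singleton (μ := volume) (0 : ℂ))] with ξ hξ
  have h0 : 0 < ‖ξ‖ := norm_pos_iff.2 hξ
  have h1 : (4 * Real.pi ^ 2 * ‖ξ‖ ^ 2 : ℝ) ≠ 0 := by
    have := Real.pi_pos
    positivity
  rw [ft_lap hu, mul_assoc, Complex.re_ofReal_mul, neg_mul, neg_div, mul_div_cancel_left₀ _ h1]

theorem cov_lap_disj (hu : Cc u) (hg : Test g) (h : Disjoint (tsupport u) (tsupport g)) :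
    cov (lap u) g = 0 := by
  have e : ∀ z, u z * g z = 0 := fun z => by
    by_cases hz : z ∈ tsupport u
    · rw [image_eq_zero_of_notMem_tsupport (Set.disjoint_left.1 h hz), mul_zero]
    · rw [image_eq_zero_of_notMem_tsupport hz, zero_mul]
  rw [cov_lap hu hg]
  simp [e]

theorem t2_sqi (hu : Cc u) (e : ℂ) : Integrable fun z => dd e u z ^ 2 := by
  simp only [sq]
  exact ((hu.dd e).mul (hu.dd e).1).int

theorem t2_parts (hu : Cc u) (e : ℂ) :
    ∫ z, u z * dd e (dd e u) z = -∫ z, dd e u z ^ 2 := by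
  have h := (((hu.dd e).mul hu.1).test_dd e).2.2
  have e1 : ∀ z, dd e (fun z => u z * dd e u z) z = u z * dd e (dd e u) z + dd e u z ^ 2 := by
    intro z
    have h1 : DifferentiableAt ℝ u z := hu.1.differentiable (by simp) z
    have h2 : DifferentiableAt ℝ (dd e u) z := (hu.dd e).1.differentiable (by simp) z
    have h3 := congrArg (fun L : ℂ →L[ℝ] ℝ => L e) (fderiv_fun_mul h1 h2)
    refine h3.trans ?_
    change u z * dd e (dd e u) z + dd e u z * dd e u z = _
    ring
  simp only [e1] at h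
  rw [integral_add (((hu.dd e).dd e).mul hu.1).int (t2_sqi hu e)] at h
  linarith

/-- `cov_lap`, `lap_eq` and integration by parts. -/
theorem cov_lap_lap (hu : Cc u) :
    cov (lap u) (lap u) = ∫ z, (dd 1 u z ^ 2 + dd Complex.I u z ^ 2) := by
  rw [cov_lap hu hu.test_lap, lap_eq hu.1]
  simp only [mul_add]
  rw [integral_add (((hu.dd _).dd _).mul hu.1).int (((hu.dd _).dd _).mul hu.1).int,
    t2_parts hu, t2_parts hu, integral_add (t2_sqi hu _) (t2_sqi hu _)]
  ring

theorem cov_lap_le (hu : Cc u) : cov (lap u) (lap u) ≤ 2 * ∫ z, ‖fderiv ℝ u z‖ ^ 2 := by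
  have hc : Continuous fun z => ‖fderiv ℝ u z‖ ^ 2 :=
    (hu.1.continuous_fderiv (by simp)).norm.pow 2
  have hs : HasCompactSupport fun z => ‖fderiv ℝ u z‖ ^ 2 :=
    (hu.2.fderiv ℝ).comp_left (g := fun L : ℂ →L[ℝ] ℝ => ‖L‖ ^ 2) (by simp)
  have hb : ∀ e : ℂ, ‖e‖ = 1 → ∀ z, dd e u z ^ 2 ≤ ‖fderiv ℝ u z‖ ^ 2 := fun e he z => by
    have h := (fderiv ℝ u z).le_opNorm e
    rw [he, mul_one, Real.norm_eq_abs] at h
    exact sq_le_sq' (abs_le.1 h).1 (abs_le.1 h).2
  rw [cov_lap_lap hu, ← integral_const_mul]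
  refine integral_mono ((t2_sqi hu _).add (t2_sqi hu _))
    ((hc.integrable_of_hasCompactSupport hs).const_mul 2) fun z => ?_
  have h1 := hb 1 norm_one z
  have h2 := hb Complex.I Complex.norm_I z
  simp only
  linarith

theorem nn_nonneg (f : ℂ → ℝ) : 0 ≤ nn f :=
  add_nonneg (Real.sqrt_nonneg _) (integral_nonneg fun _ => abs_nonneg _)

theorem nn_tr (f : ℂ → ℝ) (a : ℂ) : nn (tr a f) = nn f := by
  unfold nn
  rw [cov_tr]
  exact congrArg _ (integral_sub_right_eq_self (fun z => |f z|) a)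

theorem sqrt_cov_le_nn (f : ℂ → ℝ) : √(cov f f) ≤ nn f :=
  le_add_of_nonneg_right (integral_nonneg fun _ => abs_nonneg _)

theorem nn_lin (hf : Test f) (hg : Test g) (a b : ℝ) :
    nn (fun z => a * f z + b * g z) ≤ |a| * nn f + |b| * nn g := by
  have h1 : √(cov (fun z => a * f z + b * g z) fun z => a * f z + b * g z) ≤
      |a| * √(cov f f) + |b| * √(cov g g) := by
    refine Real.sqrt_le_iff.2 ⟨by positivity, ?_⟩
    have h2 : a * b * cov f g ≤ |a| * |b| * (√(cov f f) * √(cov g g)) := by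
      refine (le_abs_self _).trans ?_
      rw [abs_mul, abs_mul]
      exact mul_le_mul_of_nonneg_left (cov_cs hf hg) (by positivity)
    rw [t2_sq hf hg, add_sq, mul_pow, mul_pow, Real.sq_sqrt (cov_nonneg f),
      Real.sq_sqrt (cov_nonneg g), sq_abs, sq_abs]
    linarith
  have i1 := hf.cc.int.abs.const_mul |a|
  have i2 := hg.cc.int.abs.const_mul |b|
  have h3 : ∫ z, |a * f z + b * g z| ≤ (|a| * ∫ z, |f z|) + |b| * ∫ z, |g z| := by
    rw [← integral_const_mul, ← integral_const_mul, ← integral_add i1 i2]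
    refine integral_mono (hf.lin hg a b).cc.int.abs (i1.add i2) fun z => ?_
    simp only [← abs_mul]
    exact abs_add_le _ _
  unfold nn
  linarith

end Vale.Agent.P153

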