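import Vale.Agent.P153.B7
import Vale.Agent.P153.T2
import Vale.Agent.P152.C4bC

/-! The logarithmic kernel. 1 / (4 pi^2 |xi|^2) = int_0^oo exp(-4 pi^2 |xi|^2 t) dt; Fubini in (xi, t) (absolute
integrability as in cov_int: |ft f| |ft g| / |xi|^2, AM-GM with cov_int f f, g g); heat; subtract
exp(-(1/4)/t) / (4 pi t) (integral zero); Fubini in (t, p) with frull and P152.log_int; the diagonal is null. -/

open MeasureTheory Filter Topology

noncomputable section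

namespace Vale.Agent.P153

theorem b8_swap {X : Type} [MeasurableSpace X] {μ : Measure X} [SFinite μ] {F : X → ℝ → ℝ}
    {G : X → ℝ} (hm : Measurable (Function.uncurry F)) (hG : Integrable G μ)
    (h : ∀ᵐ x ∂μ, IntegrableOn (F x) (Set.Ioi 0) ∧ ∫ t in Set.Ioi (0 : ℝ), F x t = G x ∧
      ∫ t in Set.Ioi (0 : ℝ), ‖F x t‖ = ‖G x‖) :
    ∫ x, G x ∂μ = ∫ t in Set.Ioi (0 : ℝ), ∫ x, F x t ∂μ := by
  rw [← integral_integral_swap ((integrable_prod_iff hm.aestronglyMeasurable).2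
    ⟨h.mono fun x hx => hx.1, hG.norm.congr (h.mono fun x hx => hx.2.2.symm)⟩)]
  exact integral_congr_ae (h.mono fun x hx => hx.2.1.symm)

theorem b8_exp (A : ℝ) {c : ℝ} (hc : 0 < c) :
    IntegrableOn (fun t : ℝ => A * Real.exp (-(c * t))) (Set.Ioi 0) ∧
    ∫ t in Set.Ioi (0 : ℝ), A * Real.exp (-(c * t)) = A / c ∧
    ∫ t in Set.Ioi (0 : ℝ), ‖A * Real.exp (-(c * t))‖ = ‖A / c‖ := by
  have h1 := integrableOn_exp_mul_Ioi (neg_neg_of_pos hc) 0
  have h2 := integral_exp_mul_Ioi (neg_neg_of_pos hc) 0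
  rw [mul_zero, Real.exp_zero, neg_div_neg_eq] at h2
  simp only [neg_mul] at h1 h2
  refine ⟨h1.const_mul A, by rw [integral_const_mul, h2, mul_one_div], ?_⟩
  simp only [norm_mul, Real.norm_eq_abs, Real.abs_exp]
  rw [integral_const_mul, h2, mul_one_div, abs_div, abs_of_pos hc]

theorem b8_fr (A : ℝ) {r : ℝ} (hr : 0 < r) :
    IntegrableOn (fun t : ℝ => A * (4 * Real.pi)⁻¹ *
      ((Real.exp (-(r ^ 2 / 4 / t)) - Real.exp (-(1 / 4 / t))) / t)) (Set.Ioi 0) ∧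
    ∫ t in Set.Ioi (0 : ℝ), A * (4 * Real.pi)⁻¹ *
      ((Real.exp (-(r ^ 2 / 4 / t)) - Real.exp (-(1 / 4 / t))) / t) =
        -(2 * Real.pi)⁻¹ * (A * Real.log r) ∧
    ∫ t in Set.Ioi (0 : ℝ), ‖A * (4 * Real.pi)⁻¹ *
      ((Real.exp (-(r ^ 2 / 4 / t)) - Real.exp (-(1 / 4 / t))) / t)‖ =
        ‖-(2 * Real.pi)⁻¹ * (A * Real.log r)‖ := by
  obtain ⟨h1, h2, h3⟩ := frull (a := r ^ 2 / 4) (b := 1 / 4) (by positivity) (by positivity)
  have e : A * (4 * Real.pi)⁻¹ * Real.log (1 / 4 / (r ^ 2 / 4)) =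
      -(2 * Real.pi)⁻¹ * (A * Real.log r) := by
    rw [div_div_div_cancel_right₀ four_ne_zero, one_div, Real.log_inv, Real.log_pow]
    have := Real.pi_pos
    field_simp
    ring
  refine ⟨h1.const_mul _, by rw [integral_const_mul, h2, e], ?_⟩
  rw [← e]
  simp only [norm_mul (A * (4 * Real.pi)⁻¹), Real.norm_eq_abs]
  rw [integral_const_mul, h3]

theorem b8_sub {f g : ℂ → ℝ} (hf : Test f) (hg : Test g) {t : ℝ} (ht : 0 < t) :
    ∫ p : ℂ × ℂ, f p.1 * g p.2 * (Real.exp (-(‖p.1 - p.2‖ ^ 2 / 4 / t)) / (4 * Real.pi * t)) =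
    ∫ p : ℂ × ℂ, f p.1 * g p.2 * (4 * Real.pi)⁻¹ *
      ((Real.exp (-(‖p.1 - p.2‖ ^ 2 / 4 / t)) - Real.exp (-(1 / 4 / t))) / t) := by
  have pi := Real.pi_pos
  have i0 : Integrable fun p : ℂ × ℂ => f p.1 * g p.2 := hf.cc.int.mul_prod hg.cc.int
  have z0 : ∫ p : ℂ × ℂ, f p.1 * g p.2 = 0 :=
    (integral_prod_mul f g).trans (by rw [hf.2.2, zero_mul])
  have i1 : Integrable fun p : ℂ × ℂ => f p.1 * g p.2 *
      (Real.exp (-(‖p.1 - p.2‖ ^ 2 / 4 / t)) / (4 * Real.pi * t)) :=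
    i0.mul_bdd (c := 1 / (4 * Real.pi * t)) (Continuous.aestronglyMeasurable (by fun_prop))
      (Eventually.of_forall fun p => by
        rw [Real.norm_of_nonneg (by positivity)]
        exact div_le_div_of_nonneg_right
          (Real.exp_le_one_iff.2 (neg_nonpos.2 (by positivity))) (by positivity))
  have i2 := i0.mul_const (Real.exp (-(1 / 4 / t)) / (4 * Real.pi * t))
  have e := integral_sub i1 i2
  rw [integral_mul_const, z0, zero_mul, sub_zero] at e
  rw [← e]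
  refine integral_congr_ae (Eventually.of_forall fun p => ?_)
  field_simp

theorem cov_log {f g : ℂ → ℝ} (hf : Test f) (hg : Test g) :
    Integrable (fun p : ℂ × ℂ => f p.1 * g p.2 * Real.log ‖p.1 - p.2‖) ∧
    Integrable (fun p : ℂ × ℂ => |f p.1| * |g p.2| * (1 + |Real.log ‖p.1 - p.2‖|)) ∧
    (∀ᵐ p : ℂ × ℂ, p.1 ≠ p.2) ∧
    cov f g = -(2 * Real.pi)⁻¹ * ∫ p : ℂ × ℂ, f p.1 * g p.2 * Real.log ‖p.1 - p.2‖ := by
  have cf := hf.1.continuous
  have cg := hg.1.continuous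
  have i1 : Integrable fun p : ℂ × ℂ => f p.1 * g p.2 * Real.log ‖p.1 - p.2‖ :=
    P152.C4.log_int cf hf.2.1 cg hg.2.1
  have i0 : Integrable fun p : ℂ × ℂ => f p.1 * g p.2 := hf.cc.int.mul_prod hg.cc.int
  have ne : ∀ᵐ p : ℂ × ℂ, p.1 ≠ p.2 := by
    refine (Measure.ae_prod_iff_ae_ae (μ := volume) (ν := volume)
      (isClosed_eq continuous_fst continuous_snd).measurableSet.compl).2 (ae_of_all _ fun z => ?_)
    filter_upwards [(Set.countable_singleton z).ae_notMem volume] with w hw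
    exact fun h => hw (Eq.symm h)
  refine ⟨i1, (i0.abs.add i1.abs).congr (Eventually.of_forall fun p => ?_), ne, ?_⟩
  · simp only [Pi.add_apply, mul_add, mul_one, abs_mul]
  have c1 := ft_cont hf.cc
  have c2 := ft_cont hg.cc
  have c3 : Continuous fun ξ : ℂ => (ft f ξ * (starRingEnd ℂ) (ft g ξ)).re :=
    Complex.continuous_re.comp (c1.mul (Complex.continuous_conj.comp c2))
  have s1 := b8_swap (F := fun (ξ : ℂ) (t : ℝ) => (ft f ξ * (starRingEnd ℂ) (ft g ξ)).re *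
      Real.exp (-(4 * Real.pi ^ 2 * ‖ξ‖ ^ 2 * t)))
    (((c3.comp continuous_fst).mul (by fun_prop)).measurable) (cov_int hf hg) (by
      filter_upwards [(Set.countable_singleton (0 : ℂ)).ae_notMem volume] with ξ hξ
      have := norm_pos_iff.2 hξ
      have := Real.pi_pos
      exact b8_exp _ (by positivity))
  have mf := cf.measurable
  have mg := cg.measurable
  have s2 := b8_swap (F := fun (p : ℂ × ℂ) (t : ℝ) => f p.1 * g p.2 * (4 * Real.pi)⁻¹ *
      ((Real.exp (-(‖p.1 - p.2‖ ^ 2 / 4 / t)) - Real.exp (-(1 / 4 / t))) / t))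
    (by unfold Function.uncurry; fun_prop) (i1.const_mul (-(2 * Real.pi)⁻¹))
    (ne.mono fun p hp => by
      rw [mul_assoc (f p.1)]
      simp only [← mul_assoc (f p.1)]
      exact b8_fr _ (norm_pos_iff.2 (sub_ne_zero.2 hp)))
  rw [← integral_const_mul, s2, cov, s1]
  exact setIntegral_congr_fun measurableSet_Ioi fun t ht =>
    (heat hf.cc hg.cc ht).trans (b8_sub hf hg ht)

end Vale.Agent.P153
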