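import Mathlib

/-! Existence of a weak limit along an ultrafilter. -/

open MeasureTheory Filter Topology Set

noncomputable section

namespace Vale.Agent.P153

/-- Let `A = {i | ...} ∈ U`. The set `ν '' A` is tight by Chebyshev
(`isTightMeasureSet_of_tendsto_measure_norm_gt`, `mul_meas_ge_le_integral_of_nonneg`), so its closure
is compact (`isCompact_closure_of_isTightMeasureSet`); `IsCompact.ultrafilter_le_nhds` for
`U.map ν`. -/
theorem wk_exists {E ι : Type} [MeasurableSpace E] [NormedAddCommGroup E] [BorelSpace E]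
    [ProperSpace E] (U : Ultrafilter ι) (ν : ι → ProbabilityMeasure E) {C : ℝ}
    (hC : ∀ᶠ i in (U : Filter ι), Integrable (fun x => ‖x‖ ^ 2) (ν i : Measure E) ∧
      ∫ x, ‖x‖ ^ 2 ∂(ν i : Measure E) ≤ C) :
    ∃ μ : ProbabilityMeasure E, Tendsto ν U (𝓝 μ) := by
  let S : Set (ProbabilityMeasure E) := {m | Integrable (fun x => ‖x‖ ^ 2) (m : Measure E) ∧
    ∫ x, ‖x‖ ^ 2 ∂(m : Measure E) ≤ C}
  have hT : IsTightMeasureSet {((μ : ProbabilityMeasure E) : Measure E) | μ ∈ S} := by
    refine isTightMeasureSet_of_tendsto_measure_norm_gt ?_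
    have h0 : Tendsto (fun r : ℝ => ENNReal.ofReal (C / r ^ 2)) atTop (𝓝 0) := by
      have h := ENNReal.tendsto_ofReal
        (tendsto_const_nhds.div_atTop (tendsto_pow_atTop (α := ℝ) two_ne_zero) (a := C))
      rwa [ENNReal.ofReal_zero] at h
    refine tendsto_of_tendsto_of_tendsto_of_le_of_le' tendsto_const_nhds h0
      (Eventually.of_forall fun _ => zero_le) ?_
    filter_upwards [eventually_gt_atTop 0] with r hr
    refine iSup₂_le ?_
    rintro _ ⟨m, hm, rfl⟩
    have h1 := (mul_meas_ge_le_integral_of_nonneg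
      (Eventually.of_forall fun x => sq_nonneg ‖x‖) hm.1 (r ^ 2)).trans hm.2
    calc (m : Measure E) {x | r < ‖x‖} ≤ (m : Measure E) {x | r ^ 2 ≤ ‖x‖ ^ 2} :=
          measure_mono fun x hx =>
            show r ^ 2 ≤ ‖x‖ ^ 2 from pow_le_pow_left₀ hr.le (le_of_lt hx) 2
      _ = ENNReal.ofReal ((m : Measure E).real {x | r ^ 2 ≤ ‖x‖ ^ 2}) :=
          (ofReal_measureReal (measure_ne_top _ _)).symm
      _ ≤ ENNReal.ofReal (C / r ^ 2) := by
          refine ENNReal.ofReal_le_ofReal ?_
          rw [le_div_iff₀ (pow_pos hr 2), mul_comm]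
          exact h1
  obtain ⟨μ, -, hμ⟩ := (isCompact_closure_of_isTightMeasureSet hT).ultrafilter_le_nhds (U.map ν)
    (le_principal_iff.2 (mem_map.2 (hC.mono fun i hi => subset_closure hi)))
  exact ⟨μ, hμ⟩

end Vale.Agent.P153
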