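import Vale.Agent.P153.BD
import Vale.Agent.P153.H4
import Vale.Agent.P153.H2

/-! From Good to the variogram. Vp_sub: shift. rp: apply Good.rp to F k = sum f p (k p - k 0) on the upper half plane
and expand 2 (k q - k 0)(k (rfl0 p) - k 0) = (k q - k 0)^2 + (k (rfl0 p) - k 0)^2 - (k q - k (rfl0 p))^2.
quad: same expansion, ev w k = sum a (k x - k 0) by Zs. -/

open MeasureTheory Filter Topology

noncomputable section

namespace Vale.Agent.P153

variable {P : Measure Cfg} [IsProbabilityMeasure P]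

theorem Vp_sub (h : Good P) (x y : ℤ × ℤ) :
    ∫ k, ((k x - k y : ℤ) : ℝ) ^ 2 ∂P = Vp P (x - y) := by
  have e := h.shift _ _ ((Loc.diff (x - y) 0).comp fun t => t ^ 2) y
  simp only [sub_add_cancel, zero_add] at e
  exact e

theorem b1_int (h : Good P) (x y : ℤ × ℤ) :
    Integrable (fun k : Cfg => ((k x - k y : ℤ) : ℝ) ^ 2) P :=
  ((Loc.diff x y).comp fun t => t ^ 2).int h.lip

theorem b1_alg {α β : Type} {s : Finset α} {t : Finset β} {a : α → ℝ} {b : β → ℝ}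
    (ha : ∑ i ∈ s, a i = 0) (hb : ∑ j ∈ t, b j = 0) (u : α → ℝ) (v : β → ℝ) :
    (∑ i ∈ s, a i * u i) * ∑ j ∈ t, b j * v j =
      ∑ i ∈ s, ∑ j ∈ t, -(1 / 2) * (a i * b j) * (u i - v j) ^ 2 := by
  have e1 : ∑ i ∈ s, ∑ j ∈ t, a i * u i ^ 2 * b j = 0 := by
    rw [← Finset.sum_mul_sum, hb, mul_zero]
  have e2 : ∑ i ∈ s, ∑ j ∈ t, a i * (b j * v j ^ 2) = 0 := by
    rw [← Finset.sum_mul_sum, ha, zero_mul]
  have e3 : ∀ i j, -(1 / 2) * (a i * b j) * (u i - v j) ^ 2 = a i * u i * (b j * v j) +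
      -(1 / 2) * (a i * u i ^ 2 * b j) + -(1 / 2) * (a i * (b j * v j ^ 2)) := fun i j => by ring
  simp only [e3, Finset.sum_add_distrib, ← Finset.mul_sum (a := -(1 / 2 : ℝ)), e1, e2, mul_zero,
    add_zero, Finset.sum_mul_sum]

theorem b1_quad (h : Good P) {α β : Type} {s : Finset α} {t : Finset β} {a : α → ℝ} {b : β → ℝ}
    (ha : ∑ i ∈ s, a i = 0) (hb : ∑ j ∈ t, b j = 0) (X : α → ℤ × ℤ) (Y : β → ℤ × ℤ) :
    ∫ k : Cfg, (∑ i ∈ s, a i * (k (X i) : ℝ)) * ∑ j ∈ t, b j * (k (Y j) : ℝ) ∂P =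
      -(1 / 2) * ∑ i ∈ s, ∑ j ∈ t, a i * b j * Vp P (X i - Y j) := by
  have e : ∀ k : Cfg, (∑ i ∈ s, a i * (k (X i) : ℝ)) * ∑ j ∈ t, b j * (k (Y j) : ℝ) =
      ∑ i ∈ s, ∑ j ∈ t, -(1 / 2) * (a i * b j) * ((k (X i) - k (Y j) : ℤ) : ℝ) ^ 2 := fun k => by
    rw [b1_alg ha hb]
    simp only [Int.cast_sub]
  simp only [e]
  rw [integral_finsetSum _ fun i _ => integrable_finsetSum _ fun j _ =>
    (b1_int h _ _).const_mul _, Finset.mul_sum]
  refine Finset.sum_congr rfl fun i _ => ?_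
  rw [integral_finsetSum _ fun j _ => (b1_int h _ _).const_mul _, Finset.mul_sum]
  refine Finset.sum_congr rfl fun j _ => ?_
  rw [integral_const_mul, Vp_sub h, mul_assoc]

theorem b1_loc {α : Type} {s : Finset α} {a : α → ℝ} (ha : ∑ i ∈ s, a i = 0) (X : α → ℤ × ℤ) :
    Loc (s.image X) fun k => ∑ i ∈ s, a i * (k (X i) : ℝ) := by
  intro k k' h
  rcases s.eq_empty_or_nonempty with h0 | ⟨y, hy⟩
  · simp only [h0, Finset.sum_empty]
  · have e : ∀ x ∈ s, a x * (k (X x) : ℝ) = a x * k' (X x) + a x * ((k (X y) : ℝ) - k' (X y)) :=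
      fun x hx => by
        have h1 : (k (X x) : ℝ) - k (X y) = k' (X x) - k' (X y) := by
          exact_mod_cast h _ (Finset.mem_image_of_mem X hx) _ (Finset.mem_image_of_mem X hy)
        linear_combination a x * h1
    simp only
    rw [Finset.sum_congr rfl e, Finset.sum_add_distrib, ← Finset.sum_mul, ha, zero_mul, add_zero]

theorem rpv_of_good (h : Good P) : P153C.RPV (Vp P) := by
  refine ⟨by simp [Vp], fun p => integral_nonneg fun k => sq_nonneg _, fun x y => ?_,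
    fun x y => ?_, fun p q => ?_, fun s f hf => ?_⟩
  · exact h.rot _ _ ((Loc.diff (x, y) 0).comp fun t => t ^ 2)
  · exact h.rfl0 _ _ ((Loc.diff (x, y) 0).comp fun t => t ^ 2)
  · have e := Vp_sub h (p + q) q
    rw [add_sub_cancel_right] at e
    rw [← e, Vp, Vp, ← integral_const_mul, ← integral_const_mul,
      ← integral_add ((b1_int h _ _).const_mul _) ((b1_int h _ _).const_mul _)]
    refine integral_mono (b1_int h _ _)
      (((b1_int h _ _).const_mul _).add ((b1_int h _ _).const_mul _)) fun k => ?_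
    simp only [Int.cast_sub]
    nlinarith [sq_nonneg ((k (p + q) : ℝ) - 2 * k q + k 0)]
  · have r := h.rp _ _ (b1_loc hf fun p => (p.1, (p.2 : ℤ))) (fun x hx => by
      obtain ⟨p, -, rfl⟩ := Finset.mem_image.1 hx
      exact Int.natCast_nonneg _)
    rw [b1_quad h hf hf (fun p => (p.1, (p.2 : ℤ))) fun p => rfl0 (p.1, (p.2 : ℤ)),
      Finset.sum_comm] at r
    have e : ∑ p ∈ s, ∑ q ∈ s, f p * f q * Vp P (q.1 - p.1 - p.2, q.2 + p.2) =
        ∑ p ∈ s, ∑ q ∈ s, f q * f p * Vp P ((q.1, (q.2 : ℤ)) - rfl0 (p.1, (p.2 : ℤ))) :=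
      Finset.sum_congr rfl fun p _ => Finset.sum_congr rfl fun q _ => by
        rw [mul_comm (f p), rfl0, Prod.mk_sub_mk, sub_neg_eq_add, sub_sub]
    rw [e]
    linarith

theorem quad (h : Good P) {w w' : ℤ × ℤ →₀ ℝ} (hw : Zs w) (hw' : Zs w') :
    ∫ k, ev w k * ev w' k ∂P = -(1 / 2) * qf (Vp P) w w' :=
  b1_quad h (s := w.support) (t := w'.support) hw hw' id id

end Vale.Agent.P153
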