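import Vale.Agent.P153.BD
import Vale.Agent.P153.H2

/-! The interpolated kernel. smear: on the supports only fixed finite sets of vertices contribute (pos_finite, hat_supp),
then integral_finset_sum and integral_prod_mul. Kv_le: convex combination (hat_sum, hat_nonneg, hat_supp, hat_fin). -/

open MeasureTheory Filter Topology

noncomputable section

namespace Vale.Agent.P153

theorem b2_kv (V : ℤ × ℤ → ℝ) {δ : ℝ} {z w : ℂ} {T S : Finset (ℤ × ℤ)}
    (hT : ∀ x ∉ T, hat (z / δ - pos x) = 0) (hS : ∀ y ∉ S, hat (w / δ - pos y) = 0) :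
    Kv V δ z w = ∑ x ∈ T, ∑ y ∈ S, hat (z / δ - pos x) * hat (w / δ - pos y) * V (x - y) := by
  unfold Kv
  rw [finsum_eq_sum_of_support_subset (s := T) _ fun x hx => by_contra fun h =>
    hx (by simp only [hT x h, zero_mul, finsum_zero])]
  refine Finset.sum_congr rfl fun x _ => ?_
  exact finsum_eq_sum_of_support_subset (s := S) _ fun y hy => by_contra fun h =>
    hy (by simp only [hS y h, mul_zero, zero_mul])

theorem b2_one (z : ℂ) : ∃ T : Finset (ℤ × ℤ), (∀ x ∉ T, hat (z - pos x) = 0) ∧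
    (∀ x ∈ T, ‖z - pos x‖ < 1) ∧ ∑ x ∈ T, hat (z - pos x) = 1 := by
  refine ⟨(hat_fin z).toFinset, fun x hx => by_contra fun h => hx ?_, fun x hx => ?_, ?_⟩
  · exact (Set.Finite.mem_toFinset _).2 h
  · exact hat_supp ((Set.Finite.mem_toFinset _).1 hx)
  · rw [← hat_sum z, finsum_eq_sum _ (hat_fin z)]

theorem smear (V : ℤ × ℤ → ℝ) {δ : ℝ} (hδ : 0 < δ) {f g : ℂ → ℝ} (hf : Cc f) (hg : Cc g) :
    Integrable (fun p : ℂ × ℂ => f p.1 * g p.2 * Kv V δ p.1 p.2) ∧
      qf V (Wt δ f) (Wt δ g) = ∫ p : ℂ × ℂ, f p.1 * g p.2 * Kv V δ p.1 p.2 := by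
  obtain ⟨T, hT⟩ := h2_fin hδ hf.2
  obtain ⟨S, hS⟩ := h2_fin hδ hg.2
  have e : (fun p : ℂ × ℂ => f p.1 * g p.2 * Kv V δ p.1 p.2) = fun p : ℂ × ℂ =>
      ∑ x ∈ T, ∑ y ∈ S, V (x - y) *
        ((hat (p.1 / δ - pos x) * f p.1) * (hat (p.2 / δ - pos y) * g p.2)) := funext fun p => by
    by_cases h1 : f p.1 = 0
    · simp [h1]
    by_cases h2 : g p.2 = 0
    · simp [h2]
    rw [b2_kv V (hT _ h1) (hS _ h2), Finset.mul_sum]
    refine Finset.sum_congr rfl fun x _ => ?_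
    rw [Finset.mul_sum]
    exact Finset.sum_congr rfl fun y _ => by ring
  have i1 : ∀ x, Integrable fun z : ℂ => hat (z / δ - pos x) * f z := fun x =>
    ((hat_cont.comp (by fun_prop)).mul hf.1.continuous).integrable_of_hasCompactSupport
      hf.2.mul_left
  have i2 : ∀ x, Integrable fun z : ℂ => hat (z / δ - pos x) * g z := fun x =>
    ((hat_cont.comp (by fun_prop)).mul hg.1.continuous).integrable_of_hasCompactSupport
      hg.2.mul_left
  have i3 : ∀ x y : ℤ × ℤ, Integrable fun p : ℂ × ℂ => V (x - y) *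
      ((hat (p.1 / δ - pos x) * f p.1) * (hat (p.2 / δ - pos y) * g p.2)) := fun x y =>
    ((i1 x).mul_prod (i2 y)).const_mul _
  have i4 : ∀ x y : ℤ × ℤ, ∫ p : ℂ × ℂ, V (x - y) *
      ((hat (p.1 / δ - pos x) * f p.1) * (hat (p.2 / δ - pos y) * g p.2)) =
      wt δ f x * wt δ g y * V (x - y) := fun x y => by
    rw [integral_const_mul, Measure.volume_eq_prod,
      integral_prod_mul (fun z : ℂ => hat (z / δ - pos x) * f z)
        (fun z : ℂ => hat (z / δ - pos y) * g z), mul_comm]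
    rfl
  rw [e]
  refine ⟨integrable_finsetSum _ fun x _ => integrable_finsetSum _ fun y _ => i3 x y, ?_⟩
  rw [integral_finsetSum _ fun x _ => integrable_finsetSum _ fun y _ => i3 x y, qf,
    h2_wsum hδ hf.2 hT _ fun x => by simp [Finsupp.sum]]
  refine Finset.sum_congr rfl fun x _ => ?_
  rw [integral_finsetSum _ fun y _ => i3 x y, h2_wsum hδ hg.2 hS _ fun y => by simp]
  exact Finset.sum_congr rfl fun y _ => (i4 x y).symm

theorem Kv_le {V : ℤ × ℤ → ℝ} {δ a M : ℝ} {z w : ℂ}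
    (h : ∀ x y : ℤ × ℤ, ‖z / δ - pos x‖ < 1 → ‖w / δ - pos y‖ < 1 → |V (x - y) - a| ≤ M) :
    |Kv V δ z w - a| ≤ M := by
  obtain ⟨T, hT, hT1, hT2⟩ := b2_one (z / δ)
  obtain ⟨S, hS, hS1, hS2⟩ := b2_one (w / δ)
  have e1 : ∀ c : ℝ, ∑ x ∈ T, ∑ y ∈ S, hat (z / δ - pos x) * hat (w / δ - pos y) * c = c := by
    intro c
    simp only [← Finset.sum_mul, ← Finset.mul_sum, hS2, mul_one, hT2, one_mul]
  rw [b2_kv V hT hS, ← e1 M]
  conv_lhs => rw [← e1 a]
  rw [← Finset.sum_sub_distrib]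
  refine (Finset.abs_sum_le_sum_abs _ _).trans (Finset.sum_le_sum fun x hx => ?_)
  rw [← Finset.sum_sub_distrib]
  refine (Finset.abs_sum_le_sum_abs _ _).trans (Finset.sum_le_sum fun y hy => ?_)
  have h0 := mul_nonneg (hat_nonneg (z / δ - pos x)) (hat_nonneg (w / δ - pos y))
  rw [← mul_sub, abs_mul, abs_of_nonneg h0]
  exact mul_le_mul_of_nonneg_left (h x y (hT1 x hx) (hS1 y hy)) h0

theorem qf_lin (V U : ℤ × ℤ → ℝ) (N g : ℝ) {w w' : ℤ × ℤ →₀ ℝ} (hw : Zs w) :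
    qf (fun p => V p - N - g * U p) w w' = qf V w w' - g * qf U w w' := by
  have h0 : ∑ x ∈ w.support, ∑ y ∈ w'.support, w x * w' y * N = 0 := by
    have hw' : ∑ x ∈ w.support, w x = 0 := hw
    simp only [← Finset.sum_mul, ← Finset.mul_sum, hw', zero_mul]
  unfold qf Finsupp.sum
  rw [← sub_zero (∑ x ∈ w.support, ∑ y ∈ w'.support, w x * w' y * V (x - y)), ← h0,
    Finset.mul_sum, ← Finset.sum_sub_distrib, ← Finset.sum_sub_distrib]
  refine Finset.sum_congr rfl fun x _ => ?_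
  rw [Finset.mul_sum, ← Finset.sum_sub_distrib, ← Finset.sum_sub_distrib]
  exact Finset.sum_congr rfl fun y _ => by ring

end Vale.Agent.P153
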