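import Vale.Agent.P153.BD
import Vale.Agent.P153.T3
import Vale.Agent.P152.C4bC

/-! Sobolev bound. L2 norm <= C tv f (MeasureTheory.eLpNorm_le_eLpNorm_fderiv_one, finrank 2). If tv f = 0 then f = 0.
R = sqrt (m1 / tv). a = int |f| <= sqrt pi R |f|_2 + m1 / R. |log t| <= t for t >= 1 and |z - w| <= |z| + |w|;
for t <= 1 use |log t| <= 4 t^(-1/4) or the L2 norm of log on the ball and Cauchy-Schwarz in w.
Integrability: P152.log_int. -/

open MeasureTheory Filter Topology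

noncomputable section

namespace Vale.Agent.P153

theorem b6_sq {f : ℂ → ℝ} (hf : Cc f) : Integrable fun z => f z ^ 2 := by
  have h1 : Continuous fun z => f z ^ 2 := hf.1.continuous.pow 2
  have h2 : HasCompactSupport fun z => f z ^ 2 :=
    hf.2.comp_left (g := fun t : ℝ => t ^ 2) (zero_pow two_ne_zero)
  exact h1.integrable_of_hasCompactSupport h2

theorem b6_m {f : ℂ → ℝ} (hf : Cc f) : Integrable fun z => ‖z‖ * |f z| :=
  (continuous_norm.mul hf.1.continuous.abs).integrable_of_hasCompactSupport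
    (hf.2.comp_left (g := fun t : ℝ => |t|) abs_zero).mul_left

theorem b6_abs {f : ℂ → ℝ} (hf : Cc f) : Integrable fun z => |f z| :=
  (hf.1.continuous.integrable_of_hasCompactSupport hf.2).abs

theorem b6_sob : ∃ S : ℝ, 0 ≤ S ∧ ∀ f, Cc f → ∫ z, f z ^ 2 ≤ S * tv f ^ 2 := by
  refine ⟨(lintegralPowLePowLIntegralFDerivConst (volume : Measure ℂ) 2 : NNReal),
    NNReal.coe_nonneg _, fun f hf => ?_⟩
  have h := lintegral_pow_le_pow_lintegral_fderiv (volume : Measure ℂ) (hf.1.of_le (by simp)) hf.2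
    (p := 2) (by
      rw [Complex.finrank_real_complex]
      exact_mod_cast Real.HolderConjugate.two_two)
  have hi : Integrable (fderiv ℝ f) :=
    (hf.1.continuous_fderiv (by simp)).integrable_of_hasCompactSupport (hf.2.fderiv ℝ)
  have h2 : ∫⁻ z, ‖f z‖ₑ ^ (2 : ℝ) = ENNReal.ofReal (∫ z, f z ^ 2) := by
    rw [ofReal_integral_eq_lintegral_ofReal (b6_sq hf) (ae_of_all _ fun z => sq_nonneg _)]
    refine lintegral_congr fun z => ?_
    rw [ENNReal.rpow_two, ← ofReal_norm_eq_enorm, ← ENNReal.ofReal_pow (norm_nonneg _),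
      Real.norm_eq_abs, sq_abs]
  rw [← ofReal_integral_norm_eq_lintegral_enorm hi, h2, ENNReal.rpow_two,
    ← ENNReal.ofReal_pow (integral_nonneg fun _ => norm_nonneg _), ← ENNReal.ofReal_coe_nnreal,
    ← ENNReal.ofReal_mul (NNReal.coe_nonneg _)] at h
  exact (ENNReal.ofReal_le_ofReal_iff (by positivity)).1 h

/-- The kernel near the diagonal. -/
def b6_k (u : ℂ) : ℝ := (Metric.ball (0 : ℂ) 1).indicator (fun u => 1 + |Real.log ‖u‖|) u

theorem b6_k0 (u : ℂ) : 0 ≤ b6_k u := Set.indicator_nonneg (fun _ _ => by positivity) u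

theorem b6_ki : Integrable b6_k := by
  have h := (integrable_indicator_iff measurableSet_ball).1 (P152.C4.c4bc_log 1)
  exact (integrable_indicator_iff measurableSet_ball).2
    ((integrableOn_const measure_ball_lt_top.ne).add h.abs)

theorem b6_kR {R : ℝ} (hR : 0 < R) {u : ℂ} (hu : ‖u‖ < R) :
    b6_k (R⁻¹ • u) = 1 + |Real.log (‖u‖ / R)| := by
  have e : ‖R⁻¹ • u‖ = ‖u‖ / R := by
    rw [norm_smul, Real.norm_of_nonneg (inv_nonneg.2 hR.le), inv_mul_eq_div]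
  rw [b6_k, Set.indicator_of_mem (mem_ball_zero_iff.2 (e ▸ (div_lt_one hR).2 hu)), e]

theorem b6_kint {R : ℝ} (hR : 0 < R) : ∫ u : ℂ, b6_k (R⁻¹ • u) = R ^ 2 * ∫ u, b6_k u := by
  rw [Measure.integral_comp_inv_smul_of_nonneg volume b6_k hR.le, Complex.finrank_real_complex,
    smul_eq_mul]

theorem b6_conv {g k : ℂ → ℝ} (hg : Integrable g) (hk : Integrable k) :
    Integrable (fun p : ℂ × ℂ => g p.2 * k (p.1 - p.2)) (volume.prod volume) ∧
      ∫ p : ℂ × ℂ, g p.2 * k (p.1 - p.2) ∂volume.prod volume = (∫ z, g z) * ∫ z, k z := by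
  have h : Integrable (fun p : ℂ × ℂ => g p.2 * k (p.1 - p.2)) (volume.prod volume) :=
    hg.convolution_integrand (ContinuousLinearMap.mul ℝ ℝ) hk
  refine ⟨h, ?_⟩
  rw [integral_prod_symm _ h, ← integral_mul_const]
  refine integral_congr_ae (ae_of_all _ fun w => ?_)
  dsimp only
  rw [integral_const_mul, integral_sub_right_eq_self k w]

theorem b6_a {f : ℂ → ℝ} (hf : Cc f) {R T : ℝ} (hR : 0 < R) (hT : 0 < T) :
    ∫ z, |f z| ≤ R / T * (∫ z, f z ^ 2) + T / R * (R ^ 2 * ∫ u, b6_k u) + R⁻¹ * m1 f := by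
  have i1 := (b6_sq hf).const_mul (R / T)
  have i2 := (b6_ki.comp_smul (inv_ne_zero hR.ne')).const_mul (T / R)
  have i3 := (b6_m hf).const_mul R⁻¹
  have i4 : Integrable fun z => R / T * f z ^ 2 + T / R * b6_k (R⁻¹ • z) := i1.add i2
  rw [← b6_kint hR, m1, ← integral_const_mul, ← integral_const_mul, ← integral_const_mul,
    ← integral_add i1 i2, ← integral_add i4 i3]
  refine integral_mono (b6_abs hf) (i4.add i3) fun z => ?_
  have h0 : 0 < R / T := div_pos hR hT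
  have h1 : 0 < T / R := div_pos hT hR
  have h2 : R / T * (T / R) = 1 := by field_simp
  dsimp only
  rcases lt_or_ge ‖z‖ R with h | h
  · have h3 : T / R * 1 ≤ T / R * b6_k (R⁻¹ • z) := mul_le_mul_of_nonneg_left
      (b6_kR hR h ▸ le_add_of_nonneg_right (abs_nonneg _)) h1.le
    have h4 : 0 ≤ R⁻¹ * (‖z‖ * |f z|) := by positivity
    have h5 : 0 ≤ R / T * (|f z| - T / R) ^ 2 := by positivity
    have h6 : R / T * (|f z| - T / R) ^ 2 = R / T * f z ^ 2 - 2 * |f z| + T / R := by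
      rw [← sq_abs (f z)]
      linear_combination (T / R - 2 * |f z|) * h2
    linarith [abs_nonneg (f z)]
  · have h3 : |f z| ≤ R⁻¹ * (‖z‖ * |f z|) := by
      rw [← mul_assoc, inv_mul_eq_div]
      exact le_mul_of_one_le_left (abs_nonneg _) ((one_le_div hR).2 h)
    have h4 := mul_nonneg h1.le (b6_k0 (R⁻¹ • z))
    have h5 : 0 ≤ R / T * f z ^ 2 := by positivity
    linarith

theorem b6_pt (f : ℂ → ℝ) {R : ℝ} (hR : 0 < R) (z w : ℂ) :
    |f z| * |f w| * (1 + |Real.log (‖z - w‖ / R)|) ≤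
      f w ^ 2 * b6_k (R⁻¹ • (z - w)) + f z ^ 2 * b6_k (R⁻¹ • (w - z)) +
        R⁻¹ * (‖z‖ * |f z| * |f w|) + R⁻¹ * (|f z| * (‖w‖ * |f w|)) := by
  rcases lt_or_ge ‖z - w‖ R with h | h
  · rw [b6_kR hR h, b6_kR hR (norm_sub_rev z w ▸ h), norm_sub_rev w z]
    have h1 : |f z| * |f w| ≤ f w ^ 2 + f z ^ 2 := by
      rw [← sq_abs (f w), ← sq_abs (f z)]
      nlinarith [sq_nonneg (|f z| - |f w|), mul_nonneg (abs_nonneg (f z)) (abs_nonneg (f w))]
    have h2 := mul_le_mul_of_nonneg_right h1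
      (by positivity : 0 ≤ 1 + |Real.log (‖z - w‖ / R)|)
    have h3 : 0 ≤ R⁻¹ * (‖z‖ * |f z| * |f w|) := by positivity
    have h4 : 0 ≤ R⁻¹ * (|f z| * (‖w‖ * |f w|)) := by positivity
    linarith
  · have h1 : 1 ≤ ‖z - w‖ / R := (one_le_div hR).2 h
    have h2 : 1 + |Real.log (‖z - w‖ / R)| ≤ R⁻¹ * (‖z‖ + ‖w‖) := by
      rw [abs_of_nonneg (Real.log_nonneg h1), inv_mul_eq_div]
      linarith [Real.log_le_sub_one_of_pos (one_pos.trans_le h1),
        div_le_div_of_nonneg_right (norm_sub_le z w) hR.le]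
    have h3 := mul_le_mul_of_nonneg_left h2 (by positivity : 0 ≤ |f z| * |f w|)
    have h4 := mul_nonneg (sq_nonneg (f w)) (b6_k0 (R⁻¹ • (z - w)))
    have h5 := mul_nonneg (sq_nonneg (f z)) (b6_k0 (R⁻¹ • (w - z)))
    linarith

theorem b6_main {f : ℂ → ℝ} (hf : Cc f) {R : ℝ} (hR : 0 < R) :
    Integrable (fun p : ℂ × ℂ => |f p.1| * |f p.2| * (1 + |Real.log (‖p.1 - p.2‖ / R)|)) ∧
    ∫ p : ℂ × ℂ, |f p.1| * |f p.2| * (1 + |Real.log (‖p.1 - p.2‖ / R)|) ≤
      2 * ((∫ z, f z ^ 2) * (R ^ 2 * ∫ u, b6_k u)) + 2 * (R⁻¹ * (m1 f * ∫ z, |f z|)) := by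
  obtain ⟨i1, e1⟩ := b6_conv (b6_sq hf) (b6_ki.comp_smul (inv_ne_zero hR.ne'))
  have i2 : Integrable (fun p : ℂ × ℂ => f p.1 ^ 2 * b6_k (R⁻¹ • (p.2 - p.1)))
      (volume.prod volume) := i1.swap
  have e2 : ∫ p : ℂ × ℂ, f p.1 ^ 2 * b6_k (R⁻¹ • (p.2 - p.1)) ∂volume.prod volume =
      (∫ z, f z ^ 2) * ∫ u : ℂ, b6_k (R⁻¹ • u) := (integral_prod_swap _).trans e1
  have i3 := ((b6_m hf).mul_prod (b6_abs hf)).const_mul R⁻¹
  have i4 := ((b6_abs hf).mul_prod (b6_m hf)).const_mul R⁻¹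
  have i5 : Integrable (fun p : ℂ × ℂ => f p.2 ^ 2 * b6_k (R⁻¹ • (p.1 - p.2)) +
      f p.1 ^ 2 * b6_k (R⁻¹ • (p.2 - p.1))) (volume.prod volume) := i1.add i2
  have i6 : Integrable (fun p : ℂ × ℂ => f p.2 ^ 2 * b6_k (R⁻¹ • (p.1 - p.2)) +
      f p.1 ^ 2 * b6_k (R⁻¹ • (p.2 - p.1)) + R⁻¹ * (‖p.1‖ * |f p.1| * |f p.2|))
      (volume.prod volume) := i5.add i3
  have i7 : Integrable (fun p : ℂ × ℂ => f p.2 ^ 2 * b6_k (R⁻¹ • (p.1 - p.2)) +
      f p.1 ^ 2 * b6_k (R⁻¹ • (p.2 - p.1)) + R⁻¹ * (‖p.1‖ * |f p.1| * |f p.2|) +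
      R⁻¹ * (|f p.1| * (‖p.2‖ * |f p.2|))) (volume.prod volume) := i6.add i4
  have hm := hf.1.continuous.measurable
  have i8 : Integrable (fun p : ℂ × ℂ => |f p.1| * |f p.2| * (1 + |Real.log (‖p.1 - p.2‖ / R)|))
      (volume.prod volume) := i7.mono' (Measurable.aestronglyMeasurable (by fun_prop))
    (ae_of_all _ fun p => (Real.norm_of_nonneg (by positivity)).trans_le (b6_pt f hR p.1 p.2))
  refine ⟨i8, (integral_mono i8 i7 fun p => b6_pt f hR p.1 p.2).trans_eq ?_⟩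
  rw [integral_add i6 i4, integral_add i5 i3, integral_add i1 i2, e1, e2, b6_kint hR,
    integral_const_mul, integral_const_mul,
    integral_prod_mul (fun z : ℂ => ‖z‖ * |f z|) fun z => |f z|,
    integral_prod_mul (fun z : ℂ => |f z|) fun z => ‖z‖ * |f z|, m1]
  ring

theorem sob : ∃ C : ℝ, 0 ≤ C ∧ ∀ f : ℂ → ℝ, Cc f → ∃ R > (0 : ℝ),
    Integrable (fun p : ℂ × ℂ => |f p.1| * |f p.2| * (1 + |Real.log (‖p.1 - p.2‖ / R)|)) ∧
    ∫ p : ℂ × ℂ, |f p.1| * |f p.2| * (1 + |Real.log (‖p.1 - p.2‖ / R)|) ≤ C * m1 f * tv f := by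
  obtain ⟨S, hS, h⟩ := b6_sob
  have hL : 0 ≤ ∫ u, b6_k u := integral_nonneg b6_k0
  refine ⟨2 * (S * ∫ u, b6_k u) + 2 * (S + (∫ u, b6_k u) + 1), by positivity, fun f hf => ?_⟩
  by_cases h0 : f = 0
  · subst h0
    exact ⟨1, one_pos, by simp, by simp [m1]⟩
  have hc := hf.1.continuous
  have hT : 0 < tv f := (tv_nonneg f).lt_of_ne' fun e => h0 (by
    have h1 := h f hf
    rw [e, zero_pow two_ne_zero, mul_zero] at h1
    have h2 := (integral_eq_zero_iff_of_nonneg (fun z => sq_nonneg (f z)) (b6_sq hf)).1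
      (le_antisymm h1 (integral_nonneg fun z => sq_nonneg (f z)))
    have h3 := ((hc.pow 2).ae_eq_iff_eq volume continuous_zero).1 h2
    exact funext fun z => pow_eq_zero_iff two_ne_zero |>.1 (congrFun h3 z))
  have hm : 0 < m1 f := (m1_nonneg f).lt_of_ne' fun e => h0 (by
    have h2 := (integral_eq_zero_iff_of_nonneg (fun z : ℂ => (by positivity : 0 ≤ ‖z‖ * |f z|))
      (b6_m hf)).1 e
    have h3 := ((continuous_norm.mul hc.abs).ae_eq_iff_eq volume continuous_zero).1 h2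
    refine hc.ext_on (dense_compl_singleton (0 : ℂ)) continuous_zero fun z hz => ?_
    exact abs_eq_zero.1 ((mul_eq_zero.1 (congrFun h3 z)).resolve_left (norm_ne_zero_iff.2 hz)))
  obtain ⟨R, hR, e⟩ : ∃ R > (0 : ℝ), m1 f = tv f * R ^ 2 :=
    ⟨√(m1 f / tv f), Real.sqrt_pos.2 (div_pos hm hT), by
      rw [Real.sq_sqrt (div_pos hm hT).le, mul_div_cancel₀ _ hT.ne']⟩
  obtain ⟨i1, h1⟩ := b6_main hf hR
  refine ⟨R, hR, i1, h1.trans ?_⟩
  have h2 := b6_a hf hR hT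
  have h3 := h f hf
  generalize ∫ u, b6_k u = L at *
  generalize ∫ z, f z ^ 2 = Q at *
  generalize ∫ z, |f z| = a at *
  rw [e] at h2 ⊢
  generalize tv f = T at *
  have h4 : a ≤ (S + L + 1) * (T * R) := by
    refine (h2.trans (add_le_add_left (add_le_add_left
      (mul_le_mul_of_nonneg_left h3 (div_pos hR hT).le) _) _)).trans_eq ?_
    field_simp
  refine (add_le_add (mul_le_mul_of_nonneg_left (mul_le_mul_of_nonneg_right h3 (by positivity))
    zero_le_two) (mul_le_mul_of_nonneg_left (mul_le_mul_of_nonneg_left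
      (mul_le_mul_of_nonneg_left h4 (by positivity)) (by positivity)) zero_le_two)).trans_eq ?_
  field_simp

end Vale.Agent.P153
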