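import Vale.Agent.P153.T1

/-! Fourier transforms of test functions. -/

open MeasureTheory Filter Topology

noncomputable section

namespace Vale.Agent.P153

open scoped InnerProductSpace

variable {f g u : ℂ → ℝ}

/-- The character. -/
def t2f_ch (v ξ : ℂ) : ℂ := Complex.exp (((-2 * Real.pi * ⟪v, ξ⟫_ℝ : ℝ) : ℂ) * Complex.I)

theorem t2f_eq (u : ℂ → ℝ) (ξ : ℂ) : ft u ξ = ∫ v, t2f_ch v ξ * u v := Real.fourier_eq' _ _

theorem t2f_norm (v ξ : ℂ) : ‖t2f_ch v ξ‖ = 1 := Complex.norm_exp_ofReal_mul_I _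

theorem t2f_add (v a ξ : ℂ) : t2f_ch (v + a) ξ = t2f_ch a ξ * t2f_ch v ξ := by
  rw [t2f_ch, t2f_ch, t2f_ch, ← Complex.exp_add, inner_add_left]
  congr 1
  push_cast
  ring

theorem t2f_zero (v : ℂ) : t2f_ch v 0 = 1 := by simp [t2f_ch]

theorem t2f_int (hu : Integrable u) (ξ : ℂ) : Integrable fun v => t2f_ch v ξ * u v := by
  refine hu.ofReal.bdd_mul (c := 1) (Continuous.aestronglyMeasurable ?_)
    (Eventually.of_forall fun v => (t2f_norm v ξ).le)
  unfold t2f_ch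
  fun_prop

theorem t2f_sm (hu : Cc u) : ContDiff ℝ (⊤ : ℕ∞) fun z => (u z : ℂ) :=
  Complex.ofRealCLM.contDiff.comp hu.1

theorem t2f_cs (hu : Cc u) : HasCompactSupport fun z => (u z : ℂ) :=
  hu.2.comp_left (g := Complex.ofReal) Complex.ofReal_zero

/-- The Schwartz map. -/
def t2f_S (hu : Cc u) : SchwartzMap ℂ ℂ := (t2f_cs hu).toSchwartzMap (t2f_sm hu)

theorem t2f_ft (hu : Cc u) : ft u = (FourierTransform.fourier (t2f_S hu) : SchwartzMap ℂ ℂ) := rfl

theorem ft_cont (hu : Cc u) : Continuous (ft u) := by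
  rw [t2f_ft hu]
  exact SchwartzMap.continuous _

theorem ft_lin (hu : Cc u) (hg : Cc g) (a b : ℝ) (ξ : ℂ) :
    ft (fun z => a * u z + b * g z) ξ = a * ft u ξ + b * ft g ξ := by
  rw [t2f_eq, t2f_eq, t2f_eq, ← integral_const_mul, ← integral_const_mul,
    ← integral_add ((t2f_int hu.int ξ).const_mul _) ((t2f_int hg.int ξ).const_mul _)]
  congr 1
  funext v
  push_cast
  ring

theorem ft_sum {ι : Type} (s : Finset ι) {F : ι → ℂ → ℝ} (hF : ∀ i ∈ s, Cc (F i)) (ξ : ℂ) :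
    ft (fun z => ∑ i ∈ s, F i z) ξ = ∑ i ∈ s, ft (F i) ξ := by
  simp only [t2f_eq]
  rw [← integral_finset_sum _ fun i hi => t2f_int (hF i hi).int ξ]
  congr 1
  funext v
  rw [Complex.ofReal_sum, Finset.mul_sum]

theorem ft_tr (u : ℂ → ℝ) (a ξ : ℂ) :
    ft (tr a u) ξ = Complex.exp (((-2 * Real.pi * ⟪a, ξ⟫_ℝ : ℝ) : ℂ) * Complex.I) * ft u ξ := by
  rw [t2f_eq, t2f_eq, ← integral_const_mul, ← integral_add_right_eq_self _ a]
  congr 1
  funext v
  rw [t2f_add, tr, add_sub_cancel_right, mul_assoc]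
  rfl

/-- `Real.fourier_fderiv` or integration by parts. -/
theorem ft_dd (hu : Cc u) (e ξ : ℂ) :
    ft (dd e u) ξ = ((2 * Real.pi * ⟪e, ξ⟫_ℝ : ℝ) : ℂ) * Complex.I * ft u ξ := by
  have h1 : Differentiable ℝ fun z => (u z : ℂ) := (t2f_sm hu).differentiable (by simp)
  have h2 : Integrable (fderiv ℝ fun z => (u z : ℂ)) :=
    ((t2f_sm hu).continuous_fderiv (by simp)).integrable_of_hasCompactSupport
      ((t2f_cs hu).fderiv ℝ)
  have h3 := congrArg (fun F => F ξ e) (Real.fourier_fderiv hu.int.ofReal h1 h2)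
  have h4 : (fun z => ((dd e u z : ℝ) : ℂ)) = fun z => fderiv ℝ (fun z => (u z : ℂ)) z e := by
    funext z
    have := (Complex.ofRealCLM.hasFDerivAt.comp z
      (hu.1.differentiable (by simp) z).hasFDerivAt).fderiv
    exact (congrArg (fun L => L e) this).symm
  simp only [Real.fourier_continuousLinearMap_apply h2, VectorFourier.fourierSMulRight_apply] at h3
  have h5 : ((-innerSL ℝ) ξ) e = -⟪e, ξ⟫_ℝ := congrArg Neg.neg (real_inner_comm e ξ)
  rw [ft, h4, h3, h5]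
  simp only [neg_smul, smul_neg, neg_neg, smul_eq_mul,
    Complex.real_smul, ft]
  push_cast
  ring

theorem ft_lap (hu : Cc u) (ξ : ℂ) :
    ft (lap u) ξ = ((-(4 * Real.pi ^ 2 * ‖ξ‖ ^ 2) : ℝ) : ℂ) * ft u ξ := by
  have h1 := ft_lin ((hu.dd 1).dd 1) ((hu.dd Complex.I).dd Complex.I) 1 1 ξ
  simp only [one_mul, Complex.ofReal_one] at h1
  have h2 : ⟪(1 : ℂ), ξ⟫_ℝ = ξ.re := by simp [Complex.inner]
  have h3 : ⟪Complex.I, ξ⟫_ℝ = ξ.im := by simp [Complex.inner]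
  rw [lap_eq hu.1, h1, ft_dd (hu.dd 1), ft_dd (hu.dd Complex.I), ft_dd hu, ft_dd hu, h2, h3,
    Complex.sq_norm, Complex.normSq_apply]
  push_cast
  linear_combination (4 * (Real.pi : ℂ) ^ 2 * ((ξ.re : ℂ) ^ 2 + (ξ.im : ℂ) ^ 2) * ft u ξ) *
    Complex.I_mul_I

theorem ft_le (u : ℂ → ℝ) (ξ : ℂ) : ‖ft u ξ‖ ≤ ∫ z, |u z| := by
  rw [t2f_eq]
  refine (norm_integral_le_integral_norm _).trans_eq ?_
  simp only [norm_mul, t2f_norm, one_mul, Complex.norm_real, Real.norm_eq_abs]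

theorem ft_zero (u : ℂ → ℝ) : ft u 0 = ((∫ z, u z : ℝ) : ℂ) := by
  simp only [t2f_eq, t2f_zero, one_mul, integral_complex_ofReal]

/-- `|e^{i t} - 1| ≤ |t|`. -/
theorem ft_sub_le (hu : Cc u) (ξ : ℂ) : ‖ft u ξ - ft u 0‖ ≤ 2 * Real.pi * ‖ξ‖ * m1 u := by
  rw [t2f_eq, t2f_eq, ← integral_sub (t2f_int hu.int ξ) (t2f_int hu.int 0), m1,
    ← integral_const_mul]
  refine norm_integral_le_of_norm_le (Integrable.const_mul ?_ _) (Eventually.of_forall fun v => ?_)
  · exact (continuous_norm.mul hu.1.continuous.abs).integrable_of_hasCompactSupport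
      (hu.2.comp_left (g := fun x : ℝ => |x|) abs_zero).mul_left
  · rw [t2f_zero, ← sub_mul, norm_mul, Complex.norm_real, Real.norm_eq_abs, ← mul_assoc]
    refine mul_le_mul_of_nonneg_right ?_ (abs_nonneg _)
    rw [t2f_ch, mul_comm _ Complex.I]
    refine Real.norm_exp_I_mul_ofReal_sub_one_le.trans ?_
    have := abs_real_inner_le_norm v ξ
    rw [Real.norm_eq_abs, abs_mul, abs_mul, abs_neg, abs_two, abs_of_pos Real.pi_pos, mul_assoc _ ‖ξ‖,
      mul_comm ‖ξ‖]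
    gcongr

theorem ft_le_m1 (hf : Test f) (ξ : ℂ) : ‖ft f ξ‖ ≤ 2 * Real.pi * ‖ξ‖ * m1 f := by
  have := ft_sub_le hf.cc ξ
  rwa [ft_zero, hf.2.2, Complex.ofReal_zero, sub_zero] at this

/-- `ft_dd` in the direction `ξ`. -/
theorem ft_le_tv (hu : Cc u) (ξ : ℂ) : 2 * Real.pi * ‖ξ‖ * ‖ft u ξ‖ ≤ tv u := by
  have h0 : Integrable fun z => ‖fderiv ℝ u z‖ :=
    ((hu.1.continuous_fderiv (by simp)).integrable_of_hasCompactSupport (hu.2.fderiv ℝ)).norm
  by_cases h : ξ = 0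
  · rw [h, norm_zero, mul_zero, zero_mul]
    exact integral_nonneg fun z => norm_nonneg _
  have h1 := ft_le (dd ξ u) ξ
  have h2 : ∫ z, |dd ξ u z| ≤ tv u * ‖ξ‖ := by
    rw [tv, ← integral_mul_const]
    exact integral_mono (hu.dd ξ).int.abs (h0.mul_const _) fun z => (fderiv ℝ u z).le_opNorm ξ
  rw [ft_dd hu, real_inner_self_eq_norm_sq, norm_mul, norm_mul, Complex.norm_I, mul_one,
    Complex.norm_real, Real.norm_of_nonneg (by positivity)] at h1
  refine le_of_mul_le_mul_right ?_ (norm_pos_iff.2 h)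
  nlinarith

theorem ft_scale (u : ℂ → ℝ) {r : ℝ} (hr : 0 < r) (ξ : ℂ) :
    ft (fun z => (r ^ 2)⁻¹ * u (z / r)) ξ = ft u (r * ξ) := by
  have h1 := Measure.integral_comp_inv_smul_of_nonneg volume
    (fun v : ℂ => t2f_ch v (r * ξ) * u v) hr.le
  have h0 : (r : ℂ) ≠ 0 := Complex.ofReal_ne_zero.2 hr.ne'
  rw [Complex.finrank_real_complex, Complex.real_smul] at h1
  rw [t2f_eq, t2f_eq, ← inv_mul_cancel_left₀ (a := ((r ^ 2 : ℝ) : ℂ)) (by simpa using hr.ne')
    (∫ v, t2f_ch v (r * ξ) * u v), ← h1, ← integral_const_mul]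
  congr 1
  funext v
  have h2 : t2f_ch (r⁻¹ • v) (r * ξ) = t2f_ch v ξ := by
    rw [← Complex.real_smul, t2f_ch, t2f_ch, real_inner_smul_left, real_inner_smul_right,
      inv_mul_cancel_left₀ hr.ne']
  have h3 : r⁻¹ • v = v / r := by rw [Complex.real_smul, Complex.ofReal_inv, div_eq_inv_mul]
  rw [h2, h3]
  push_cast
  ring

/-- Plancherel (turn both into Schwartz maps with `HasCompactSupport.toSchwartzMap`). -/
theorem ft_planch (hu : Cc u) (hg : Cc g) :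
    Integrable (fun ξ => (ft u ξ * (starRingEnd ℂ) (ft g ξ)).re) ∧
    ∫ ξ, (ft u ξ * (starRingEnd ℂ) (ft g ξ)).re = ∫ z, u z * g z := by
  have h1 := SchwartzMap.integral_inner_fourier_fourier (t2f_S hg) (t2f_S hu)
  have h2 : Integrable fun ξ => ft u ξ * (starRingEnd ℂ) (ft g ξ) := by
    refine Integrable.mul_bdd (c := ∫ z, |g z|) ?_
      (Complex.continuous_conj.comp (ft_cont hg)).aestronglyMeasurable
      (Eventually.of_forall fun ξ => (Complex.norm_conj _).trans_le (ft_le g ξ))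
    rw [t2f_ft hu]
    exact SchwartzMap.integrable _
  refine ⟨h2.re, ?_⟩
  have h3 : ∫ ξ, ft u ξ * (starRingEnd ℂ) (ft g ξ) = ((∫ z, u z * g z : ℝ) : ℂ) := by
    rw [← integral_complex_ofReal]
    refine h1.trans (integral_congr_ae (Eventually.of_forall fun z => ?_))
    change (u z : ℂ) * (starRingEnd ℂ) (g z : ℂ) = _
    rw [Complex.conj_ofReal]
    exact (Complex.ofReal_mul _ _).symm
  have h4 := integral_re h2
  rw [h3] at h4
  exact h4

end Vale.Agent.P153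

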