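import Vale.Agent.P153.BD
import Vale.Agent.P153.T2F

/-! Heat kernel. ft f xi * conj (ft g xi) = double integral of f z g w exp(-2 pi i <z - w, xi>); Fubini and
fourier_gaussian_innerProductSpace (or GaussianFourier.integral_cexp_neg_mul_sq_norm_add). frull: substitute u = 1/t
(integral_comp_rpow_Ioi, or the primitive: (e^(-a u) - e^(-b u))/u = int_a^b e^(-s u) ds and Tonelli; see also
Mathlib Frullani files). -/

open MeasureTheory Filter Topology

noncomputable section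

namespace Vale.Agent.P153

open scoped InnerProductSpace in
/-- The kernel. -/
def b7K (f g : ℂ → ℝ) (B : ℝ) (ξ : ℂ) (p : ℂ × ℂ) : ℂ :=
  ((f p.1 * g p.2 : ℝ) : ℂ) * Complex.exp (-(B : ℂ) * (‖ξ‖ : ℂ) ^ 2 +
    (-2 * Real.pi * Complex.I) * ((⟪p.1 - p.2, ξ⟫_ℝ : ℝ) : ℂ))

theorem b7_int {f g : ℂ → ℝ} (hf : Cc f) (hg : Cc g) {B : ℝ} (hB : 0 < B) :
    Integrable (Function.uncurry (b7K f g B)) (volume.prod volume) := by
  have i1 : Integrable fun ξ : ℂ => ‖Complex.exp (-(B : ℂ) * (‖ξ‖ : ℂ) ^ 2 +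
      0 * ((inner ℝ (0 : ℂ) ξ : ℝ) : ℂ))‖ :=
    (GaussianFourier.integrable_cexp_neg_mul_sq_norm_add (b := B) (by simpa using hB) 0 0).norm
  have i2 : Integrable (fun p : ℂ × ℂ => ‖f p.1‖ * ‖g p.2‖) volume :=
    hf.int.norm.mul_prod hg.int.norm
  have c1 := hf.1.continuous
  have c2 := hg.1.continuous
  refine (i1.mul_prod i2).mono' (Continuous.aestronglyMeasurable ?_)
    (Eventually.of_forall fun q => le_of_eq ?_)
  · unfold Function.uncurry b7K
    fun_prop
  · simp only [Function.uncurry, b7K, norm_mul, Complex.norm_real, Complex.norm_exp]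
    rw [mul_comm]
    congr 2
    simp

theorem b7_left (f g : ℂ → ℝ) (B : ℝ) (ξ : ℂ) :
    ∫ p, b7K f g B ξ p =
      ft f ξ * (starRingEnd ℂ) (ft g ξ) * ((Real.exp (-(B * ‖ξ‖ ^ 2)) : ℝ) : ℂ) := by
  rw [t2f_eq, t2f_eq, ← integral_conj, ← integral_prod_mul, ← integral_mul_const,
    ← Measure.volume_eq_prod]
  congr 1
  funext p
  simp only [b7K, t2f_ch, map_mul, Complex.conj_ofReal, ← Complex.exp_conj, Complex.conj_I,
    inner_sub_left]
  push_cast
  have e : ∀ x y z w a b : ℂ, w = x + y + z → a * b * Complex.exp w =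
      Complex.exp x * a * (Complex.exp y * b) * Complex.exp z := fun x y z w a b h => by
    rw [h, Complex.exp_add, Complex.exp_add]
    ring
  refine e _ _ _ _ _ _ ?_
  ring

theorem b7_right (f g : ℂ → ℝ) {t : ℝ} (ht : 0 < t) (p : ℂ × ℂ) :
    ∫ ξ, b7K f g (4 * Real.pi ^ 2 * t) ξ p = ((f p.1 * g p.2 *
      (Real.exp (-(‖p.1 - p.2‖ ^ 2 / 4 / t)) / (4 * Real.pi * t)) : ℝ) : ℂ) := by
  have hB : 0 < 4 * Real.pi ^ 2 * t := by positivity
  simp only [b7K]
  rw [integral_const_mul, GaussianFourier.integral_cexp_neg_mul_sq_norm_add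
    (by rw [Complex.ofReal_re]; exact hB), Complex.finrank_real_complex]
  have h1 : (Real.pi : ℂ) ≠ 0 := by exact_mod_cast Real.pi_pos.ne'
  have h2 : (t : ℂ) ≠ 0 := by exact_mod_cast ht.ne'
  have e1 : (((2 : ℕ) : ℂ) / 2) = 1 := by norm_num
  have e2 : (-2 * Real.pi * Complex.I) ^ 2 * (‖p.1 - p.2‖ : ℂ) ^ 2 /
      (4 * ((4 * Real.pi ^ 2 * t : ℝ) : ℂ)) = -((‖p.1 - p.2‖ : ℂ) ^ 2 / 4 / t) := by
    rw [mul_pow, Complex.I_sq]
    push_cast
    field_simp
    ring
  rw [e1, Complex.cpow_one, e2]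
  push_cast
  field_simp

theorem b7_fr {a b : ℝ} (ha : 0 < a) (hab : a ≤ b) :
    IntegrableOn (fun t : ℝ => (Real.exp (-(a / t)) - Real.exp (-(b / t))) / t) (Set.Ioi 0) ∧
    ∫ t in Set.Ioi (0 : ℝ), (Real.exp (-(a / t)) - Real.exp (-(b / t))) / t = Real.log (b / a) ∧
    ∫ t in Set.Ioi (0 : ℝ), |(Real.exp (-(a / t)) - Real.exp (-(b / t))) / t| =
      |Real.log (b / a)| := by
  have hb : 0 < b := ha.trans_le hab
  have i1 : IntegrableOn (fun x : ℝ => x⁻¹ • (Real.exp (-(a * x)) - Real.exp (-(b * x))))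
      (Set.Ioi 0) := by
    refine ((exp_neg_integrableOn_Ioi 0 ha).const_mul (b - a)).mono'
      (Measurable.aestronglyMeasurable (by fun_prop)) ?_
    filter_upwards [ae_restrict_mem measurableSet_Ioi] with x hx
    have hx0 : 0 < x := hx
    have h1 : Real.exp (-(b * x)) = Real.exp (-(a * x)) * Real.exp (-((b - a) * x)) := by
      rw [← Real.exp_add]
      congr 1
      ring
    have h2 := Real.add_one_le_exp (-((b - a) * x))
    have h3 : Real.exp (-(b * x)) ≤ Real.exp (-(a * x)) :=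
      Real.exp_le_exp.2 (neg_le_neg (mul_le_mul_of_nonneg_right hab hx0.le))
    have h4 := Real.exp_pos (-(a * x))
    rw [smul_eq_mul, Real.norm_of_nonneg (mul_nonneg (inv_nonneg.2 hx0.le) (sub_nonneg.2 h3)),
      inv_mul_le_iff₀ hx0, neg_mul, h1]
    nlinarith [mul_le_mul_of_nonneg_left h2 h4.le]
  have c1 : Continuous fun x : ℝ => Real.exp (-x) := by fun_prop
  have e1 := Frullani.integral_Ioi_eq (f := fun x : ℝ => Real.exp (-x)) (L := 1) (R := 0)
    (c1.locallyIntegrable.locallyIntegrableOn _) ha hb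
    (by simpa using (c1.tendsto 0).mono_left nhdsWithin_le_nhds)
    Real.tendsto_exp_neg_atTop_nhds_zero i1
  rw [sub_zero, smul_eq_mul, mul_one] at e1
  have q : Set.EqOn (fun x : ℝ => (|(-1 : ℝ)| * x ^ ((-1 : ℝ) - 1)) •
      ((x ^ (-1 : ℝ))⁻¹ • (Real.exp (-(a * x ^ (-1 : ℝ))) - Real.exp (-(b * x ^ (-1 : ℝ))))))
      (fun t : ℝ => (Real.exp (-(a / t)) - Real.exp (-(b / t))) / t) (Set.Ioi 0) := by
    intro x hx
    have hx0 : 0 < x := hx
    simp only [smul_eq_mul]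
    rw [Real.rpow_sub hx0, Real.rpow_neg_one, Real.rpow_one, abs_neg, abs_one, inv_inv,
      ← div_eq_mul_inv, ← div_eq_mul_inv]
    field_simp
  have i2 := ((integrableOn_Ioi_comp_rpow_iff _ (p := -1) (by norm_num)).2 i1).congr_fun q
    measurableSet_Ioi
  have e2 := integral_comp_rpow_Ioi
    (fun x : ℝ => x⁻¹ • (Real.exp (-(a * x)) - Real.exp (-(b * x)))) (p := -1) (by norm_num)
  rw [setIntegral_congr_fun measurableSet_Ioi q, e1] at e2
  refine ⟨i2, e2, ?_⟩
  rw [abs_of_nonneg (Real.log_nonneg ((one_le_div ha).2 hab)), ← e2]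
  refine setIntegral_congr_fun measurableSet_Ioi fun x hx => ?_
  have hx0 : 0 < x := hx
  exact abs_of_nonneg (div_nonneg (sub_nonneg.2 (Real.exp_le_exp.2
    (neg_le_neg (div_le_div_of_nonneg_right hab hx0.le)))) hx0.le)

theorem heat {f g : ℂ → ℝ} (hf : Cc f) (hg : Cc g) {t : ℝ} (ht : 0 < t) :
    ∫ ξ : ℂ, (ft f ξ * (starRingEnd ℂ) (ft g ξ)).re * Real.exp (-(4 * Real.pi ^ 2 * ‖ξ‖ ^ 2 * t)) =
      ∫ p : ℂ × ℂ, f p.1 * g p.2 *
        (Real.exp (-(‖p.1 - p.2‖ ^ 2 / 4 / t)) / (4 * Real.pi * t)) := by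
  have hB : 0 < 4 * Real.pi ^ 2 * t := by positivity
  have i1 := b7_int hf hg hB
  have e1 := integral_integral_swap i1
  have e2 := Complex.reCLM.integral_comp_comm i1.integral_prod_left
  simp only [Function.uncurry] at e2
  rw [e1] at e2
  simp only [b7_left, b7_right f g ht, Complex.reCLM_apply, integral_complex_ofReal,
    Complex.ofReal_re, Complex.re_mul_ofReal] at e2
  rw [← e2]
  congr 1
  funext ξ
  congr 3
  ring

theorem frull {a b : ℝ} (ha : 0 < a) (hb : 0 < b) :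
    IntegrableOn (fun t : ℝ => (Real.exp (-(a / t)) - Real.exp (-(b / t))) / t) (Set.Ioi 0) ∧
    ∫ t in Set.Ioi (0 : ℝ), (Real.exp (-(a / t)) - Real.exp (-(b / t))) / t = Real.log (b / a) ∧
    ∫ t in Set.Ioi (0 : ℝ), |(Real.exp (-(a / t)) - Real.exp (-(b / t))) / t| =
      |Real.log (b / a)| := by
  rcases le_total a b with h | h
  · exact b7_fr ha h
  · obtain ⟨h1, h2, h3⟩ := b7_fr hb h
    have e : ∀ t : ℝ, (Real.exp (-(a / t)) - Real.exp (-(b / t))) / t =
        -((Real.exp (-(b / t)) - Real.exp (-(a / t))) / t) := fun t => by ring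
    have e' : Real.log (b / a) = -Real.log (a / b) := by rw [← Real.log_inv, inv_div]
    simp only [e, e', abs_neg, integral_neg]
    exact ⟨h1.neg, by rw [h2], h3⟩

end Vale.Agent.P153
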