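import Vale.Agent.P153.Defs
import Vale.Agent.P153C.Defs

/-! Definitions for part B. -/

open MeasureTheory Filter Topology

noncomputable section

namespace Vale.Agent.P153

/-- The variogram. -/
def Vp (P : Measure Cfg) (p : ℤ × ℤ) : ℝ := ∫ k, ((k p - k 0 : ℤ) : ℝ) ^ 2 ∂P

/-- Uniform logarithmic bound. -/
def LogBd (V : ℤ × ℤ → ℝ) : Prop :=
  ∃ C : ℝ, 0 ≤ C ∧ ∀ p q : ℤ × ℤ, p ≠ 0 → q ≠ 0 →
    |V p - V q| ≤ C * (1 + |Real.log (‖pos p‖ / ‖pos q‖)|)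

/-- Pointwise limit. -/
def PtLim (V : ℤ × ℤ → ℝ) (c : ℝ) : Prop :=
  ∀ (δ : ℕ → ℝ) (p q : ℕ → ℤ × ℤ) (z w : ℂ), z ≠ 0 → w ≠ 0 →
    Tendsto δ atTop (𝓝[>] 0) → Tendsto (fun i => (δ i : ℂ) * pos (p i)) atTop (𝓝 z) →
    Tendsto (fun i => (δ i : ℂ) * pos (q i)) atTop (𝓝 w) →
    (∀ i, (3 : ℤ) ∣ (p i).1 - (p i).2 ↔ (3 : ℤ) ∣ (q i).1 - (q i).2) →
    Tendsto (fun i => V (p i) - V (q i)) atTop (𝓝 (c * Real.log (‖z‖ / ‖w‖)))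

/-- Bound near two points. -/
def NearBd (V : ℤ × ℤ → ℝ) : Prop :=
  ∃ C : ℝ, 0 ≤ C ∧ ∀ δ > (0 : ℝ), ∀ R > (0 : ℝ), ∃ N : ℝ, ∀ z w : ℂ, z ≠ w → ∀ x y : ℤ × ℤ,
    ‖z / δ - pos x‖ < 1 → ‖w / δ - pos y‖ < 1 →
      |V (x - y) - N| ≤ C * (1 + |Real.log (‖z - w‖ / R)|)

/-- The interpolated kernel. -/
def Kv (V : ℤ × ℤ → ℝ) (δ : ℝ) (z w : ℂ) : ℝ :=
  ∑ᶠ x : ℤ × ℤ, ∑ᶠ y : ℤ × ℤ, hat (z / δ - pos x) * hat (w / δ - pos y) * V (x - y)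

/-- The quadratic form of a kernel. -/
def qf (V : ℤ × ℤ → ℝ) (w w' : ℤ × ℤ →₀ ℝ) : ℝ :=
  w.sum fun x a => w'.sum fun y b => a * b * V (x - y)

/-- Indicator of the two nonzero colours. -/
def c3 (p : ℤ × ℤ) : ℝ := if (3 : ℤ) ∣ p.1 - p.2 then 0 else 1

theorem pos_eq (p : ℤ × ℤ) : P153C.pos p = pos p := by
  apply Complex.ext <;> simp [P153C.pos, pos, om] <;> ring

end Vale.Agent.P153
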