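import Mathlib

/-! A moment sequence lemma. -/

open MeasureTheory Filter Topology

noncomputable section

namespace Vale.Agent.P153

open Polynomial

theorem C0a_arch {e C : ℝ} (h : ∀ n : ℕ, n * e ≤ C) : e ≤ 0 := by
  by_contra he
  rw [not_le] at he
  obtain ⟨n, hn⟩ := exists_nat_gt (C / e)
  exact absurd (h n) (not_le.2 ((div_lt_iff₀ he).1 hn))

theorem C0a_bd {L : ℝ[X] →ₗ[ℝ] ℝ} {M : ℝ} (hL : ∀ k, |L (X ^ k)| ≤ M) (q : ℝ[X]) :
    ∃ B, ∀ n, |L (X ^ n * q)| ≤ B := by
  induction q using Polynomial.induction_on' with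
  | add p q hp hq =>
    obtain ⟨B, hB⟩ := hp
    obtain ⟨B', hB'⟩ := hq
    refine ⟨B + B', fun n => ?_⟩
    rw [mul_add, map_add]
    exact (abs_add_le _ _).trans (add_le_add (hB n) (hB' n))
  | monomial k a =>
    refine ⟨|a| * M, fun n => ?_⟩
    rw [← smul_X_eq_monomial, mul_smul_comm, ← pow_add, map_smul, smul_eq_mul, abs_mul]
    exact mul_le_mul_of_nonneg_left (hL _) (abs_nonneg a)

theorem C0a_con {L : ℝ[X] →ₗ[ℝ] ℝ} {M : ℝ} (hL : ∀ k, |L (X ^ k)| ≤ M) (h : ∀ p, 0 ≤ L (p * p))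
    (p : ℝ[X]) : L (X * p * (X * p)) ≤ L (p * p) := by
  set a : ℕ → ℝ := fun n => L (X ^ (2 * n) * (p * p)) with ha
  have h1 : ∀ n, a (n + 1) - a n ≤ a (n + 2) - a (n + 1) := fun n => by
    have h2 := h (X ^ n * (1 - X ^ 2) * p)
    have e : X ^ n * (1 - X ^ 2) * p * (X ^ n * (1 - X ^ 2) * p) = X ^ (2 * n) * (p * p) -
        X ^ (2 * (n + 1)) * (p * p) - X ^ (2 * (n + 1)) * (p * p) +
          X ^ (2 * (n + 2)) * (p * p) := by ring
    rw [e, map_add, map_sub, map_sub] at h2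
    simp only [ha]
    linarith
  have h2 : ∀ n, a 1 - a 0 ≤ a (n + 1) - a n := fun n => by
    induction n with
    | zero => exact le_rfl
    | succ n ih => exact ih.trans (h1 n)
  have h3 : ∀ n : ℕ, n * (a 1 - a 0) ≤ a n - a 0 := fun n => by
    induction n with
    | zero => simp
    | succ n ih =>
      have := h2 n
      push_cast
      linarith
  obtain ⟨B, hB⟩ := C0a_bd hL (p * p)
  have h4 := C0a_arch (C := B - a 0) fun n =>
    (h3 n).trans (sub_le_sub_right (le_of_abs_le (hB _)) _)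
  have e1 : X * p * (X * p) = X ^ (2 * 1) * (p * p) := by ring
  have e0 : a 0 = L (p * p) := by simp [ha]
  rw [e1, ← e0]
  exact sub_nonpos.1 h4

theorem C0a_desc {L G : ℝ[X] →ₗ[ℝ] ℝ} {M K : ℝ} (hL : ∀ k, |L (X ^ k)| ≤ M)
    (h : ∀ (x : ℝ) p, 0 ≤ x ^ 2 * K + 2 * x * G p + L (p * p)) (i : ℕ)
    (h0 : ∀ k, i + 2 < k → G (X ^ k) = 0) : G (X ^ (i + 2)) = 0 := by
  have hp : ∀ p, 0 ≤ L (p * p) := fun p => by simpa using h 0 p
  have h1 : ∀ q, G (X ^ (i + 3) * q) = 0 := fun q => by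
    induction q using Polynomial.induction_on' with
    | add p q hp hq => rw [mul_add, map_add, hp, hq, add_zero]
    | monomial k a =>
      rw [← smul_X_eq_monomial, mul_smul_comm, ← pow_add, map_smul, h0 _ (by omega), smul_zero]
  set v : ℕ → ℝ[X] := fun n => (1 - X ^ 2) ^ n * X ^ i with hv
  have h2 : ∀ n, G (X * (X * v n)) = G (X ^ (i + 2)) := fun n => by
    induction n with
    | zero => exact congrArg G (by simp only [hv]; ring)
    | succ n ih =>
      have e : X * (X * v (n + 1)) = X * (X * v n) - X ^ (i + 3) * (X * (1 - X ^ 2) ^ n) := by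
        simp only [hv]
        ring
      rw [e, map_sub, ih, h1, sub_zero]
  have h3 : ∀ (x : ℝ) (n : ℕ), n * -(x ^ 2 * K + 2 * x * G (X ^ (i + 2))) ≤
      L (v 0 * v 0) - L (v n * v n) := fun x n => by
    induction n with
    | zero => simp
    | succ n ih =>
      have e : v (n + 1) * v (n + 1) = v n * v n - X * v n * (X * v n) - X * v n * (X * v n) +
          X * (X * v n) * (X * (X * v n)) := by
        simp only [hv]
        ring
      have h4 := h x (X * (X * v n))
      have h5 := C0a_con hL hp (X * v n)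
      rw [h2] at h4
      rw [e, map_add, map_sub, map_sub]
      push_cast
      linarith
  have h4 : ∀ x : ℝ, 0 ≤ x ^ 2 * K + 2 * x * G (X ^ (i + 2)) := fun x =>
    neg_nonpos.1 (C0a_arch fun n => (h3 x n).trans (sub_le_self _ (hp _)))
  have h5 := discrim_le_zero (a := K) (b := 2 * G (X ^ (i + 2))) (c := 0) fun x => by
    linarith [h4 x]
  rw [discrim] at h5
  nlinarith [sq_nonneg (G (X ^ (i + 2)))]

theorem seq_move (b g : ℕ → ℝ) (K M : ℝ) (hb : ∀ k, |b k| ≤ M)
    (h : ∀ (x : ℝ) (n : ℕ) (c : ℕ → ℝ), 0 ≤ x ^ 2 * K + 2 * x * ∑ i ∈ Finset.range n, c i * g i +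
      ∑ i ∈ Finset.range n, ∑ j ∈ Finset.range n, c i * c j * b (i + j))
    (h0 : ∀ᶠ k in atTop, g k = 0) : g 2 = 0 := by
  have hX : ∀ (f : ℕ → ℝ) k, (basisMonomials ℝ).constr ℝ f (X ^ k) = f k := fun f k => by
    rw [← monomial_one_right_eq_X_pow]
    exact (basisMonomials ℝ).constr_basis ℝ f k
  set L := (basisMonomials ℝ).constr ℝ b with hL
  set G := (basisMonomials ℝ).constr ℝ g with hG
  have h1 : ∀ (x : ℝ) p, 0 ≤ x ^ 2 * K + 2 * x * G p + L (p * p) := fun x p => by
    have h2 := h x (p.natDegree + 1) p.coeff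
    have e : p = ∑ i ∈ Finset.range (p.natDegree + 1), p.coeff i • X ^ i := by
      simpa only [smul_X_eq_monomial] using p.as_sum_range
    generalize p.natDegree + 1 = n at h2 e
    generalize p.coeff = c at h2 e
    rw [e, Finset.sum_mul_sum]
    simpa only [map_sum, smul_mul_smul_comm, ← pow_add, map_smul, smul_eq_mul, hL, hG, hX] using h2
  obtain ⟨N, hN⟩ := eventually_atTop.1 h0
  have h2 : ∀ m i : ℕ, N ≤ i + m → g (i + 2) = 0 := fun m => by
    induction m with
    | zero => exact fun i hi => hN _ (by omega)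
    | succ m ih =>
      intro i hi
      rw [← hX g]
      refine C0a_desc (L := L) (M := M) (fun k => by rw [hL, hX]; exact hb k) h1 i fun k hk => ?_
      obtain ⟨l, rfl⟩ : ∃ l, k = l + 2 := ⟨k - 2, by omega⟩
      rw [hG, hX]
      exact ih l (by omega)
  exact h2 N 0 (by omega)

end Vale.Agent.P153
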