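import Vale.Agent.P153.C0b

/-! Moment bounds. -/

open MeasureTheory Filter Topology

noncomputable section

namespace Vale.Agent.P153

theorem c0c_pow (l : List ℝ) (m : ℕ) {M : ℝ} (hM : 0 ≤ M) (h : ∀ y ∈ l, |y| ^ m ≤ M) :
    |l.prod| ^ m ≤ M ^ l.length := by
  induction l with
  | nil => simp
  | cons a l ih =>
    rw [List.prod_cons, abs_mul, mul_pow, List.length_cons, pow_succ']
    exact mul_le_mul (h a (by simp)) (ih fun y hy => h y (List.mem_cons_of_mem _ hy))
      (by positivity) hM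

/-- Every `|y|` is at most the maximum. -/
theorem prod_sq_le (l : List ℝ) : l.prod ^ 2 ≤ 1 + (l.map fun y => |y| ^ (2 * l.length)).sum := by
  have h0 : ∀ x ∈ l.map fun y => |y| ^ (2 * l.length), 0 ≤ x := fun x hx => by
    obtain ⟨y, -, rfl⟩ := List.mem_map.1 hx
    positivity
  have h1 := List.sum_nonneg h0
  have h2 := c0c_pow l (2 * l.length) h1 fun y hy =>
    List.single_le_sum h0 _ (List.mem_map.2 ⟨y, hy, rfl⟩)
  by_cases hn : l.length = 0
  · simp [List.length_eq_zero_iff.1 hn]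
  · rw [pow_mul, sq_abs] at h2
    linarith [le_of_pow_le_pow_left₀ hn h1 h2]

variable {P : Measure Cfg} [IsProbabilityMeasure P]

/-- `hM` for `Wt δ f` (`fld_eq`, `Wt_zs`, `Wt_l1`), `Real.pow_div_factorial_le_exp`; everything is
integrable by `Loc.int`. -/
theorem fld_pow_le (h : Good P) (hM : Mom P) (p : ℕ) : ∃ C : ℝ, 0 ≤ C ∧ ∀ δ : ℝ, 0 < δ →
    ∀ f, Test f → ∀ L : ℝ, 0 < L → sz P δ f ≤ L → ∫ k, |fld δ f k / L| ^ p ∂P ≤ C := by
  obtain ⟨C, hC, hM⟩ := hM
  refine ⟨C ^ p * p.factorial * C, by positivity, fun δ hδ f hf L hL hs => ?_⟩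
  have e : fld δ f = ev (Wt δ f) := funext (fld_eq hδ hf.1.continuous hf.2.1)
  have h1 := hM (Wt δ f) (Wt_zs hδ hf) L hL (by
    rw [← e]
    rw [sz] at hs
    linarith [Wt_l1 hδ hf.1.continuous hf.2.1])
  rw [← e] at h1
  have h2 := ((fld_loc hδ hf).comp fun x => Real.exp (|x| / (C * L))).int h.lip
  refine le_trans (integral_mono (((fld_loc hδ hf).comp fun x => |x / L| ^ p).int h.lip)
    (h2.const_mul (C ^ p * p.factorial)) fun k => ?_) ?_
  · have h3 := Real.pow_div_factorial_le_exp (|fld δ f k| / (C * L)) (by positivity) p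
    rw [div_le_iff₀ (by positivity)] at h3
    have e2 : |fld δ f k / L| = C * (|fld δ f k| / (C * L)) := by
      rw [abs_div, abs_of_pos hL]
      field_simp
    simp only [e2, mul_pow]
    rw [mul_assoc, mul_comm (p.factorial : ℝ)]
    exact mul_le_mul_of_nonneg_left h3 (by positivity)
  · rw [integral_const_mul]
    exact mul_le_mul_of_nonneg_left h1 (by positivity)

theorem c0c_cs {X Y : Cfg → ℝ} (h1 : Integrable (fun k => X k ^ 2) P)
    (h2 : Integrable (fun k => X k * Y k) P) (h3 : Integrable (fun k => Y k ^ 2) P) :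
    |∫ k, X k * Y k ∂P| ≤ √(∫ k, X k ^ 2 ∂P) * √(∫ k, Y k ^ 2 ∂P) := by
  have h4 := discrim_le_zero (a := ∫ k, X k ^ 2 ∂P) (b := 2 * ∫ k, X k * Y k ∂P)
    (c := ∫ k, Y k ^ 2 ∂P) fun t => by
      have a1 := h1.mul_const (t * t)
      have a2 := (h2.const_mul 2).mul_const t
      rw [← integral_mul_const, ← integral_const_mul, ← integral_mul_const, ← integral_add a1 a2,
        ← integral_add (f := fun k => X k ^ 2 * (t * t) + 2 * (X k * Y k) * t) (a1.add a2) h3]
      exact integral_nonneg fun k => by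
        have := sq_nonneg (X k * t + Y k)
        simp only [Pi.zero_apply]
        linarith
  rw [← Real.sqrt_mul (integral_nonneg fun k => sq_nonneg _)]
  refine Real.abs_le_sqrt ?_
  rw [discrim] at h4
  linarith

theorem c0c_sum {α : Type} (l : List α) (F : α → Cfg → ℝ) {C : ℝ}
    (h : ∀ g ∈ l, Integrable (F g) P ∧ ∫ k, F g k ∂P ≤ C) :
    Integrable (fun k => (l.map fun g => F g k).sum) P ∧
      ∫ k, (l.map fun g => F g k).sum ∂P ≤ l.length * C := by
  induction l with
  | nil => simp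
  | cons a l ih =>
    obtain ⟨h1, h2⟩ := ih fun g hg => h g (List.mem_cons_of_mem _ hg)
    obtain ⟨h3, h4⟩ := h a (by simp)
    simp only [List.map_cons, List.sum_cons, List.length_cons]
    refine ⟨h3.add h1, ?_⟩
    rw [integral_add h3 h1]
    push_cast
    linarith

theorem c0c_div {α : Type} (l : List α) (x L : α → ℝ) (h : ∀ g ∈ l, 0 < L g) :
    (l.map x).prod = (l.map L).prod * (l.map fun g => x g / L g).prod := by
  induction l with
  | nil => simp
  | cons a l ih =>
    have h1 := (h a (by simp)).ne'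
    simp only [List.map_cons, List.prod_cons, ih fun g hg => h g (List.mem_cons_of_mem _ hg)]
    field_simp

/-- Cauchy-Schwarz, then `prod_sq_le` for the list of `fld δ g k / L g`. -/
theorem mom_bound (h : Good P) (hM : Mom P) (n : ℕ) : ∃ C : ℝ, 0 ≤ C ∧ ∀ δ : ℝ, 0 < δ →
    ∀ f l, Test f → Tests l → l.length = n → ∀ L : (ℂ → ℝ) → ℝ,
      (∀ g ∈ l, 0 < L g ∧ sz P δ g ≤ L g) →
        |mom P δ (f :: l)| ≤ C * √(∫ k, fld δ f k ^ 2 ∂P) * (l.map L).prod := by
  obtain ⟨C, hC, h1⟩ := fld_pow_le h hM (2 * n)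
  refine ⟨√(1 + n * C), Real.sqrt_nonneg _, fun δ hδ f l hf hl hn L hL => ?_⟩
  have h0 : 0 ≤ (l.map L).prod := List.prod_nonneg fun x hx => by
    obtain ⟨g, hg, rfl⟩ := List.mem_map.1 hx
    exact (hL g hg).1.le
  have a3 : Integrable (fun k => pr δ l k ^ 2) P := by
    simpa only [sq, ← pr_append] using pr_int h hδ (hl.append hl)
  obtain ⟨b1, b2⟩ := c0c_sum l (fun g k => |fld δ g k / L g| ^ (2 * n)) (C := C) fun g hg =>
    ⟨((fld_loc hδ (hl g hg)).comp fun x => |x / L g| ^ (2 * n)).int h.lip,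
      h1 δ hδ g (hl g hg) _ (hL g hg).1 (hL g hg).2⟩
  have h2 : ∫ k, pr δ l k ^ 2 ∂P ≤ (l.map L).prod ^ 2 * (1 + n * C) := by
    refine le_trans (integral_mono a3 (((integrable_const 1).add b1).const_mul
      ((l.map L).prod ^ 2)) fun k => ?_) ?_
    · have h3 := prod_sq_le (l.map fun g => fld δ g k / L g)
      rw [List.map_map, List.length_map, hn] at h3
      simp only [pr]
      rw [c0c_div l _ L fun g hg => (hL g hg).1, mul_pow]
      exact mul_le_mul_of_nonneg_left h3 (sq_nonneg _)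
    · simp only [Pi.add_apply]
      rw [integral_const_mul, integral_add (integrable_const 1) b1]
      rw [hn] at b2
      refine mul_le_mul_of_nonneg_left ?_ (sq_nonneg _)
      simpa using b2
  have h4 := c0c_cs (((fld_loc hδ hf).comp fun x => x ^ 2).int h.lip)
    (by simpa only [← pr_cons] using pr_int h hδ (Tests.cons hf hl)) a3
  have h5 := Real.sqrt_le_sqrt h2
  rw [Real.sqrt_mul (sq_nonneg _), Real.sqrt_sq h0] at h5
  rw [mom_eq]
  simp only [pr_cons]
  refine h4.trans ((mul_le_mul_of_nonneg_left h5 (Real.sqrt_nonneg _)).trans_eq ?_)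
  ring

end Vale.Agent.P153
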