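import Vale.Agent.P153.C2s

/-! The Schwinger-Dyson equation. -/

open MeasureTheory Filter Topology

noncomputable section

namespace Vale.Agent.P153

/-- A common bound for the supports of a list of test functions. -/
theorem sup_ball_C2 {A : List (ℂ → ℝ)} (hA : Tests A) :
    ∃ R : ℝ, ∀ R' : ℝ, R ≤ R' → Sup A (Metric.closedBall 0 R') := by
  induction A with
  | nil => exact ⟨0, fun _ _ f hf => absurd hf List.not_mem_nil⟩
  | cons g A ih =>
    obtain ⟨R, hR⟩ := ih fun f hf => hA f (List.mem_cons_of_mem _ hf)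
    obtain ⟨r, hr⟩ := (hA g List.mem_cons_self).2.1.isCompact.isBounded.subset_closedBall (0 : ℂ)
    refine ⟨max R r, fun R' h f hf => ?_⟩
    rcases List.mem_cons.1 hf with rfl | hf
    · exact hr.trans (Metric.closedBall_subset_closedBall ((le_max_right _ _).trans h))
    · exact hR R' ((le_max_left _ _).trans h) f hf

/-- The insertion can be moved far away. -/
theorem move_far_C2 {σ : ℝ} {S : List (ℂ → ℝ) → ℝ} (h : Lim σ S) (hL : Local S) {R : ℝ}
    (hR : 1 ≤ R) {v w : ℂ → ℝ} (hv : Cc v) (hvR : tsupport v ⊆ Metric.closedBall 0 R)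
    (hv1 : cov (lap v) (lap v) = 1) (hw : Cc w)
    (hwR : tsupport w ⊆ Metric.closedBall (((R + 4 : ℝ) : ℂ) * Complex.I) 1)
    (hw1 : cov (lap w) (lap w) = 1) {B : List (ℂ → ℝ)} (hB : Tests B)
    (hBR : Sup B (Metric.closedBall 0 R)) (hBv : Sup B (tsupport v)ᶜ) :
    S (lap v :: lap v :: B) = S (lap w :: lap w :: B) := by
  have h1 : Tests (lap v :: B) := fun f hf => by
    rcases List.mem_cons.1 hf with rfl | hf
    · exact hv.test_lap
    · exact hB f hf
  have h2 : Sup (lap v :: B) (Metric.closedBall 0 R) := fun f hf => by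
    rcases List.mem_cons.1 hf with rfl | hf
    · exact (tsupport_lap v hv.1).trans hvR
    · exact hBR f hf
  have h3 : S (lap v :: lap v :: B) = ∑ j : Fin (B.length + 1),
      cov (lap v) ((lap v :: B).get j) * S (lap w :: lap w :: (lap v :: B).eraseIdx j) :=
    sd_far h hL hR hv hvR hw hwR hw1 h1 h2
  rw [h3, Fin.sum_univ_succ, Finset.sum_eq_zero, add_zero]
  · exact (congrArg (· * S (lap w :: lap w :: B)) hv1).trans (one_mul _)
  · intro j _
    have h4 : cov (lap v) (B.get j) = 0 :=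
      cov_lap_disj hv (hB _ (List.get_mem B j))
        (Set.subset_compl_iff_disjoint_left.1 (hBv _ (List.get_mem B j)))
    exact (congrArg (· * _) h4).trans (zero_mul _)

/-- Take `R` large for `u`, `v`, `A` and `w` from `ref_scale` with `η = 1`. `sd_far` for `v` and
the list `lap v :: B` (`Fin.sum_univ_succ`, `cov_lap_disj`) gives
`S (lap v :: lap v :: B) = S (lap w :: lap w :: B)`. -/
theorem sd_of_local {σ : ℝ} {S : List (ℂ → ℝ) → ℝ} (h : Lim σ S) (hL : Local S) : SD S := by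
  intro u v A hu hv hv1 hA hAv _
  obtain ⟨R₁, h₁⟩ := sup_ball_C2 hA
  obtain ⟨R₂, h₂⟩ := hu.2.isCompact.isBounded.subset_closedBall (0 : ℂ)
  obtain ⟨R₃, h₃⟩ := hv.2.isCompact.isBounded.subset_closedBall (0 : ℂ)
  obtain ⟨R, hR, hR₁, hR₂, hR₃⟩ : ∃ R : ℝ, 1 ≤ R ∧ R₁ ≤ R ∧ R₂ ≤ R ∧ R₃ ≤ R :=
    ⟨max (max 1 R₁) (max R₂ R₃), (le_max_left _ _).trans (le_max_left _ _),
      (le_max_right _ _).trans (le_max_left _ _), (le_max_left _ _).trans (le_max_right _ _),
      (le_max_right _ _).trans (le_max_right _ _)⟩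
  obtain ⟨C, -, hC⟩ := ref_scale
  obtain ⟨w, hw, hwR, hw1, -⟩ := hC 1 one_pos (((R + 4 : ℝ) : ℂ) * Complex.I)
  rw [sd_far h hL hR hu (h₂.trans (Metric.closedBall_subset_closedBall hR₂)) hw hwR hw1 hA
    (h₁ R hR₁)]
  refine Finset.sum_congr rfl fun j _ => ?_
  rw [move_far_C2 h hL hR hv (h₃.trans (Metric.closedBall_subset_closedBall hR₃)) hv1 hw hwR hw1
    (fun f hf => hA f (List.mem_of_mem_eraseIdx hf))
    (fun f hf => h₁ R hR₁ f (List.mem_of_mem_eraseIdx hf))
    (fun f hf => hAv f (List.mem_of_mem_eraseIdx hf))]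

end Vale.Agent.P153
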