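import Vale.Agent.P153.T2
import Vale.Agent.P153.T4

/-! Multilinear bookkeeping for the limit functional. -/

open MeasureTheory Filter Topology

noncomputable section

namespace Vale.Agent.P153

variable {σ : ℝ} {S : List (ℂ → ℝ) → ℝ}

/-- `f` with its mass moved to `ρ`. -/
def cz (ρ f : ℂ → ℝ) : ℂ → ℝ := fun z => f z - (∫ w, f w) * ρ z

theorem cz_test {ρ f : ℂ → ℝ} (hρ : Cc ρ) (h1 : ∫ z, ρ z = 1) (hf : Cc f) : Test (cz ρ f) := by
  have h2 := hf.lin hρ 1 (-(∫ w, f w))
  have e : cz ρ f = fun z => 1 * f z + -(∫ w, f w) * ρ z := by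
    funext z
    simp only [cz]
    ring
  refine ⟨e ▸ h2.1, e ▸ h2.2, ?_⟩
  simp only [cz]
  rw [integral_sub hf.int (hρ.int.const_mul _), integral_const_mul, h1, mul_one, sub_self]

theorem cz_of_test {ρ f : ℂ → ℝ} (hf : Test f) : cz ρ f = f := by
  funext z
  simp only [cz, hf.2.2, zero_mul, sub_zero]

theorem cz_supp (ρ f : ℂ → ℝ) : tsupport (cz ρ f) ⊆ tsupport f ∪ tsupport ρ := by
  refine closure_minimal (fun z hz => ?_) ((isClosed_tsupport f).union (isClosed_tsupport ρ))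
  by_contra hn
  rw [Set.mem_union, not_or] at hn
  apply hz
  simp only [cz, image_eq_zero_of_notMem_tsupport hn.1, image_eq_zero_of_notMem_tsupport hn.2,
    mul_zero, sub_zero]

theorem cz_lin {ρ f g : ℂ → ℝ} (hf : Cc f) (hg : Cc g) (a b : ℝ) :
    cz ρ (fun z => a * f z + b * g z) = fun z => a * cz ρ f z + b * cz ρ g z := by
  funext z
  simp only [cz]
  rw [integral_add (hf.int.const_mul a) (hg.int.const_mul b), integral_const_mul,
    integral_const_mul]
  ring

theorem Lim.zero1 (h : Lim σ S) {l : List (ℂ → ℝ)} (hl : Tests l) : S ((fun _ => 0) :: l) = 0 := by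
  have h1 := h.lin 0 0 (fun _ => 0) (fun _ => 0) l test_zero test_zero hl
  simpa using h1

theorem Lim.sum1 (h : Lim σ S) {ι : Type} (s : Finset ι) {F : ι → ℂ → ℝ}
    (hF : ∀ i ∈ s, Test (F i)) {l : List (ℂ → ℝ)} (hl : Tests l) :
    S ((fun z => ∑ i ∈ s, F i z) :: l) = ∑ i ∈ s, S (F i :: l) := by
  classical
  induction s using Finset.induction_on with
  | empty => simpa using h.zero1 hl
  | insert a s ha ih =>
    have hs : ∀ i ∈ s, Test (F i) := fun i hi => hF i (Finset.mem_insert_of_mem hi)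
    have h1 := h.lin 1 1 (F a) (fun z => ∑ i ∈ s, F i z) l (hF a (Finset.mem_insert_self _ _))
      (Test.sum s hs) hl
    simp only [one_mul] at h1
    simp only [Finset.sum_insert ha]
    rw [h1, ih hs]

private theorem tests_cons_C2a {e : ℂ → ℝ} {l : List (ℂ → ℝ)} (he : Test e) (hl : Tests l) :
    Tests (e :: l) := fun f hf => by
  rcases List.mem_cons.1 hf with rfl | hf
  · exact he
  · exact hl f hf

theorem Lim.lin2 (h : Lim σ S) (a b : ℝ) {e f g : ℂ → ℝ} {l : List (ℂ → ℝ)} (he : Test e)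
    (hf : Test f) (hg : Test g) (hl : Tests l) :
    S (e :: (fun z => a * f z + b * g z) :: l) = a * S (e :: f :: l) + b * S (e :: g :: l) := by
  rw [h.perm _ _ (List.Perm.swap _ e l), h.lin a b f g (e :: l) hf hg (tests_cons_C2a he hl),
    h.perm _ _ (List.Perm.swap e f l), h.perm _ _ (List.Perm.swap e g l)]

theorem Lim.sum2 (h : Lim σ S) {ι : Type} (s : Finset ι) {e : ℂ → ℝ} {F : ι → ℂ → ℝ}
    (he : Test e) (hF : ∀ i ∈ s, Test (F i)) {l : List (ℂ → ℝ)} (hl : Tests l) :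
    S (e :: (fun z => ∑ i ∈ s, F i z) :: l) = ∑ i ∈ s, S (e :: F i :: l) := by
  rw [h.perm _ _ (List.Perm.swap _ e l), h.sum1 s hF (tests_cons_C2a he hl)]
  exact Finset.sum_congr rfl fun i _ => h.perm _ _ (List.Perm.swap e (F i) l)

/-- A smooth plateau (`exists_contMDiffMap_one_nhds_of_subset_interior` or
`exists_contMDiff_zero_one`-type lemmas with `exists_compact_between`). -/
theorem plateau {K O : Set ℂ} (hK : IsCompact K) (hO : IsOpen O) (hKO : K ⊆ O) :
    ∃ v U, Cc v ∧ tsupport v ⊆ O ∧ IsOpen U ∧ K ⊆ U ∧ U ⊆ O ∧ ∀ z ∈ U, v z = 1 := by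
  obtain ⟨L, hL, hKL, hLO⟩ := exists_compact_between hK hO hKO
  obtain ⟨f, h1, h0, -⟩ := exists_contMDiffMap_one_nhds_of_subset_interior
    (modelWithCornersSelf ℝ ℂ) (n := (⊤ : ℕ∞)) hK.isClosed hKL
  have hs : tsupport (f : ℂ → ℝ) ⊆ L := by
    refine closure_minimal (fun z hz => ?_) hL.isClosed
    by_contra hn
    exact hz (h0 z hn)
  obtain ⟨U, hU, hKU, hU1⟩ := mem_nhdsSet_iff_exists.1 h1
  refine ⟨f, U ∩ O, ⟨f.contMDiff.contDiff, hL.of_isClosed_subset (isClosed_tsupport _) hs⟩,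
    hs.trans hLO, hU.inter hO, Set.subset_inter hKU hKO, Set.inter_subset_right,
    fun z hz => hU1 hz.1⟩

end Vale.Agent.P153
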