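import Vale.Agent.P153.C2a
import Vale.Agent.P153.T4P

/-! The contact term is a multiplication operator. -/

open MeasureTheory Filter Topology

noncomputable section

namespace Vale.Agent.P153

variable {σ : ℝ} {S : List (ℂ → ℝ) → ℝ}

theorem loc_C2b (h : Lim σ S) (hL : Local S) {O : Set ℂ} {B : List (ℂ → ℝ)} (hB : Tests B)
    (hBO : Sup B Oᶜ) {w g : ℂ → ℝ} (hw : Cc w) (hwO : tsupport w ⊆ O) (hg : Test g) {η : ℝ}
    (hη : 0 < η) {p : ℂ} (hgs : tsupport g ⊆ Metric.ball p (2 * η) ∪ Oᶜ) :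
    S (lap w :: g :: B) = S (lap (fun z => cut η p z * w z) :: g :: B) := by
  have c1 : Cc fun z => cut η p z * w z := hw.mul (cut_cc hη p).1
  have c2 : Cc fun z => (1 - cut η p z) * w z := hw.mul (contDiff_const.sub (cut_cc hη p).1)
  have s1 : tsupport (fun z => (1 - cut η p z) * w z) ⊆ O := tsupport_mul_subset_right.trans hwO
  have s2 : tsupport (fun z => (1 - cut η p z) * w z) ⊆ (Metric.ball p (2 * η))ᶜ :=
    closure_minimal (fun z hz k => hz (by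
      simp only [cut_one hη (mem_ball_iff_norm.1 k).le, sub_self, zero_mul]))
      Metric.isOpen_ball.isClosed_compl
  have t : Tests (g :: B) := List.forall_mem_cons.2 ⟨hg, hB⟩
  have k := hL _ (g :: B) c2 t (List.forall_mem_cons.2
    ⟨fun z hz k => (hgs hz).elim (fun e => s2 k e) fun e => e (s1 k),
      fun b hb z hz k => hBO b hb hz (s1 k)⟩)
  have e : w = fun z => 1 * (cut η p z * w z) + 1 * ((1 - cut η p z) * w z) := by
    funext z
    ring
  have k2 := h.lin 1 1 _ _ _ c1.test_lap c2.test_lap t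
  rw [← lap_lin c1 c2, ← e, k, mul_zero, add_zero, one_mul] at k2
  exact k2

theorem supp_C2b {O : Set ℂ} {ρ : ℂ → ℝ} (hρO : tsupport ρ ⊆ Oᶜ) {η : ℝ} (hη : 0 < η)
    (f : ℂ → ℝ) (a : ℤ × ℤ) :
    tsupport (piece η f ρ a) ⊆ Metric.ball (gp η a) (2 * η) ∪ Oᶜ :=
  (piece_supp η f ρ a).trans (Set.union_subset_union (Set.inter_subset_left.trans
    ((pu_supp' hη a).trans (Metric.ball_subset_ball (by linarith)))) hρO)

theorem one_C2b (h : Lim σ S) (hL : Local S) {O : Set ℂ}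
    {ρ : ℂ → ℝ} (hρ : Cc ρ) (h1 : ∫ z, ρ z = 1) (hρO : tsupport ρ ⊆ Oᶜ)
    {B : List (ℂ → ℝ)} (hB : Tests B) (hBO : Sup B Oᶜ) {u v f : ℂ → ℝ} (hu : Cc u)
    (huO : tsupport u ⊆ O) (hv : Cc v) (hvO : tsupport v ⊆ O) (hf : Cc f) {η : ℝ} (hη : 0 < η)
    (a : ℤ × ℤ) (hv1 : ∀ z ∈ Metric.closedBall (gp η a) (3 * η), v z = 1) :
    S (lap u :: piece η f ρ a :: B) - S (lap v :: piece η (fun z => u z * f z) ρ a :: B) =
      S (lap (fun z => (u z - u (gp η a)) * cut η (gp η a) z) :: piece η f ρ a :: B) -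
      S (lap (cut η (gp η a)) :: piece η (fun z => (u z - u (gp η a)) * f z) ρ a :: B) := by
  have d : ContDiff ℝ (⊤ : ℕ∞) fun z => u z - u (gp η a) := hu.1.sub contDiff_const
  have cc := cut_cc hη (gp η a)
  have t1 := piece_test hη hf hρ h1 a
  have t2 := piece_test hη (hf.mul hu.1) hρ h1 a
  have t3 := piece_test hη (hf.mul d) hρ h1 a
  have e1 : (fun z => cut η (gp η a) z * u z) = fun z =>
      1 * ((u z - u (gp η a)) * cut η (gp η a) z) + u (gp η a) * cut η (gp η a) z := by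
    funext z
    ring
  have e2 : (fun z => cut η (gp η a) z * v z) = cut η (gp η a) := by
    funext z
    by_cases k : cut η (gp η a) z = 0
    · rw [k, zero_mul]
    · rw [hv1 z (cut_supp hη _ (subset_tsupport _ k)), mul_one]
  have e3 : piece η (fun z => u z * f z) ρ a = fun z =>
      1 * piece η (fun z => (u z - u (gp η a)) * f z) ρ a z + u (gp η a) * piece η f ρ a z := by
    refine Eq.trans ?_ (cz_lin (ρ := ρ) ((hf.mul d).mul (pu_smooth η a))
      (hf.mul (pu_smooth η a)) 1 (u (gp η a)))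
    change cz ρ (fun z => pu η a z * (u z * f z)) = _
    congr 1
    funext z
    ring
  rw [loc_C2b h hL hB hBO hu huO t1 hη (supp_C2b hρO hη _ a),
    loc_C2b h hL hB hBO hv hvO t2 hη (supp_C2b hρO hη _ a), e1, e2, e3, lap_lin (cc.mul d) cc,
    h.lin _ _ _ _ _ (cc.mul d).test_lap cc.test_lap (List.forall_mem_cons.2 ⟨t1, hB⟩),
    h.lin2 _ _ cc.test_lap t3 t1 hB]
  ring

theorem bd_C2b {f : ℂ → ℝ} (hf : Cc f) :
    ∃ M : ℝ, 0 ≤ M ∧ ∀ z, |f z| ≤ M ∧ ‖fderiv ℝ f z‖ ≤ M := by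
  obtain ⟨A, hA⟩ := hf.2.exists_bound_of_continuous hf.1.continuous
  obtain ⟨D, hD⟩ := (hf.2.fderiv ℝ).exists_bound_of_continuous (hf.1.continuous_fderiv (by simp))
  exact ⟨max A D, le_max_of_le_right ((norm_nonneg _).trans (hD 0)),
    fun z => ⟨le_max_of_le_left (hA z), le_max_of_le_right (hD z)⟩⟩

theorem osc_C2b {u f : ℂ → ℝ} (hu : Cc u) (hf : Cc f) : ∃ M : ℝ, 0 ≤ M ∧
    ∀ η ∈ Set.Ioc (0 : ℝ) 1, ∀ p z : ℂ, ‖z - p‖ ≤ 2 * η → |(u z - u p) * f z| ≤ M * η ∧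
      η * ‖fderiv ℝ (fun z => (u z - u p) * f z) z‖ ≤ M * η := by
  obtain ⟨A, A0, hA⟩ := bd_C2b hu
  obtain ⟨D, D0, hD⟩ := bd_C2b hf
  refine ⟨3 * (A * D), by positivity, fun η hη p z hz => ?_⟩
  have η0 := hη.1
  have k1 : |u z - u p| ≤ A * (2 * η) :=
    (convex_univ.norm_image_sub_le_of_norm_fderiv_le (𝕜 := ℝ)
      (fun y _ => t1_diff hu.1 y) (fun y _ => (hA y).2) (Set.mem_univ p) (Set.mem_univ z)).trans
      (mul_le_mul_of_nonneg_left hz A0)
  have k2 := t4p_fd (hu.1.sub (contDiff_const (c := u p))) hf.1 z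
  rw [fderiv_sub_const] at k2
  have k3 := mul_le_mul k1 (hD z).2 (norm_nonneg _) (by positivity)
  have k4 := mul_le_mul (hD z).1 (hA z).2 (norm_nonneg _) D0
  have k5 := mul_le_mul k1 (hD z).1 (abs_nonneg _) (by positivity)
  have k6 : 0 ≤ A * D * η := by positivity
  have k7 : A * D * η ≤ A * D := mul_le_of_le_one_right (by positivity) hη.2
  refine ⟨?_, ?_⟩
  · rw [abs_mul]
    linarith
  · rw [mul_comm]
    exact mul_le_mul_of_nonneg_right (by linarith) η0.le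

theorem zero_C2b (h : Lim σ S) {B : List (ℂ → ℝ)} (hB : Tests B) {e f ρ : ℂ → ℝ} (he : Test e)
    {η : ℝ} {a : ℤ × ℤ} (h0 : ∀ z, pu η a z * f z = 0) : S (e :: piece η f ρ a :: B) = 0 := by
  have e1 : piece η f ρ a = fun _ => 0 := by
    funext z
    simp [piece, h0]
  rw [e1, h.perm _ _ (List.Perm.swap _ _ _)]
  exact h.zero1 (List.forall_mem_cons.2 ⟨he, hB⟩)

theorem piece_C2b (h : Lim σ S) (hL : Local S) {O Q : Set ℂ}
    {ρ : ℂ → ℝ} (hρ : Cc ρ) (h1 : ∫ z, ρ z = 1) (hρO : tsupport ρ ⊆ Oᶜ)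
    {B : List (ℂ → ℝ)} (hB : Tests B) (hBO : Sup B Oᶜ) {u v f : ℂ → ℝ} (hu : Cc u)
    (huO : tsupport u ⊆ O) (hv : Cc v) (hvO : tsupport v ⊆ O) (hv1 : ∀ z ∈ Q, v z = 1)
    (hf : Cc f) {R r : ℝ} (hR : tsupport f ⊆ Metric.closedBall 0 R)
    (hr : Metric.thickening r (tsupport f) ⊆ Q) : ∃ C : ℝ, 0 ≤ C ∧ ∀ η ∈ Set.Ioc (0 : ℝ) 1,
      6 * η ≤ r → ∀ a, |S (lap u :: piece η f ρ a :: B) -
        S (lap v :: piece η (fun z => u z * f z) ρ a :: B)| ≤ C * (η * η ^ (2 - 1 / 2 : ℝ)) := by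
  obtain ⟨C₀, n₀, k₀⟩ := h.bdd (B.length + 1)
  obtain ⟨C₁, n₁, k₁⟩ := osc_le hu.1 (R + 2)
  obtain ⟨C₂, n₂, k₂⟩ := piece_nn hρ h1 R (by norm_num : (0 : ℝ) < 1 / 2)
  obtain ⟨C₃, n₃, k₃⟩ := cut_le
  obtain ⟨M₁, m₁, l₁⟩ := bd_C2b hf
  obtain ⟨M₂, m₂, l₂⟩ := osc_C2b hu hf
  have nP : 0 ≤ (B.map nn).prod := List.prod_nonneg fun x hx => by
    obtain ⟨y, -, rfl⟩ := List.mem_map.1 hx
    exact nn_nonneg y
  refine ⟨C₀ * C₂ * (B.map nn).prod * (C₁ * M₁ + C₃ * M₂), by positivity, fun η hη h6 a => ?_⟩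
  have η0 := hη.1
  by_cases h0 : ∀ z, pu η a z * f z = 0
  · rw [zero_C2b h hB hu.test_lap h0, zero_C2b h hB hv.test_lap fun z => by
      rw [mul_left_comm, h0, mul_zero], sub_self, abs_zero]
    positivity
  obtain ⟨z, hz⟩ := not_forall.1 h0
  have z1 := mem_ball_iff_norm.1 (pu_supp' η0 a (subset_tsupport _ (left_ne_zero_of_mul hz)))
  have z2 := subset_tsupport _ (right_ne_zero_of_mul hz)
  have z3 := mem_closedBall_zero_iff.1 (hR z2)
  have z4 : ‖gp η a‖ ≤ R + 2 := by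
    have := norm_le_norm_add_norm_sub' (gp η a) z
    rw [norm_sub_rev] at this
    linarith [hη.2]
  have d : ContDiff ℝ (⊤ : ℕ∞) fun z => u z - u (gp η a) := hu.1.sub contDiff_const
  have cc := cut_cc η0 (gp η a)
  rw [one_C2b h hL hρ h1 hρO hB hBO hu huO hv hvO hf η0 a fun y hy => hv1 y (hr
    (Metric.mem_thickening_iff.2 ⟨z, z2, by
      have := dist_triangle_right y z (gp η a)
      rw [dist_eq_norm z] at this
      linarith [Metric.mem_closedBall.1 hy]⟩))]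
  have b1 := k₀ _ (_ :: B) (cc.mul d).test_lap
    (List.forall_mem_cons.2 ⟨piece_test η0 hf hρ h1 a, hB⟩) rfl
  have b2 := k₀ _ (_ :: B) cc.test_lap
    (List.forall_mem_cons.2 ⟨piece_test η0 (hf.mul d) hρ h1 a, hB⟩) rfl
  have b3 := k₂ η hη f hf hR a M₁ fun y _ => ⟨(l₁ y).1,
    (mul_le_of_le_one_left (norm_nonneg _) hη.2).trans (l₁ y).2⟩
  have b4 := k₂ η hη _ (hf.mul d) (tsupport_mul_subset_right.trans hR) a (M₂ * η) fun y hy =>
    l₂ η hη _ y (by linarith [mem_ball_iff_norm.1 (pu_supp' η0 a hy)])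
  rw [List.map_cons, List.prod_cons] at b1 b2
  have b5 := b1.trans (mul_le_mul (mul_le_mul_of_nonneg_left (k₁ η hη _ z4) n₀)
    (mul_le_mul_of_nonneg_right b3 nP) (mul_nonneg (nn_nonneg _) nP) (by positivity))
  have b6 := b2.trans (mul_le_mul (mul_le_mul_of_nonneg_left (k₃ η η0 _) n₀)
    (mul_le_mul_of_nonneg_right b4 nP) (mul_nonneg (nn_nonneg _) nP) (by positivity))
  exact (abs_sub _ _).trans ((add_le_add b5 b6).trans_eq (by ring))

/-- Take `R` with `tsupport f ⊆ closedBall 0 R`, `η ≤ 1` so small that the `6 η` neighbourhood of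
`tsupport f` lies in `Q`. `cz ρ f = ∑ a ∈ grid R η, piece η f ρ a` (`piece_sum`, `Lim.sum2`), the
same for `u f`. Fix `a`, `p = gp η a`. If `pu η a * f = 0` both pieces vanish. Otherwise
`closedBall p (3 η) ⊆ Q`; `Local` applied to `(1 - cut η p) u` and `(1 - cut η p) v` (their
supports miss `ball p (2 η) ⊇ tsupport (pu η a)`, and lie in `O`) replaces `u` by
`(u - u p) cut + u p cut` and `v` by `cut`. The difference of the two terms is
`S (lap ((u - u p) cut) :: piece η f ρ a :: B) - S (lap cut :: piece η ((u - u p) f) ρ a :: B)`,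
at most `C η ^ (3 - γ)` by `Lim.bdd`, `osc_le`, `cut_le`, `piece_nn` (`M = C` and `M = C η`,
`γ = 1 / 2`). Sum with `grid_card` and let `η → 0`. -/
theorem swap_mul (h : Lim σ S) (hL : Local S) {O Q : Set ℂ} (hQ : IsOpen Q) (hQO : Q ⊆ O)
    {ρ : ℂ → ℝ} (hρ : Cc ρ) (h1 : ∫ z, ρ z = 1) (hρO : tsupport ρ ⊆ Oᶜ)
    {B : List (ℂ → ℝ)} (hB : Tests B) (hBO : Sup B Oᶜ) {u v f : ℂ → ℝ} (hu : Cc u)
    (huO : tsupport u ⊆ O) (hv : Cc v) (hvO : tsupport v ⊆ O) (hv1 : ∀ z ∈ Q, v z = 1)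
    (hf : Cc f) (hfQ : tsupport f ⊆ Q) :
    S (lap u :: cz ρ f :: B) = S (lap v :: cz ρ (fun z => u z * f z) :: B) := by
  obtain ⟨R, R0, hR⟩ := hf.2.isCompact.isBounded.subset_closedBall_lt 0 (0 : ℂ)
  obtain ⟨r, r0, hr⟩ := hf.2.isCompact.exists_thickening_subset_open hQ hfQ
  obtain ⟨C, C0, hC⟩ := piece_C2b h hL hρ h1 hρO hB hBO hu huO hv hvO hv1 hf hR hr
  have cf := hf.mul hu.1
  have key : ∀ η ∈ Set.Ioc (0 : ℝ) 1, 6 * η ≤ r → |S (lap u :: cz ρ f :: B) -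
      S (lap v :: cz ρ (fun z => u z * f z) :: B)| ≤ (2 * R + 5) ^ 2 * C * √η := fun η hη h6 => by
    have η0 := hη.1
    have e1 : cz ρ f = fun z => ∑ a ∈ grid R η, piece η f ρ a z :=
      funext fun z => (piece_sum η0 hf hR z).symm
    have e2 : cz ρ (fun z => u z * f z) =
        fun z => ∑ a ∈ grid R η, piece η (fun z => u z * f z) ρ a z :=
      funext fun z => (piece_sum η0 cf (tsupport_mul_subset_right.trans hR) z).symm
    rw [e1, e2, h.sum2 _ hu.test_lap (fun a _ => piece_test η0 hf hρ h1 a) hB,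
      h.sum2 _ hv.test_lap (fun a _ => piece_test η0 cf hρ h1 a) hB, ← Finset.sum_sub_distrib]
    refine (Finset.abs_sum_le_sum_abs _ _).trans
      ((Finset.sum_le_card_nsmul _ _ _ fun a _ => hC η hη h6 a).trans ?_)
    have e3 : η ^ (2 - 1 / 2 : ℝ) = η * √η := by
      rw [show (2 - 1 / 2 : ℝ) = 1 + 1 / 2 by norm_num, Real.rpow_add η0, Real.rpow_one,
        Real.sqrt_eq_rpow]
    have e4 : (2 * R / η + 5) * η ≤ 2 * R + 5 := by
      rw [add_mul, div_mul_cancel₀ _ η0.ne']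
      linarith [hη.2]
    rw [nsmul_eq_mul, e3]
    calc _ ≤ (2 * R / η + 5) ^ 2 * (C * (η * (η * √η))) :=
          mul_le_mul_of_nonneg_right (grid_card η0 R0.le) (by positivity)
      _ = ((2 * R / η + 5) * η) ^ 2 * C * √η := by ring
      _ ≤ _ := by gcongr
  have t : Tendsto (fun η : ℝ => (2 * R + 5) ^ 2 * C * √η) (𝓝[>] 0) (𝓝 0) := by
    have := (Real.continuous_sqrt.tendsto 0).const_mul ((2 * R + 5) ^ 2 * C)
    rw [Real.sqrt_zero, mul_zero] at this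
    exact this.mono_left nhdsWithin_le_nhds
  refine sub_eq_zero.1 (abs_nonpos_iff.1 (ge_of_tendsto t ?_))
  filter_upwards [Ioc_mem_nhdsGT (lt_min one_pos (by positivity : 0 < r / 6))] with η hη
  exact key η ⟨hη.1, hη.2.trans (min_le_left _ _)⟩ (by linarith [hη.2.trans (min_le_right _ _)])

end Vale.Agent.P153
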