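import Vale.Agent.P153.C2a

/-! Telescoping and perturbation of lists. -/

open MeasureTheory Filter Topology

noncomputable section

namespace Vale.Agent.P153

variable {σ : ℝ} {S : List (ℂ → ℝ) → ℝ}

theorem prod_C2e {K : ℝ} (hK : 0 ≤ K) (l : List (ℂ → ℝ)) (hl : ∀ x ∈ l, nn x ≤ K) :
    0 ≤ (l.map nn).prod ∧ (l.map nn).prod ≤ K ^ l.length := by
  induction l with
  | nil => simp
  | cons x l ih =>
    obtain ⟨h0, h1⟩ := ih fun y hy => hl y (List.mem_cons_of_mem _ hy)
    rw [List.map_cons, List.prod_cons, List.length_cons, pow_succ']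
    exact ⟨mul_nonneg (nn_nonneg x) h0, mul_le_mul (hl x List.mem_cons_self) h1 h0 hK⟩

theorem step_C2e (h : Lim σ S) {n : ℕ} {C K q : ℝ} (hC : 0 ≤ C) (hK : 1 ≤ K) (hq : 0 ≤ q)
    (hb : ∀ f l, Test f → Tests l → l.length = n + 1 →
      |S (f :: l)| ≤ C * √(cov f f) * (l.map nn).prod)
    {g e x y : ℂ → ℝ} (hg : Test g) (he : Test e) (hx : Test x) (hy : Test y)
    (hxy : nn (fun z => x z - y z) ≤ q) {R : List (ℂ → ℝ)} (hR : ∀ f ∈ R, Test f ∧ nn f ≤ K)
    (hn : R.length + 1 = n) :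
    |S (g :: x :: e :: R) - S (g :: y :: e :: R)| ≤ C * √(cov g g) * nn e * q * K ^ n := by
  have hT : Tests (e :: R) := fun f hf => by
    rcases List.mem_cons.1 hf with rfl | hf
    · exact he
    · exact (hR f hf).1
  have h1 := h.lin2 1 (-1) hg hx hy hT
  have e1 : (fun z => 1 * x z + -1 * y z) = fun z => x z - y z := funext fun z => by ring
  rw [e1] at h1
  have h2 := hb g ((fun z => x z - y z) :: e :: R) hg (fun f hf => by
    rcases List.mem_cons.1 hf with rfl | hf
    · exact hx.sub hy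
    · exact hT f hf) (by rw [List.length_cons, List.length_cons, hn])
  obtain ⟨p0, p1⟩ := prod_C2e (zero_le_one.trans hK) R fun f hf => (hR f hf).2
  have p2 : (R.map nn).prod ≤ K ^ n := p1.trans (pow_le_pow_right₀ hK (by omega))
  rw [List.map_cons, List.map_cons, List.prod_cons, List.prod_cons, h1] at h2
  have e2 : S (g :: x :: e :: R) - S (g :: y :: e :: R) =
      1 * S (g :: x :: e :: R) + -1 * S (g :: y :: e :: R) := by ring
  rw [e2]
  refine h2.trans ?_
  have p3 : nn (fun z => x z - y z) * (nn e * (R.map nn).prod) ≤ q * (nn e * K ^ n) :=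
    mul_le_mul hxy (mul_le_mul_of_nonneg_left p2 (nn_nonneg e)) (mul_nonneg (nn_nonneg e) p0) hq
  refine (mul_le_mul_of_nonneg_left p3 (mul_nonneg hC (Real.sqrt_nonneg _))).trans_eq ?_
  ring

theorem ind_C2e (h : Lim σ S) {n : ℕ} {C K K' q : ℝ} (hC : 0 ≤ C) (hK : 1 ≤ K') (hK' : K ≤ K')
    (hq : 0 ≤ q) (hb : ∀ f l, Test f → Tests l → l.length = n + 1 →
      |S (f :: l)| ≤ C * √(cov f f) * (l.map nn).prod)
    {g e : ℂ → ℝ} (hg : Test g) (he : Test e) {L L' : List (ℂ → ℝ)}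
    (hF : List.Forall₂ (fun x y => Test x ∧ Test y ∧ nn x ≤ K ∧ nn y ≤ K ∧
      nn (fun z => x z - y z) ≤ q) L L') :
    (∀ f ∈ L, Test f ∧ nn f ≤ K') ∧ ∀ E : List (ℂ → ℝ), (∀ f ∈ E, Test f ∧ nn f ≤ K') →
      E.length + L.length = n → |S (g :: e :: (E ++ L)) - S (g :: e :: (E ++ L'))| ≤
        L.length * (C * √(cov g g) * nn e * q * K' ^ n) := by
  induction hF with
  | nil => simp
  | @cons x y L L' hxy _ ih =>
    obtain ⟨hx, hy, nx, ny, hd⟩ := hxy
    refine ⟨fun f hf => ?_, fun E hE hn => ?_⟩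
    · rcases List.mem_cons.1 hf with rfl | hf
      · exact ⟨hx, nx.trans hK'⟩
      · exact ih.1 f hf
    rw [List.length_cons] at hn
    have h1 := step_C2e h hC hK hq hb hg he hx hy hd (R := E ++ L)
      (fun f hf => (List.mem_append.1 hf).elim (hE f) (ih.1 f)) (by rw [List.length_append]; omega)
    have h2 := ih.2 (y :: E) (fun f hf => by
      rcases List.mem_cons.1 hf with rfl | hf
      · exact ⟨hy, ny.trans hK'⟩
      · exact hE f hf) (by rw [List.length_cons]; omega)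
    have e1 : S (g :: e :: (E ++ x :: L)) = S (g :: x :: e :: (E ++ L)) :=
      h.perm _ _ (((List.perm_middle.cons e).trans (List.Perm.swap x e _)).cons g)
    have e2 : S (g :: e :: (E ++ y :: L')) = S (g :: e :: (y :: E ++ L')) :=
      h.perm _ _ ((List.perm_middle.cons e).cons g)
    have e3 : S (g :: e :: (y :: E ++ L)) = S (g :: y :: e :: (E ++ L)) :=
      h.perm _ _ ((List.Perm.swap y e _).cons g)
    rw [e3] at h2
    rw [e1, e2, List.length_cons]
    refine (abs_sub_le _ (S (g :: y :: e :: (E ++ L))) _).trans ((add_le_add h1 h2).trans_eq ?_)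
    push_cast
    ring

/-- Induction on the two lists, generalised over an extra list `E` of test functions with
`nn ≤ K` (the entries already treated; fix the total length `n`); each step is `Lim.perm`,
`Lim.lin2`-style linearity and `Lim.bdd`. -/
theorem Lim.pert2 (h : Lim σ S) (n : ℕ) (K : ℝ) : ∃ C : ℝ, 0 ≤ C ∧
    ∀ (g e : ℂ → ℝ) (L L' : List (ℂ → ℝ)) (q : ℝ), Test g → Test e → L.length = n → 0 ≤ q →
      List.Forall₂ (fun x y => Test x ∧ Test y ∧ nn x ≤ K ∧ nn y ≤ K ∧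
        nn (fun z => x z - y z) ≤ q) L L' →
      |S (g :: e :: L) - S (g :: e :: L')| ≤ C * √(cov g g) * nn e * q := by
  obtain ⟨C, hC, hb⟩ := h.bdd (n + 1)
  have h1 : (1 : ℝ) ≤ max K 1 := le_max_right _ _
  refine ⟨n * C * max K 1 ^ n, by positivity, fun g e L L' q hg he hn hq hF => ?_⟩
  have h2 := (ind_C2e h hC h1 (le_max_left _ _) hq hb hg he hF).2 [] (by simp) (by simpa using hn)
  rw [List.nil_append, List.nil_append, hn] at h2
  exact h2.trans_eq (by ring)

/-- From `Lim.pert2` (`List.forall₂_map_left_iff`, `List.forall₂_map_right_iff`,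
`List.forall₂_same`). -/
theorem Lim.pert (h : Lim σ S) (n : ℕ) (K : ℝ) : ∃ C : ℝ, 0 ≤ C ∧
    ∀ (g e : ℂ → ℝ) (B : List (ℂ → ℝ)) (o s : (ℂ → ℝ) → ℂ → ℝ) (q : ℝ), Test g → Test e →
      B.length = n → 0 ≤ q →
      (∀ f ∈ B, Test (o f) ∧ Test (s f) ∧ nn (o f) ≤ K ∧ nn (s f) ≤ K ∧
        nn (fun z => o f z - s f z) ≤ q) →
      |S (g :: e :: B.map o) - S (g :: e :: B.map s)| ≤ C * √(cov g g) * nn e * q := by
  obtain ⟨C, hC, hb⟩ := h.pert2 n K
  refine ⟨C, hC, fun g e B o s q hg he hn hq hB => hb g e _ _ q hg he (by simpa using hn) hq ?_⟩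
  rw [List.forall₂_map_left_iff, List.forall₂_map_right_iff, List.forall₂_same]
  exact hB

end Vale.Agent.P153
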