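import Vale.Agent.P153.T6
import Vale.Agent.P153.T4P

/-! Reference bumps and the energy of a cell. -/

open MeasureTheory Filter Topology

noncomputable section

namespace Vale.Agent.P153

variable {σ : ℝ} {S : List (ℂ → ℝ) → ℝ}

theorem dd_C2f (v : ℂ → ℝ) (c η : ℝ) (p e : ℂ) :
    dd e (fun z => c * v ((z - p) / η)) = fun z => c * η⁻¹ * dd e v ((z - p) / η) := by
  have e1 : ∀ w : ℂ, (w - p) / η = η⁻¹ • (w - p) := fun w => by
    rw [Complex.real_smul, div_eq_inv_mul, Complex.ofReal_inv]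
  funext z
  have h1 : fderiv ℝ (fun w => v (η⁻¹ • (w - p))) z = η⁻¹ • fderiv ℝ v (η⁻¹ • (z - p)) :=
    (fderiv_comp_sub (𝕜 := ℝ) (f := fun w => v (η⁻¹ • w)) p).trans (fderiv_comp_smul η⁻¹)
  have h2 := fderiv_const_smul_field (𝕜 := ℝ) (f := fun w => v (η⁻¹ • (w - p))) c
  simp only [dd, e1]
  refine (congrArg (fun L : ℂ → ℂ →L[ℝ] ℝ => L z e) h2).trans ?_
  simp only [Pi.smul_apply, h1, smul_apply, smul_eq_mul, mul_assoc]

theorem int_C2f (F : ℂ → ℝ) {η : ℝ} (hη : 0 < η) (p : ℂ) :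
    ∫ z : ℂ, η⁻¹ * η⁻¹ * F ((z - p) / η) = ∫ z, F z := by
  have e : ∀ z : ℂ, (z - p) / η = η⁻¹ • (z - p) := fun z => by
    rw [Complex.real_smul, div_eq_inv_mul, Complex.ofReal_inv]
  simp only [e]
  rw [integral_const_mul, integral_sub_right_eq_self (fun z : ℂ => F (η⁻¹ • z)) p,
    Measure.integral_comp_inv_smul_of_nonneg volume _ hη.le, Complex.finrank_real_complex,
    smul_eq_mul]
  field_simp

/-- `w z = v ((z - p) / η)` with `v` from `exists_unit`: `lap w z = η⁻¹ ^ 2 lap v ((z - p) / η)`;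
`cov_lap` and the change of variables (`Measure.integral_comp_smul`, `integral_sub_right_eq_self`). -/
theorem ref_scale : ∃ C : ℝ, 0 ≤ C ∧ ∀ η : ℝ, 0 < η → ∀ p : ℂ, ∃ w, Cc w ∧
    tsupport w ⊆ Metric.closedBall p η ∧ cov (lap w) (lap w) = 1 ∧ nn (lap w) ≤ C := by
  obtain ⟨v, hv, h1, hs⟩ := exists_unit
  refine ⟨nn (lap v), nn_nonneg _, fun η hη p => ?_⟩
  have k1 : tsupport (fun z => 1 * v ((z - p) / η)) ⊆ Metric.closedBall p η := by
    have h := t4_supp (g := fun w => 1 * v w) (ρ := 1) (fun w hw => mem_closedBall_zero_iff.1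
      (hs (subset_tsupport _ (right_ne_zero_of_mul hw)))) hη p
    rwa [one_mul η] at h
  have k2 : Cc fun z => 1 * v ((z - p) / η) := ⟨contDiff_const.mul (hv.1.comp (t4_aff η p)),
    (isCompact_closedBall p η).of_isClosed_subset (isClosed_tsupport _) k1⟩
  have k3 : lap (fun z => 1 * v ((z - p) / η)) = fun z => η⁻¹ * η⁻¹ * lap v ((z - p) / η) := by
    rw [lap_eq k2.1, lap_eq hv.1, dd_C2f, dd_C2f, dd_C2f, dd_C2f]
    funext z
    ring
  have k4 : cov (lap fun z => 1 * v ((z - p) / η)) (lap fun z => 1 * v ((z - p) / η)) = 1 := by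
    refine Eq.trans ?_ h1
    rw [cov_lap k2 k2.test_lap, k3, cov_lap hv hv.test_lap,
      ← int_C2f (fun z => v z * lap v z) hη p]
    congr 2
    funext z
    ring
  refine ⟨_, k2, k1, k4, le_of_eq ?_⟩
  unfold nn
  rw [k4, h1, k3, ← int_C2f (fun z => |lap v z|) hη p]
  congr 2
  funext z
  rw [abs_mul, abs_of_nonneg (by positivity : 0 ≤ η⁻¹ * η⁻¹)]

/-- `cov_lap_le`, `pu_deriv`, `pu_supp'`: the gradient is at most `C / η` on a set of area at most
`π (3 η / 2) ^ 2`. -/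
theorem cell_energy {u : ℂ → ℝ} (hu : Cc u) : ∃ C : ℝ, 0 ≤ C ∧ ∀ η ∈ Set.Ioc (0 : ℝ) 1,
    ∀ a : ℤ × ℤ, √(cov (lap fun z => pu η a z * u z) (lap fun z => pu η a z * u z)) ≤ C := by
  obtain ⟨Cp, hC, hp⟩ := pu_deriv
  obtain ⟨B, hB⟩ := (hu.1.continuous_fderiv (by simp)).bounded_above_of_compact_support
    (hu.2.fderiv ℝ)
  obtain ⟨M, hM⟩ := hu.1.continuous.bounded_above_of_compact_support hu.2
  have B0 : 0 ≤ B := (norm_nonneg _).trans (hB 0)
  have M0 : 0 ≤ M := (norm_nonneg _).trans (hM 0)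
  refine ⟨9 / 2 * (B + M * Cp), by positivity, fun η hη a => ?_⟩
  have η0 := hη.1
  refine (t4p_en (hu.mul (pu_smooth η a)) (p := gp η a) (r := 3 / 2 * η)
    (B := (B + M * Cp) / η) (by positivity) (tsupport_mul_subset_left.trans
      ((pu_supp' η0 a).trans Metric.ball_subset_closedBall)) fun z _ => ?_).trans_eq
    (by field_simp; ring)
  refine (t4p_fd (pu_smooth η a) hu.1 z).trans ?_
  rw [add_div, mul_div_assoc, abs_of_nonneg (pu_nonneg η a z)]
  refine add_le_add ?_ (mul_le_mul (hM z) (hp η η0 a z) (norm_nonneg _) M0)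
  exact (mul_le_of_le_one_left (norm_nonneg _) (pu_le_one η a z)).trans
    ((hB z).trans (le_div_self B0 η0 hη.2))

/-- The mass of a cell. -/
theorem cell_mass {g : ℂ → ℝ} (hg : Cc g) : ∃ C : ℝ, 0 ≤ C ∧ ∀ η : ℝ, 0 < η →
    ∀ a : ℤ × ℤ, |∫ z, pu η a z * g z| ≤ C * η ^ 2 := by
  obtain ⟨M, hM⟩ := hg.1.continuous.bounded_above_of_compact_support hg.2
  have M0 : 0 ≤ M := (norm_nonneg _).trans (hM 0)
  refine ⟨9 * M, by positivity, fun η hη a => abs_integral_le_integral_abs.trans (t4p_loc hη a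
    (fun z hz => by rw [image_eq_zero_of_notMem_tsupport hz, zero_mul, abs_zero])
    fun z _ => ?_)⟩
  rw [abs_abs, abs_mul, abs_of_nonneg (pu_nonneg η a z)]
  exact (mul_le_of_le_one_left (abs_nonneg _) (pu_le_one η a z)).trans (hM z)

end Vale.Agent.P153
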