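import Vale.Agent.P153.C2g

/-! Removing a cell or a column from a test function. -/

open MeasureTheory Filter Topology

noncomputable section

namespace Vale.Agent.P153

variable {σ : ℝ} {S : List (ℂ → ℝ) → ℝ}

variable {R : ℝ} {ρ f : ℂ → ℝ}

theorem nn_sub_C2n {g : ℂ → ℝ} (hf : Test f) (hg : Test g) :
    nn (fun z => f z - g z) ≤ nn f + nn g := by
  simpa [sub_eq_add_neg] using nn_lin hf hg 1 (-1)

theorem nn_sum_C2n {ι : Type} (s : Finset ι) {F : ι → ℂ → ℝ} (hF : ∀ i, Test (F i)) {B : ℝ}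
    (hB : ∀ i, nn (F i) ≤ B) : nn (fun z => ∑ i ∈ s, F i z) ≤ s.card * B := by
  classical
  induction s using Finset.induction_on with
  | empty => simpa using nn_lin test_zero test_zero 0 0
  | insert i s hi ih =>
    have h := nn_lin (hF i) (Test.sum s fun j _ => hF j) 1 1
    simp only [one_mul, abs_one] at h
    simp only [Finset.sum_insert hi, Finset.card_insert_of_notMem hi, Nat.cast_add, Nat.cast_one]
    linarith [hB i]

theorem near_card_C2n (R η : ℝ) (a : ℤ × ℤ) : ((near R η a).card : ℝ) ≤ 25 := by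
  have h1 : near R η a ⊆ Finset.Icc (a.1 - 2) (a.1 + 2) ×ˢ Finset.Icc (a.2 - 2) (a.2 + 2) := by
    intro b hb
    obtain ⟨-, h2, h3⟩ := Finset.mem_filter.1 hb
    have h4 := abs_le.1 h2
    have h5 := abs_le.1 h3
    simp only [Finset.mem_product, Finset.mem_Icc]
    omega
  have h2 := Finset.card_le_card h1
  have h3 : ∀ i : ℤ, (Finset.Icc (i - 2) (i + 2)).card = 5 := fun i => by
    rw [Int.card_Icc, show i + 2 + 1 - (i - 2) = 5 by ring]
    rfl
  rw [Finset.card_product, h3, h3] at h2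
  exact_mod_cast h2

/-- `piece_nn` with `γ = 1 / 4`, `nn_lin` (triangle inequality over the sums), at most `25` near
points, `grid_col`, `near ⊆ col`. -/
theorem out_nn (hρ : Cc ρ) (h1 : ∫ z, ρ z = 1) (hf : Test f) (hR0 : 0 ≤ R)
    (hR : tsupport f ⊆ Metric.closedBall 0 R) : ∃ C : ℝ, 0 ≤ C ∧ ∀ η ∈ Set.Ioc (0 : ℝ) 1,
      ∀ a : ℤ × ℤ, nn f ≤ C ∧ nn (outc R η ρ a f) ≤ C ∧ nn (outs R η ρ a f) ≤ C ∧
        nn (fun z => f z - outc R η ρ a f z) ≤ C * η ^ (7 / 4 : ℝ) ∧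
        nn (fun z => f z - outs R η ρ a f z) ≤ C * η ^ (3 / 4 : ℝ) ∧
        nn (fun z => outc R η ρ a f z - outs R η ρ a f z) ≤ C * η ^ (3 / 4 : ℝ) := by
  obtain ⟨C, hC, H⟩ := piece_nn hρ h1 R (γ := 1 / 4) (by norm_num)
  obtain ⟨M₁, hM₁⟩ := hf.1.continuous.bounded_above_of_compact_support hf.2.1
  obtain ⟨M₂, hM₂⟩ := (hf.1.continuous_fderiv (by simp)).bounded_above_of_compact_support
    (hf.2.1.fderiv ℝ)
  have hM : 0 ≤ max M₁ M₂ := le_max_of_le_left ((norm_nonneg _).trans (hM₁ 0))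
  have hK : 0 ≤ C * max M₁ M₂ := mul_nonneg hC hM
  have hn := nn_nonneg f
  have hD : 0 ≤ 11 * (2 * R + 5) * (C * max M₁ M₂) := by positivity
  refine ⟨nn f + 25 * (C * max M₁ M₂) + 11 * (2 * R + 5) * (C * max M₁ M₂), by positivity,
    fun η hη a => ?_⟩
  have ht := piece_test hη.1 hf.cc hρ h1
  have hp : ∀ b, nn (piece η f ρ b) ≤ C * max M₁ M₂ * η ^ (7 / 4 : ℝ) := fun b => by
    have h := H η hη f hf.cc hR b (max M₁ M₂) fun z _ => ⟨le_max_of_le_left (hM₁ z),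
      le_max_of_le_right ((mul_le_of_le_one_left (norm_nonneg _) hη.2).trans (hM₂ z))⟩
    rwa [show (2 : ℝ) - 1 / 4 = 7 / 4 by norm_num] at h
  generalize C * max M₁ M₂ = K at hK hD hp ⊢
  have e1 : η ^ (7 / 4 : ℝ) = η * η ^ (3 / 4 : ℝ) := by
    rw [show (7 / 4 : ℝ) = 1 + 3 / 4 by norm_num, Real.rpow_add hη.1, Real.rpow_one]
  have p3 : 0 ≤ η ^ (3 / 4 : ℝ) := Real.rpow_nonneg hη.1.le _
  have p7 : 0 ≤ η ^ (7 / 4 : ℝ) := Real.rpow_nonneg hη.1.le _
  have l3 : η ^ (3 / 4 : ℝ) ≤ 1 := Real.rpow_le_one hη.1.le hη.2 (by norm_num)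
  have l7 : η ^ (7 / 4 : ℝ) ≤ η ^ (3 / 4 : ℝ) := e1 ▸ mul_le_of_le_one_left p3 hη.2
  have a1 : nn (fun z => ∑ b ∈ near R η a, piece η f ρ b z) ≤ 25 * K * η ^ (7 / 4 : ℝ) :=
    (nn_sum_C2n _ ht hp).trans ((mul_le_mul_of_nonneg_right (near_card_C2n R η a)
      (mul_nonneg hK p7)).trans_eq (mul_assoc _ _ _).symm)
  have a2 : nn (fun z => ∑ b ∈ col R η a, piece η f ρ b z) ≤
      11 * (2 * R + 5) * K * η ^ (3 / 4 : ℝ) := by
    have h2 : ((col R η a).card : ℝ) ≤ (2 * (5 : ℕ) + 1) * (2 * R / η + 5) :=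
      grid_col hη.1 hR0 a.1 5
    have h3 : ((col R η a).card : ℝ) * η ≤ 11 * (2 * R + 5) := by
      have h4 := mul_le_mul_of_nonneg_right h2 hη.1.le
      rw [mul_assoc, add_mul (2 * R / η), div_mul_cancel₀ _ hη.1.ne'] at h4
      push_cast at h4
      linarith [hη.2]
    refine (nn_sum_C2n _ ht hp).trans ?_
    rw [e1]
    have h5 := mul_le_mul_of_nonneg_right h3 (mul_nonneg hK p3)
    linarith
  have t1 := Test.sum (near R η a) fun b _ => ht b
  have t2 := Test.sum (col R η a) fun b _ => ht b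
  have b1 := mul_le_mul_of_nonneg_left l7 hK
  have b2 := mul_le_of_le_one_right hK l3
  have b3 := mul_le_of_le_one_right hD l3
  have b4 := mul_nonneg hn p3
  have b5 := mul_nonneg hn p7
  have b6 := mul_nonneg hD p7
  have b7 := mul_nonneg hK p3
  have c1 : nn (outc R η ρ a f) ≤ _ := nn_sub_C2n hf t1
  have c2 : nn (outs R η ρ a f) ≤ _ := nn_sub_C2n hf t2
  have c3 := nn_sub_C2n t2 t1
  simp only [outc, outs, sub_sub_cancel, sub_sub_sub_cancel_left]
  refine ⟨by linarith, by linarith, by linarith, by linarith, by linarith, by linarith⟩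

end Vale.Agent.P153
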