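import Vale.Agent.P153.C2e

/-! Telescoping and perturbation of lists. -/

open MeasureTheory Filter Topology

noncomputable section

namespace Vale.Agent.P153

variable {σ : ℝ} {S : List (ℂ → ℝ) → ℝ}

theorem step_C2t (h : Lim σ S) {g a b : ℂ → ℝ} {P D : List (ℂ → ℝ)} (hg : Test g) (ha : Test a)
    (hb : Test b) (hL : Tests (P ++ D)) :
    S (g :: (P ++ a :: D)) - S (g :: (P ++ b :: D)) =
      S (g :: (fun z => a z - b z) :: (P ++ D)) := by
  have e : ∀ c, S (g :: (P ++ c :: D)) = S (c :: g :: (P ++ D)) := fun c =>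
    h.perm _ _ ((List.perm_middle.cons g).trans (List.Perm.swap _ _ _))
  have e2 := h.lin 1 (-1) a b (g :: (P ++ D)) ha hb (List.forall_mem_cons.2 ⟨hg, hL⟩)
  simp only [one_mul, neg_mul, ← sub_eq_add_neg] at e2
  rw [e, e, ← e2]
  exact h.perm _ _ (List.Perm.swap _ _ _)

/-- Telescoping: `S (g :: A) - S (g :: A.map o)` is the sum over `j` of the terms with
`A j - o (A j)` at place `j`, `o` applied before and nothing after; in each term replace the other
entries by their `s` version with `Lim.pert2`, at cost `C √(cov g g) p q`. The `j`-th term is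
`S (g :: (A j - o (A j)) :: ((A.take j).map o ++ A.drop (j + 1)))`; `List.eraseIdx_eq_take_drop_succ`;
the identity is `Finset.sum_range_sub'` for `j ↦ S (g :: ((A.take j).map o ++ A.drop j))`. -/
theorem Lim.tele (h : Lim σ S) (n : ℕ) (K : ℝ) : ∃ C : ℝ, 0 ≤ C ∧
    ∀ (g : ℂ → ℝ) (A : List (ℂ → ℝ)) (o s : (ℂ → ℝ) → ℂ → ℝ) (p q : ℝ), Test g →
      A.length = n → 0 ≤ p → 0 ≤ q →
      (∀ f ∈ A, Test f ∧ Test (o f) ∧ Test (s f) ∧ nn f ≤ K ∧ nn (o f) ≤ K ∧ nn (s f) ≤ K ∧
        nn (fun z => f z - o f z) ≤ p ∧ nn (fun z => f z - s f z) ≤ q ∧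
        nn (fun z => o f z - s f z) ≤ q) →
      |S (g :: A) - S (g :: A.map o) - ∑ j : Fin A.length,
        S (g :: (fun z => A.get j z - o (A.get j) z) :: (A.eraseIdx j).map s)| ≤
        C * √(cov g g) * p * q := by
  obtain ⟨C, hC, H⟩ := h.pert2 (n - 1) K
  refine ⟨n * C, by positivity, fun g A o s p q hg hn hp hq hA => ?_⟩
  have e := Finset.sum_range_sub' (fun j => S (g :: ((A.take j).map o ++ A.drop j))) A.length
  simp only [List.take_zero, List.map_nil, List.nil_append, List.drop_zero, List.take_length,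
    List.drop_length, List.append_nil] at e
  rw [← e, ← Fin.sum_univ_eq_sum_range (fun j => S (g :: ((A.take j).map o ++ A.drop j)) -
    S (g :: ((A.take (j + 1)).map o ++ A.drop (j + 1)))), ← Finset.sum_sub_distrib]
  refine (Finset.abs_sum_le_sum_abs _ _).trans ((Finset.sum_le_card_nsmul _ _
    (C * √(cov g g) * p * q) fun j _ => ?_).trans_eq (by simp [hn]; ring))
  have m := hA _ (List.get_mem A j)
  have r : List.Forall₂ (fun x y => Test x ∧ Test y ∧ nn x ≤ K ∧ nn y ≤ K ∧
      nn (fun z => x z - y z) ≤ q) ((A.take j).map o ++ A.drop (j + 1)) ((A.eraseIdx j).map s) := by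
    rw [List.eraseIdx_eq_take_drop_succ, List.map_append]
    refine List.rel_append ?_ ?_
    · rw [List.forall₂_map_left_iff, List.forall₂_map_right_iff, List.forall₂_same]
      intro f hf
      obtain ⟨-, a2, a3, -, a5, a6, -, -, a9⟩ := hA f (List.mem_of_mem_take hf)
      exact ⟨a2, a3, a5, a6, a9⟩
    · rw [List.forall₂_map_right_iff, List.forall₂_same]
      intro f hf
      obtain ⟨a1, -, a3, a4, -, a6, -, a8, -⟩ := hA f (List.mem_of_mem_drop hf)
      exact ⟨a1, a3, a4, a6, a8⟩
  have t : Tests ((A.take j).map o ++ A.drop (j + 1)) := fun f hf => by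
    rcases List.mem_append.1 hf with hf | hf
    · obtain ⟨f', hf', rfl⟩ := List.mem_map.1 hf
      exact (hA f' (List.mem_of_mem_take hf')).2.1
    · exact (hA f (List.mem_of_mem_drop hf)).1
  have e1 : (A.take j).map o ++ A.drop j = (A.take j).map o ++ A.get j :: A.drop (j + 1) := by
    rw [List.drop_eq_getElem_cons j.2]
    rfl
  have e2 : (A.take (j + 1)).map o ++ A.drop (j + 1) =
      (A.take j).map o ++ o (A.get j) :: A.drop (j + 1) := by
    rw [List.take_succ_eq_append_getElem j.2, List.map_append, List.append_assoc]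
    rfl
  rw [e1, e2, step_C2t h hg m.1 m.2.1 t]
  refine (H g _ _ _ q hg (m.1.sub m.2.1) ?_ hq r).trans ?_
  · rw [r.length_eq, List.length_map, List.length_eraseIdx_of_lt j.2, hn]
  · exact mul_le_mul_of_nonneg_right (mul_le_mul_of_nonneg_left m.2.2.2.2.2.2.1
      (by positivity)) hq

end Vale.Agent.P153
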