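import Mathlib

/-! Weak limits and uniform integrability, along any filter. -/

open MeasureTheory Filter Topology Set

noncomputable section

namespace Vale.Agent.P153

variable {E ι : Type} [MeasurableSpace E] [NormedAddCommGroup E] [BorelSpace E]

/-- The truncation at level `R`. -/
def d1a_tr {g : E → ℝ} (hg : Continuous g) {R : ℝ} (hR : 0 ≤ R) : BoundedContinuousFunction E ℝ :=
  BoundedContinuousFunction.ofNormedAddCommGroup (fun x => max (-R) (min (g x) R))
    (continuous_const.max (hg.min continuous_const)) R fun x =>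
      abs_le.2 ⟨le_max_left _ _, max_le (by linarith) (min_le_right _ _)⟩

theorem d1a_int {g : E → ℝ} (hg : Continuous g) {R : ℝ} (hR : 0 ≤ R) (ρ : ProbabilityMeasure E) :
    Integrable (fun x => max (-R) (min (g x) R)) (ρ : Measure E) :=
  (d1a_tr hg hR).integrable _

theorem d1a_lim {l : Filter ι} {ν : ι → ProbabilityMeasure E} {μ : ProbabilityMeasure E}
    (h : Tendsto ν l (𝓝 μ)) {g : E → ℝ} (hg : Continuous g) {R : ℝ} (hR : 0 ≤ R) :
    Tendsto (fun i => ∫ x, max (-R) (min (g x) R) ∂(ν i : Measure E)) l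
      (𝓝 (∫ x, max (-R) (min (g x) R) ∂(μ : Measure E))) :=
  ProbabilityMeasure.tendsto_iff_forall_integral_tendsto.1 h (d1a_tr hg hR)

theorem d1a_pt (y : ℝ) {R : ℝ} (hR : 0 < R) : |y - max (-R) (min y R)| ≤ y ^ 2 / R := by
  rw [le_div_iff₀ hR]
  rcases le_total y R with h1 | h1
  · rw [min_eq_left h1]
    rcases le_total (-R) y with h2 | h2
    · rw [max_eq_right h2, sub_self, abs_zero, zero_mul]
      positivity
    · rw [max_eq_left h2, abs_of_nonpos (by linarith)]
      nlinarith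
  · rw [min_eq_right h1, max_eq_right (by linarith), abs_of_nonneg (by linarith)]
    nlinarith

theorem d1a_cl {g : E → ℝ} (hg : Continuous g) {R C : ℝ} (hR : 0 < R) (ρ : ProbabilityMeasure E)
    (h : Integrable (fun x => g x ^ 2) (ρ : Measure E) ∧ ∫ x, g x ^ 2 ∂(ρ : Measure E) ≤ C) :
    |∫ x, g x ∂(ρ : Measure E) - ∫ x, max (-R) (min (g x) R) ∂(ρ : Measure E)| ≤ C / R := by
  have h1 : Integrable g (ρ : Measure E) :=
    Integrable.mono' ((integrable_const (1 : ℝ)).add h.1) hg.aestronglyMeasurable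
      (ae_of_all _ fun x => by
        rw [Real.norm_eq_abs, Pi.add_apply, ← sq_abs]
        nlinarith [sq_nonneg (|g x| - 1), abs_nonneg (g x)])
  rw [← integral_sub h1 (d1a_int hg hR.le ρ), ← Real.norm_eq_abs]
  refine (norm_integral_le_of_norm_le (h.1.div_const R)
    (ae_of_all _ fun x => d1a_pt (g x) hR)).trans ?_
  rw [integral_div]
  exact div_le_div_of_nonneg_right h.2 hR.le

/-- Truncate: `min g n` is bounded continuous, so its integral under `μ` is at most `C`
(`ProbabilityMeasure.tendsto_iff_forall_integral_tendsto`); monotone convergence. -/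
theorem wk_fatou {l : Filter ι} [l.NeBot] {ν : ι → ProbabilityMeasure E} {μ : ProbabilityMeasure E}
    (h : Tendsto ν l (𝓝 μ)) {g : E → ℝ} (hg : Continuous g) (h0 : ∀ x, 0 ≤ g x) {C : ℝ}
    (hC : ∀ᶠ i in l, Integrable g (ν i : Measure E) ∧ ∫ x, g x ∂(ν i : Measure E) ≤ C) :
    Integrable g (μ : Measure E) ∧ ∫ x, g x ∂(μ : Measure E) ≤ C := by
  have e : ∀ (n : ℕ) x, max (-(n : ℝ)) (min (g x) n) = min (g x) n := fun n x =>
    max_eq_right (le_min (by linarith [h0 x, n.cast_nonneg (α := ℝ)])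
      (by linarith [n.cast_nonneg (α := ℝ)]))
  have hi : ∀ (n : ℕ) (ρ : ProbabilityMeasure E),
      Integrable (fun x => min (g x) n) (ρ : Measure E) := fun n ρ => by
    simpa only [e] using d1a_int hg n.cast_nonneg ρ
  have hp : ∀ (n : ℕ) x, 0 ≤ min (g x) n := fun n x => le_min (h0 x) n.cast_nonneg
  have hb : ∀ n : ℕ, ∫ x, min (g x) n ∂(μ : Measure E) ≤ C := fun n => by
    have t := d1a_lim h hg (R := n) n.cast_nonneg
    simp only [e] at t
    refine le_of_tendsto t (hC.mono fun i hi' => le_trans ?_ hi'.2)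
    exact integral_mono (hi n _) hi'.1 fun x => min_le_left _ _
  have hC0 : 0 ≤ C := (integral_nonneg (hp 0)).trans (hb 0)
  have key : ∫⁻ x, ENNReal.ofReal (g x) ∂(μ : Measure E) ≤ ENNReal.ofReal C := by
    have t := lintegral_tendsto_of_tendsto_of_monotone (μ := (μ : Measure E))
      (f := fun (n : ℕ) x => ENNReal.ofReal (min (g x) n)) (F := fun x => ENNReal.ofReal (g x))
      (fun n => (hg.min continuous_const).measurable.ennreal_ofReal.aemeasurable)
      (ae_of_all _ fun x a b hab => ENNReal.ofReal_le_ofReal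
        (min_le_min le_rfl (Nat.cast_le.2 hab)))
      (ae_of_all _ fun x => tendsto_const_nhds.congr'
        ((tendsto_natCast_atTop_atTop.eventually_ge_atTop (g x)).mono fun n hn => by
          simp only [min_eq_left hn]))
    refine le_of_tendsto' t fun n => ?_
    rw [← ofReal_integral_eq_lintegral_ofReal (hi n μ) (ae_of_all _ (hp n))]
    exact ENNReal.ofReal_le_ofReal (hb n)
  refine ⟨⟨hg.aestronglyMeasurable, (hasFiniteIntegral_iff_ofReal (ae_of_all _ h0)).2
    (key.trans_lt ENNReal.ofReal_lt_top)⟩, ?_⟩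
  rw [integral_eq_lintegral_of_nonneg_ae (ae_of_all _ h0) hg.aestronglyMeasurable]
  exact ENNReal.toReal_le_of_le_ofReal hC0 key

/-- With `c = max (-R) (min g R)` one has `|g - c| ≤ g ^ 2 / R`; use `wk_fatou` for `g ^ 2`. -/
theorem wk_ui {l : Filter ι} [l.NeBot] {ν : ι → ProbabilityMeasure E} {μ : ProbabilityMeasure E}
    (h : Tendsto ν l (𝓝 μ)) {g : E → ℝ} (hg : Continuous g) {C : ℝ}
    (hC : ∀ᶠ i in l, Integrable (fun x => g x ^ 2) (ν i : Measure E) ∧
      ∫ x, g x ^ 2 ∂(ν i : Measure E) ≤ C) :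
    Tendsto (fun i => ∫ x, g x ∂(ν i : Measure E)) l (𝓝 (∫ x, g x ∂(μ : Measure E))) := by
  have hm := wk_fatou h (hg.pow 2) (fun x => sq_nonneg (g x)) hC
  refine Metric.tendsto_nhds.2 fun ε hε => ?_
  have hR : 0 < 3 * (|C| + 1) / ε := by positivity
  have h1 : C / (3 * (|C| + 1) / ε) < ε / 3 := by
    rw [div_lt_iff₀ hR, show ε / 3 * (3 * (|C| + 1) / ε) = |C| + 1 by field_simp]
    linarith [le_abs_self C]
  have h2 := d1a_cl hg hR μ hm
  filter_upwards [hC, Metric.tendsto_nhds.1 (d1a_lim h hg hR.le) (ε / 3) (by positivity)]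
    with i hi h3
  have h4 := d1a_cl hg hR (ν i) hi
  rw [Real.dist_eq, abs_lt] at h3 ⊢
  rw [abs_le] at h2 h4
  constructor <;> linarith [h2.1, h2.2, h3.1, h3.2, h4.1, h4.2]

end Vale.Agent.P153
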