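import Vale.Agent.P153.D1k

/-! Moments of the smoothed law. -/

open MeasureTheory Filter Topology Set

noncomputable section

namespace Vale.Agent.P153

variable {N : ℕ}

/-- The law smoothed by the tent kernel. -/
def sm (μ : Measure (EuclideanSpace ℝ (Fin N))) (u : EuclideanSpace ℝ (Fin N)) : ℝ :=
  ∫ x, tent (x - u) ∂μ

theorem d1d_cs : HasCompactSupport (tent : EuclideanSpace ℝ (Fin N) → ℝ) := by
  refine HasCompactSupport.intro (isCompact_closedBall 0 1) fun y hy => ?_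
  by_contra h
  exact hy (mem_closedBall_zero_iff.2 (tent_supp h).le)

theorem d1d_int {g : EuclideanSpace ℝ (Fin N) → ℝ} (hg : Continuous g) :
    Integrable (fun y => g y * tent y) :=
  (hg.mul tent_cont).integrable_of_hasCompactSupport d1d_cs.mul_left

theorem d1d_sub (x : EuclideanSpace ℝ (Fin N)) (g : EuclideanSpace ℝ (Fin N) → ℝ) :
    ∫ u, g u * tent (x - u) = ∫ y, g (x - y) * tent y := by
  have h := integral_sub_left_eq_self (fun y => g (x - y) * tent y) volume x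
  simp only [sub_sub_cancel] at h
  exact h

theorem d1d_add (x : EuclideanSpace ℝ (Fin N)) (g : EuclideanSpace ℝ (Fin N) → ℝ) :
    ∫ y, g (x - y) * tent y = ∫ y, g (x + y) * tent y := by
  have h := integral_neg_eq_self (fun y => g (x + y) * tent y) volume
  simp only [tent_neg, ← sub_eq_add_neg] at h
  exact h

theorem d1d_sym (x : EuclideanSpace ℝ (Fin N)) {g : EuclideanSpace ℝ (Fin N) → ℝ}
    (hg : Continuous g) :
    2 * ∫ u, g u * tent (x - u) = ∫ y, (g (x + y) + g (x - y)) * tent y := by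
  have h1 : Integrable (fun y => g (x + y) * tent y) := d1d_int (g := fun y => g (x + y)) (by fun_prop)
  have h2 : Integrable (fun y => g (x - y) * tent y) := d1d_int (g := fun y => g (x - y)) (by fun_prop)
  simp only [add_mul]
  rw [integral_add h1 h2, d1d_sub, ← d1d_add]
  ring

theorem d1d_par (x y : EuclideanSpace ℝ (Fin N)) :
    ‖x + y‖ ^ 2 + ‖x - y‖ ^ 2 = 2 * (‖x‖ ^ 2 + ‖y‖ ^ 2) := by
  rw [norm_add_sq_real, norm_sub_sq_real]
  ring

/-- `Continuous.integral_pos_of_hasCompactSupport_nonneg_nonzero`. -/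
theorem tent_pos : 0 < ∫ y : EuclideanSpace ℝ (Fin N), tent y :=
  Continuous.integral_pos_of_hasCompactSupport_nonneg_nonzero (x := 0) tent_cont d1d_cs
    (fun y => tent_nonneg y) (by simp [tent])

/-- Substitute `u = x + y` (`integral_add_left_eq_self`), symmetrise (`integral_neg_eq_self`),
parallelogram law: `‖x + y‖ ^ 2 + ‖x - y‖ ^ 2 = 2 ‖x‖ ^ 2 + 2 ‖y‖ ^ 2`. -/
theorem tent_two (x : EuclideanSpace ℝ (Fin N)) : ∫ u, ‖u‖ ^ 2 * tent (x - u) ≤
    (∫ y : EuclideanSpace ℝ (Fin N), tent y) * (‖x‖ ^ 2 + 1) := by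
  have h := d1d_sym x (g := fun u => ‖u‖ ^ 2) (by fun_prop)
  have h2 : ∫ y, (‖x + y‖ ^ 2 + ‖x - y‖ ^ 2) * tent y ≤
      ∫ y : EuclideanSpace ℝ (Fin N), (2 * (‖x‖ ^ 2 + 1)) * tent y := by
    refine integral_mono (d1d_int (g := fun y => ‖x + y‖ ^ 2 + ‖x - y‖ ^ 2) (by fun_prop))
      (d1d_int (g := fun _ => 2 * (‖x‖ ^ 2 + 1)) continuous_const) fun y => ?_
    by_cases hy : tent y = 0
    · simp [hy]
    have h3 := tent_supp hy
    have h4 : ‖y‖ ^ 2 ≤ 1 := by nlinarith [norm_nonneg y]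
    refine mul_le_mul_of_nonneg_right ?_ (tent_nonneg y)
    rw [d1d_par]
    linarith
  rw [integral_const_mul] at h2
  linarith

theorem tent_four (x : EuclideanSpace ℝ (Fin N)) :
    (∫ y : EuclideanSpace ℝ (Fin N), tent y) * ‖x‖ ^ 4 ≤ ∫ u, ‖u‖ ^ 4 * tent (x - u) := by
  have h := d1d_sym x (g := fun u => ‖u‖ ^ 4) (by fun_prop)
  have h2 : ∫ y : EuclideanSpace ℝ (Fin N), (2 * ‖x‖ ^ 4) * tent y ≤
      ∫ y, (‖x + y‖ ^ 4 + ‖x - y‖ ^ 4) * tent y := by
    refine integral_mono (d1d_int (g := fun _ => 2 * ‖x‖ ^ 4) continuous_const)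
      (d1d_int (g := fun y => ‖x + y‖ ^ 4 + ‖x - y‖ ^ 4) (by fun_prop)) fun y => ?_
    refine mul_le_mul_of_nonneg_right ?_ (tent_nonneg y)
    have h3 := d1d_par x y
    have h4 : 2 * ‖x‖ ^ 2 ≤ ‖x + y‖ ^ 2 + ‖x - y‖ ^ 2 := by nlinarith [sq_nonneg ‖y‖]
    have h5 : (2 * ‖x‖ ^ 2) ^ 2 ≤ (‖x + y‖ ^ 2 + ‖x - y‖ ^ 2) ^ 2 :=
      pow_le_pow_left₀ (by positivity) h4 2
    nlinarith [sq_nonneg (‖x + y‖ ^ 2 - ‖x - y‖ ^ 2)]
  rw [integral_const_mul] at h2
  linarith

theorem tent_zero (x : EuclideanSpace ℝ (Fin N)) :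
    ∫ u, tent (x - u) = ∫ y : EuclideanSpace ℝ (Fin N), tent y :=
  integral_sub_left_eq_self tent volume x

theorem tent_le (x : EuclideanSpace ℝ (Fin N)) (j : ℕ) :
    Integrable (fun u => ‖u‖ ^ j * tent (x - u)) ∧ ∫ u, ‖u‖ ^ j * tent (x - u) ≤
      (∫ y : EuclideanSpace ℝ (Fin N), tent y) * (‖x‖ + 1) ^ j := by
  have h1 : Integrable (fun y => ‖x - y‖ ^ j * tent y) :=
    d1d_int (g := fun y => ‖x - y‖ ^ j) (by fun_prop)
  refine ⟨?_, ?_⟩
  · have h := h1.comp_sub_left x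
    simp only [sub_sub_cancel] at h
    exact h
  · rw [d1d_sub x (fun u => ‖u‖ ^ j), mul_comm, ← integral_const_mul]
    refine integral_mono h1 (d1d_int (g := fun _ => (‖x‖ + 1) ^ j) continuous_const) fun y => ?_
    by_cases hy : tent y = 0
    · simp [hy]
    have h3 := tent_supp hy
    refine mul_le_mul_of_nonneg_right ?_ (tent_nonneg y)
    exact pow_le_pow_left₀ (norm_nonneg _) ((norm_sub_le x y).trans (by linarith)) j

end Vale.Agent.P153
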