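import Vale.Agent.P153.D1k
import Vale.Agent.P153.D3h
import Vale.Agent.P153.H2
import Vale.Agent.P153.H4

/-! Approximate log-concavity at positive mesh. -/

open MeasureTheory Filter Topology Set

noncomputable section

namespace Vale.Agent.P153

/-- The vector of tested heights. -/
def vec {N : ℕ} (δ : ℝ) (f : Fin N → ℂ → ℝ) (k : Cfg) : EuclideanSpace ℝ (Fin N) :=
  WithLp.toLp 2 fun i => fld δ (f i) k

theorem vec_meas {N : ℕ} {δ : ℝ} (hδ : 0 < δ) {f : Fin N → ℂ → ℝ} (hf : ∀ i, Test (f i)) :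
    Measurable (vec δ f) :=
  (WithLp.measurable_toLp 2 _).comp (measurable_pi_lambda _ fun i => d3_meas hδ (hf i))

theorem d1f_norm {N : ℕ} {ε : ℝ} (hε : 0 ≤ ε) (x : EuclideanSpace ℝ (Fin N))
    (h : ∀ i, |x i| ≤ ε) : ‖x‖ ≤ N * ε := by
  refine abs_le_of_sq_le_sq' ?_ (by positivity) |>.2
  rw [EuclideanSpace.real_norm_sq_eq]
  have h1 : ∑ i, x i ^ 2 ≤ ∑ _i : Fin N, ε ^ 2 :=
    Finset.sum_le_sum fun i _ => sq_le_sq' (abs_le.1 (h i)).1 (abs_le.1 (h i)).2
  have h2 : (N : ℝ) ≤ N ^ 2 := by exact_mod_cast Nat.le_self_pow two_ne_zero N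
  rw [Finset.sum_const, Finset.card_univ, Fintype.card_fin, nsmul_eq_mul] at h1
  rw [mul_pow]
  exact h1.trans (mul_le_mul_of_nonneg_right h2 (sq_nonneg _))

/-- `Good.pl` with `F = tent (vec - u)`, `G = tent (vec - v)`, `H = tent (vec - m) + N ε`
(`Loc.pi`, `fld_loc`). By `fld_eq`, `ev_round`, `Wt_l1` each coordinate of `vec` at a rounding is within
`ε` of the midpoint, so the norm is within `N ε`; `tent_mid`, `tent_lip`. -/
theorem vec_pl {P : Measure Cfg} [IsProbabilityMeasure P] (h : Good P) {N : ℕ} {δ : ℝ} (hδ : 0 < δ)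
    {f : Fin N → ℂ → ℝ} (hf : ∀ i, Test (f i)) {ε : ℝ} (hε : 0 ≤ ε) (h1 : ∀ i, ∫ z, |f i z| ≤ ε)
    (u v : EuclideanSpace ℝ (Fin N)) :
    (∫ k, tent (vec δ f k - u) ∂P) * (∫ k, tent (vec δ f k - v) ∂P) ≤
      (∫ k, tent (vec δ f k - (1 / 2 : ℝ) • (u + v)) ∂P + N * ε) ^ 2 := by
  have L : ∀ φ : EuclideanSpace ℝ (Fin N) → ℝ,
      Loc (Finset.univ.biUnion fun i => (Wt δ (f i)).support) fun k => φ (vec δ f k) := fun φ =>
    Loc.pi (fun i => fld_loc hδ (hf i)) fun y => φ (WithLp.toLp 2 y)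
  have hN : 0 ≤ N * ε := by positivity
  have key : ∀ a b c : Cfg, (∀ i, |(1 / 2 : ℝ) * (fld δ (f i) a + fld δ (f i) b) - fld δ (f i) c| ≤ ε) →
      tent ((1 / 2 : ℝ) • ((vec δ f a - u) + (vec δ f b - v))) ≤
        tent (vec δ f c - (1 / 2 : ℝ) • (u + v)) + N * ε := fun a b c hc => by
    refine (tent_lip _ (vec δ f c - (1 / 2 : ℝ) • (u + v))).trans (add_le_add_right ?_ _)
    have e : (1 / 2 : ℝ) • ((vec δ f a - u) + (vec δ f b - v)) - (vec δ f c - (1 / 2 : ℝ) • (u + v)) =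
        (1 / 2 : ℝ) • (vec δ f a + vec δ f b) - vec δ f c := by module
    rw [e]
    exact d1f_norm hε _ hc
  have := h.pl _ _ _ _ (L fun y => tent (y - u)) (L fun y => tent (y - v))
    (L fun y => tent (y - (1 / 2 : ℝ) • (u + v)) + N * ε) (fun _ => tent_nonneg _)
    (fun _ => tent_nonneg _) (fun _ => add_nonneg (tent_nonneg _) hN) fun a b _ _ => by
      have e : ∀ i k, fld δ (f i) k = ev (Wt δ (f i)) k := fun i =>
        fld_eq hδ (hf i).1.continuous (hf i).2.1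
      have l : ∀ i, l1 (Wt δ (f i)) ≤ ε := fun i =>
        (Wt_l1 hδ (hf i).1.continuous (hf i).2.1).trans (h1 i)
      refine (tent_mid _ _).trans ?_
      rw [sq]
      refine mul_le_mul (key a b _ fun i => ?_) (key a b _ fun i => ?_) (tent_nonneg _)
        (add_nonneg (tent_nonneg _) hN)
      all_goals
        obtain ⟨r1, r2⟩ := ev_round (Wt δ (f i)) a b
        have := l i
        rw [abs_le] at r2
        rw [e, e, e, abs_le]
        constructor <;> linarith [r2.1, r2.2]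
  rwa [integral_add ((L fun y => tent (y - (1 / 2 : ℝ) • (u + v))).int h.lip) (integrable_const _),
    integral_const, probReal_univ, one_smul] at this

end Vale.Agent.P153
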