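import Vale.Agent.P153.Defs

/-! One dimensional moments of the mixture. -/

open MeasureTheory Filter Topology Set

noncomputable section

namespace Vale.Agent.P153

variable {σ : ℝ} {S : List (ℂ → ℝ) → ℝ} {T : ℕ → List (ℂ → ℝ) → ℝ} {f g : ℂ → ℝ}

theorem d1g_tests (hf : Test f) (m : ℕ) : Tests (List.replicate m f) := fun g hg => by
  rw [List.eq_of_mem_replicate hg]
  exact hf

theorem Mix.rep (h : Mix σ S T) (hf : Test f) (n m : ℕ) : T n (List.replicate (m + 1) f) =
    m * cov f f * T (n + 1) (List.replicate (m - 1) f) := by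
  rw [List.replicate_succ, h.step n f _ hf (d1g_tests hf m)]
  have e : ∀ j : Fin (List.replicate m f).length,
      cov f ((List.replicate m f).get j) * T (n + 1) ((List.replicate m f).eraseIdx j) =
        cov f f * T (n + 1) (List.replicate (m - 1) f) := fun j => by
    have hj : (j : ℕ) < m := by simpa using j.2
    rw [List.get_eq_getElem, List.getElem_replicate, List.eraseIdx_replicate, if_pos hj]
  rw [Finset.sum_congr rfl fun j _ => e j]
  simp [mul_assoc]

theorem d1g_eq (h : Mix σ S T) (hf : Test f) (hg : Test g) (e : cov f f = cov g g) (m : ℕ) :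
    ∀ n, T n (List.replicate m f) = T n (List.replicate m g) := by
  induction m using Nat.strong_induction_on with
  | _ m ih =>
    intro n
    rcases m with _ | m
    · rfl
    · rw [h.rep hf, h.rep hg, e, ih (m - 1) (by omega)]

theorem Mix.rep_eq (h : Mix σ S T) (hf : Test f) (hg : Test g) (e : cov f f = cov g g) (m : ℕ) :
    S (List.replicate m f) = S (List.replicate m g) := by
  rw [← h.zero _ (d1g_tests hf m), ← h.zero _ (d1g_tests hg m), d1g_eq h hf hg e]

theorem Mix.rep_two (h : Mix σ S T) (hf : Test f) :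
    S (List.replicate 2 f) = σ ^ 2 * cov f f := by
  rw [← h.zero _ (d1g_tests hf 2), h.rep hf 0 1]
  have e : T (0 + 1) (List.replicate (1 - 1) f) = σ ^ 2 := h.one
  rw [e]
  push_cast
  ring

theorem Mix.rep_four (h : Mix σ S T) (hf : Test f) :
    S (List.replicate 4 f) = 3 * T 2 [] * cov f f ^ 2 := by
  rw [← h.zero _ (d1g_tests hf 4), h.rep hf 0 3]
  have e : T (0 + 1) (List.replicate (3 - 1) f) =
      (1 : ℕ) * cov f f * T 2 [] := h.rep hf 1 1
  rw [e]
  push_cast
  ring

end Vale.Agent.P153
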