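import Vale.Agent.P153.D3
import Vale.Agent.P153.H2
import Vale.Agent.P153.H4

/-! Uniform exponential moments of a tested field. -/

open MeasureTheory Filter Topology Set

noncomputable section

namespace Vale.Agent.P153

/-- `Mom` for `w = Wt δ f` (`fld_eq`, `Wt_zs`, `Wt_l1`) with
`L = √(σ ^ 2 cov f f + 1) + ∫ |f| + 1`; eventually the variance is at most `σ ^ 2 cov f f + 1`
(`CovT.lim`). Integrable by `d3_bdd`. -/
theorem fld_exp {P : Measure Cfg} [IsProbabilityMeasure P] (h : Good P) (hM : Mom P) {σ : ℝ}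
    (hC : CovT P σ) {f : ℂ → ℝ} (hf : Test f) : ∃ a C : ℝ, 0 < a ∧ ∀ᶠ δ in 𝓝[>] (0 : ℝ),
      Integrable (fun k => Real.exp (a * |fld δ f k|)) P ∧
        ∫ k, Real.exp (a * |fld δ f k|) ∂P ≤ C := by

  obtain ⟨C, hC0, hM⟩ := hM
  set V : ℝ := σ ^ 2 * cov f f + 1 with hV
  have hi0 : 0 ≤ ∫ z, |f z| := integral_nonneg fun z => abs_nonneg _
  set L : ℝ := √V + (∫ z, |f z|) + 1 with hL
  have hL0 : 0 < L := by have := Real.sqrt_nonneg V; linarith
  refine ⟨(C * L)⁻¹, C, by positivity, ?_⟩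
  have h1 := (hC.lim f f hf hf).eventually (gt_mem_nhds (lt_add_one (σ ^ 2 * cov f f)))
  filter_upwards [h1, self_mem_nhdsWithin] with δ hv hδ
  have hδ' : 0 < δ := hδ
  have hc : Continuous f := hf.1.continuous
  refine ⟨((fld_loc hδ' hf).comp fun t => Real.exp ((C * L)⁻¹ * |t|)).int h.lip, ?_⟩
  have e : ∀ k, fld δ f k = ev (Wt δ f) k := fld_eq hδ' hc hf.2.1
  have h2 := hM (Wt δ f) (Wt_zs hδ' hf) L hL0 (by
    have h3 := Wt_l1 hδ' hc hf.2.1
    have h4 : √(∫ k, ev (Wt δ f) k ^ 2 ∂P) ≤ √V := by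
      refine Real.sqrt_le_sqrt ?_
      simp only [e, ← sq] at hv
      exact hv.le
    linarith)
  simpa only [e, div_eq_inv_mul] using h2

end Vale.Agent.P153
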