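import Vale.Agent.P153.D1a
import Vale.Agent.P153.D1t
import Vale.Agent.P153.D1f
import Vale.Agent.P153.D1x

/-! The limit law of a finite family of tested fields. -/

open MeasureTheory Filter Topology Set

noncomputable section

namespace Vale.Agent.P153

open scoped InnerProductSpace

theorem vec_inner {N : ℕ} {δ : ℝ} (hδ : 0 < δ) {f : Fin N → ℂ → ℝ} (hf : ∀ i, Test (f i))
    (t : EuclideanSpace ℝ (Fin N)) (k : Cfg) :
    ⟪vec δ f k, t⟫_ℝ = fld δ (fun z => ∑ i, t i * f i z) k := by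
  rw [d3_sum hδ t hf k]
  simp [vec, PiLp.inner_apply]

theorem lim_law {P : Measure Cfg} [IsProbabilityMeasure P] (h : Good P) (hM : Mom P) {σ : ℝ}
    (hC : CovT P σ) (U : Ultrafilter ℝ) (hU : (U : Filter ℝ) ≤ 𝓝[>] 0)
    {S : List (ℂ → ℝ) → ℝ} (hS : ∀ l, Tests l → Tendsto (fun δ => mom P δ l) U (𝓝 (S l)))
    {N : ℕ} {f : Fin N → ℂ → ℝ} (hf : ∀ i, Test (f i)) :
    ∃ μ : Measure (EuclideanSpace ℝ (Fin N)), IsProbabilityMeasure μ ∧
      (∀ u, Tendsto (fun δ => ∫ k, tent (vec δ f k - u) ∂P) U (𝓝 (∫ x, tent (x - u) ∂μ))) ∧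
      ∀ t : EuclideanSpace ℝ (Fin N),
        (∃ a : ℝ, 0 < a ∧ Integrable (fun x => Real.exp (a * |⟪x, t⟫_ℝ|)) μ) ∧
        ∀ m : ℕ, Integrable (fun x => ⟪x, t⟫_ℝ ^ m) μ ∧
          ∫ x, ⟪x, t⟫_ℝ ^ m ∂μ = S (List.replicate m fun z => ∑ i, t i * f i z) := by
  have hpos : ∀ᶠ δ in (U : Filter ℝ), 0 < δ := hU self_mem_nhdsWithin
  let d : ℝ → ℝ := fun δ => if 0 < δ then δ else 1
  have d0 : ∀ δ, 0 < d δ := fun δ => by
    simp only [d]
    split_ifs with h
    exacts [h, one_pos]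
  let ν : ℝ → ProbabilityMeasure (EuclideanSpace ℝ (Fin N)) := fun δ =>
    ⟨P.map (vec (d δ) f), Measure.isProbabilityMeasure_map (vec_meas (d0 δ) hf).aemeasurable⟩
  have hν : ∀ δ, 0 < δ → (ν δ : Measure (EuclideanSpace ℝ (Fin N))) = P.map (vec δ f) :=
    fun δ hδ => by
      change P.map (vec (d δ) f) = _
      simp only [d, if_pos hδ]
  have hI : ∀ δ, 0 < δ → ∀ g : EuclideanSpace ℝ (Fin N) → ℝ, Continuous g →
      ∫ x, g x ∂(ν δ : Measure (EuclideanSpace ℝ (Fin N))) = ∫ k, g (vec δ f k) ∂P :=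
    fun δ hδ g hg => by
      rw [hν δ hδ, integral_map (vec_meas hδ hf).aemeasurable hg.aestronglyMeasurable]
  have hJ : ∀ δ, 0 < δ → ∀ g : EuclideanSpace ℝ (Fin N) → ℝ, Continuous g →
      Integrable (fun k => g (vec δ f k)) P →
      Integrable g (ν δ : Measure (EuclideanSpace ℝ (Fin N))) := fun δ hδ g hg hi => by
    rw [hν δ hδ]
    exact (integrable_map_measure hg.aestronglyMeasurable (vec_meas hδ hf).aemeasurable).2 hi
  have hn : ∀ δ k, ‖vec δ f k‖ ^ 2 = ∑ i, fld δ (f i) k * fld δ (f i) k := fun δ k => by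
    rw [EuclideanSpace.real_norm_sq_eq]
    simp only [vec, pow_two]
  obtain ⟨μ, hμ⟩ := wk_exists U ν (C := ∑ i, σ ^ 2 * cov (f i) (f i) + 1) (by
    have t1 := ((tendsto_finsetSum Finset.univ fun i _ => hC.lim _ _ (hf i) (hf i)).mono_left
      hU).eventually_lt_const (lt_add_one _)
    filter_upwards [hpos, t1] with δ hδ h1
    have hi := fun i => d3_mul h hδ (hf i) (hf i)
    refine ⟨hJ δ hδ _ (by fun_prop) ?_, ?_⟩
    · simp only [hn]
      exact integrable_finsetSum _ fun i _ => hi i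
    · rw [hI δ hδ _ (by fun_prop)]
      simp only [hn]
      rw [integral_finsetSum _ fun i _ => hi i]
      exact h1.le)
  refine ⟨μ, inferInstance, fun u => ?_, fun t => ⟨?_, fun m => ?_⟩⟩
  · have hc : Continuous fun x : EuclideanSpace ℝ (Fin N) => tent (x - u) :=
      tent_cont.comp (by fun_prop)
    refine (wk_ui hμ hc (C := 1) (Eventually.of_forall fun δ => ?_)).congr' ?_
    · have hb : ∀ x : EuclideanSpace ℝ (Fin N), tent (x - u) ^ 2 ≤ 1 := fun x =>
        pow_le_one₀ (tent_nonneg _) (tent_le_one _)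
      have hi : Integrable (fun x => tent (x - u) ^ 2)
          (ν δ : Measure (EuclideanSpace ℝ (Fin N))) :=
        Integrable.of_bound (hc.pow 2).aestronglyMeasurable 1 (ae_of_all _ fun x => by
          rw [Real.norm_of_nonneg (sq_nonneg _)]; exact hb x)
      exact ⟨hi, (integral_mono hi (integrable_const 1) hb).trans (by simp)⟩
    · filter_upwards [hpos] with δ hδ
      exact hI δ hδ _ hc
  · obtain ⟨a, C, ha, hE⟩ := fld_exp h hM hC (d3_test t hf)
    refine ⟨a, ha, (wk_fatou hμ (by fun_prop) (fun x => (Real.exp_pos _).le) (C := C) ?_).1⟩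
    filter_upwards [hpos, hU hE] with δ hδ h1
    refine ⟨hJ δ hδ _ (by fun_prop) ?_, ?_⟩
    · simpa only [vec_inner hδ hf] using h1.1
    · rw [hI δ hδ _ (by fun_prop)]
      simpa only [vec_inner hδ hf] using h1.2
  · have hm : ∀ j : ℕ, Tendsto (fun δ => ∫ x, ⟪x, t⟫_ℝ ^ j ∂(ν δ : Measure _)) U
        (𝓝 (S (List.replicate j fun z => ∑ i, t i * f i z))) := fun j => by
      refine (hS _ fun g hg => by rw [List.eq_of_mem_replicate hg]; exact d3_test t hf).congr' ?_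
      filter_upwards [hpos] with δ hδ
      rw [hI δ hδ _ (by fun_prop)]
      simp only [mom, List.map_replicate, List.prod_replicate, vec_inner hδ hf]
    have hb : ∀ᶠ δ in (U : Filter ℝ), Integrable (fun x => (⟪x, t⟫_ℝ ^ m) ^ 2) (ν δ : Measure _) ∧
        ∫ x, (⟪x, t⟫_ℝ ^ m) ^ 2 ∂(ν δ : Measure _) ≤
          S (List.replicate (m * 2) fun z => ∑ i, t i * f i z) + 1 := by
      filter_upwards [hpos, (hm (m * 2)).eventually_lt_const (lt_add_one _)] with δ hδ h1
      simp only [← pow_mul]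
      refine ⟨hJ δ hδ _ (by fun_prop) ?_, h1.le⟩
      simpa only [vec_inner hδ hf] using d3_pow h hδ (d3_test t hf) (m * 2)
    refine ⟨?_, tendsto_nhds_unique (wk_ui hμ (by fun_prop) hb) (hm m)⟩
    have h2 := (wk_fatou hμ (by fun_prop) (fun x => sq_nonneg _) hb).1
    refine (h2.add (integrable_const 1)).mono' (by fun_prop) (ae_of_all _ fun x => ?_)
    rw [Real.norm_eq_abs, Pi.add_apply, ← sq_abs]
    nlinarith [sq_nonneg (|⟪x, t⟫_ℝ ^ m| - 1), abs_nonneg (⟪x, t⟫_ℝ ^ m)]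

end Vale.Agent.P153
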