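import Mathlib

/-! The tent kernel. -/

open MeasureTheory Filter Topology Set

noncomputable section

namespace Vale.Agent.P153

/-- The tent kernel. -/
def tent {E : Type} [NormedAddCommGroup E] (y : E) : ℝ := max 0 (1 - ‖y‖)

variable {E : Type} [NormedAddCommGroup E] [NormedSpace ℝ E]

omit [NormedSpace ℝ E] in
theorem tent_nonneg (y : E) : 0 ≤ tent y := le_max_left _ _

omit [NormedSpace ℝ E] in
theorem tent_le_one (y : E) : tent y ≤ 1 := max_le zero_le_one (by linarith [norm_nonneg y])

omit [NormedSpace ℝ E] in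
theorem tent_cont : Continuous (tent : E → ℝ) := by unfold tent; fun_prop

omit [NormedSpace ℝ E] in
theorem tent_neg (y : E) : tent (-y) = tent y := by simp [tent]

omit [NormedSpace ℝ E] in
theorem tent_supp {y : E} (h : tent y ≠ 0) : ‖y‖ < 1 := by
  by_contra hc
  exact h (max_eq_left (by linarith [not_lt.1 hc]))

omit [NormedSpace ℝ E] in
theorem tent_lip (x y : E) : tent x ≤ tent y + ‖x - y‖ := by
  have h := norm_sub_norm_le y x
  rw [norm_sub_rev] at h
  refine max_le (add_nonneg (tent_nonneg y) (norm_nonneg _)) ?_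
  linarith [le_max_right 0 (1 - ‖y‖), show tent y = max 0 (1 - ‖y‖) from rfl]

theorem tent_mid (x y : E) : tent x * tent y ≤ tent ((1 / 2 : ℝ) • (x + y)) ^ 2 := by
  by_cases hx : tent x = 0
  · rw [hx, zero_mul]; positivity
  by_cases hy : tent y = 0
  · rw [hy, mul_zero]; positivity
  have h1 := tent_supp hx
  have h2 := tent_supp hy
  have h3 : ‖(1 / 2 : ℝ) • (x + y)‖ ≤ (‖x‖ + ‖y‖) / 2 := by
    rw [norm_smul, Real.norm_of_nonneg (by norm_num)]
    linarith [norm_add_le x y]
  have h4 : 1 - (‖x‖ + ‖y‖) / 2 ≤ tent ((1 / 2 : ℝ) • (x + y)) :=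
    le_trans (by linarith) (le_max_right _ _)
  rw [tent, tent, max_eq_right (by linarith), max_eq_right (by linarith)]
  nlinarith [sq_nonneg (‖x‖ - ‖y‖), mul_self_le_mul_self (by linarith) h4]

end Vale.Agent.P153
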