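import Vale.Agent.P153.D1d

/-! Fubini for the smoothed law. -/

open MeasureTheory Filter Topology Set

noncomputable section

namespace Vale.Agent.P153

variable {N : ℕ} {μ : Measure (EuclideanSpace ℝ (Fin N))} [IsProbabilityMeasure μ]

/-- Lipschitz by `tent_lip`, or `continuous_of_dominated`. -/
theorem sm_cont : Continuous (sm μ) :=
  continuous_of_dominated (bound := fun _ => (1 : ℝ))
    (fun u => (tent_cont.comp (continuous_id.sub continuous_const)).aestronglyMeasurable)
    (fun u => Eventually.of_forall fun x => by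
      rw [Real.norm_of_nonneg (tent_nonneg _)]; exact tent_le_one _)
    (integrable_const _)
    (Eventually.of_forall fun x => tent_cont.comp (continuous_const.sub continuous_id))

theorem sm_nonneg (u : EuclideanSpace ℝ (Fin N)) : 0 ≤ sm μ u :=
  integral_nonneg fun _ => tent_nonneg _

theorem d1m_pow {t : ℝ} (ht : 0 ≤ t) {j : ℕ} (hj : j ≤ 4) : (t + 1) ^ j ≤ 16 * (1 + t ^ 4) := by
  have h1 : (t + 1) ^ j ≤ (t + 1) ^ 4 := pow_le_pow_right₀ (by linarith) hj
  have h4 : 0 ≤ t ^ 4 := by positivity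
  refine h1.trans ?_
  rcases le_total t 1 with h | h
  · have h2 : (t + 1) ^ 4 ≤ 2 ^ 4 := pow_le_pow_left₀ (by linarith) (by linarith) 4
    linarith
  · have h2 : (t + 1) ^ 4 ≤ (2 * t) ^ 4 := pow_le_pow_left₀ (by linarith) (by linarith) 4
    rw [mul_pow] at h2
    linarith

theorem d1m_int (h4 : Integrable (fun x => ‖x‖ ^ 4) μ) {j : ℕ} (hj : j ≤ 4) :
    Integrable (Function.uncurry fun x u : EuclideanSpace ℝ (Fin N) => ‖u‖ ^ j * tent (x - u))
      (μ.prod volume) := by
  have hc : Continuous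
      (Function.uncurry fun x u : EuclideanSpace ℝ (Fin N) => ‖u‖ ^ j * tent (x - u)) :=
    (continuous_snd.norm.pow j).mul (tent_cont.comp (continuous_fst.sub continuous_snd))
  refine (integrable_prod_iff hc.aestronglyMeasurable).2
    ⟨Eventually.of_forall fun x => (tent_le x j).1, ?_⟩
  refine Integrable.mono' (((integrable_const (1 : ℝ)).add h4).const_mul
    ((∫ y : EuclideanSpace ℝ (Fin N), tent y) * 16))
    hc.aestronglyMeasurable.norm.integral_prod_right' (Eventually.of_forall fun x => ?_)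
  have e : ∫ u, ‖Function.uncurry
      (fun x u : EuclideanSpace ℝ (Fin N) => ‖u‖ ^ j * tent (x - u)) (x, u)‖ =
      ∫ u, ‖u‖ ^ j * tent (x - u) :=
    integral_congr_ae (Eventually.of_forall fun u =>
      Real.norm_of_nonneg (mul_nonneg (pow_nonneg (norm_nonneg _) _) (tent_nonneg _)))
  rw [e, Real.norm_of_nonneg (integral_nonneg fun u =>
    mul_nonneg (pow_nonneg (norm_nonneg _) _) (tent_nonneg _))]
  refine (tent_le x j).2.trans ?_
  rw [mul_assoc]
  exact mul_le_mul_of_nonneg_left (d1m_pow (norm_nonneg x) hj) tent_pos.le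

/-- `integrable_prod_iff` with `tent_le` and `(‖x‖ + 1) ^ j ≤ 16 (1 + ‖x‖ ^ 4)`, then
`integral_integral_swap`, `Integrable.integral_prod_right`. -/
theorem sm_fub (h4 : Integrable (fun x => ‖x‖ ^ 4) μ) {j : ℕ} (hj : j ≤ 4) :
    Integrable (fun u => ‖u‖ ^ j * sm μ u) ∧
    Integrable (fun x => ∫ u, ‖u‖ ^ j * tent (x - u)) μ ∧
    ∫ u, ‖u‖ ^ j * sm μ u = ∫ x, (∫ u, ‖u‖ ^ j * tent (x - u)) ∂μ := by
  have h := d1m_int h4 hj
  have e : (fun u => ‖u‖ ^ j * sm μ u) = fun u => ∫ x, ‖u‖ ^ j * tent (x - u) ∂μ :=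
    funext fun u => (integral_const_mul _ _).symm
  refine ⟨e ▸ h.integral_prod_right, h.integral_prod_left, ?_⟩
  rw [e]
  exact (integral_integral_swap h).symm

theorem sm_mom (h4 : Integrable (fun x => ‖x‖ ^ 4) μ) :
    ∫ u, sm μ u = ∫ y : EuclideanSpace ℝ (Fin N), tent y ∧
    ∫ u, ‖u‖ ^ 2 * sm μ u ≤ (∫ y : EuclideanSpace ℝ (Fin N), tent y) * (∫ x, ‖x‖ ^ 2 ∂μ + 1) ∧
    (∫ y : EuclideanSpace ℝ (Fin N), tent y) * ∫ x, ‖x‖ ^ 4 ∂μ ≤ ∫ u, ‖u‖ ^ 4 * sm μ u := by
  have h2 : Integrable (fun x => ‖x‖ ^ 2) μ := by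
    refine Integrable.mono' (((integrable_const (1 : ℝ)).add h4).const_mul 16)
      (continuous_norm.pow 2).aestronglyMeasurable (Eventually.of_forall fun x => ?_)
    rw [Real.norm_of_nonneg (by positivity)]
    exact (pow_le_pow_left₀ (norm_nonneg x) (by linarith) 2).trans
      (d1m_pow (norm_nonneg x) (by norm_num))
  refine ⟨?_, ?_, ?_⟩
  · have h := (sm_fub h4 (j := 0) (by norm_num)).2.2
    simp only [pow_zero, one_mul, tent_zero] at h
    rw [h, integral_const, probReal_univ, one_smul]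
  · obtain ⟨-, hi, e⟩ := sm_fub h4 (j := 2) (by norm_num)
    rw [e]
    refine (integral_mono hi ((h2.add (integrable_const (1 : ℝ))).const_mul _)
      fun x => tent_two x).trans_eq ?_
    simp only [Pi.add_apply]
    rw [integral_const_mul, integral_add h2 (integrable_const _), integral_const, probReal_univ,
      one_smul]
  · obtain ⟨-, hi, e⟩ := sm_fub h4 (j := 4) le_rfl
    rw [e, ← integral_const_mul]
    exact integral_mono (h4.const_mul _) hi fun x => tent_four x

end Vale.Agent.P153
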