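import Mathlib

/-! Sign pattern of a log-concave function against an exponential. -/

open MeasureTheory Filter Topology Set

noncomputable section

namespace Vale.Agent.P153

/-- A closed set of reals containing midpoints is an interval: if `s < x < t`, `x ∉ A`, take
`s' = sSup (A ∩ Icc s x)`, `t' = sInf (A ∩ Icc x t)` and look at their midpoint. -/
theorem mid_conv {A : Set ℝ} (hA : IsClosed A) (h : ∀ s ∈ A, ∀ t ∈ A, (s + t) / 2 ∈ A) :
    A.OrdConnected := by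
  refine ⟨fun s hs t ht x hx => ?_⟩
  by_contra hn
  have b1 : BddAbove (A ∩ Icc s x) := bddAbove_Icc.mono inter_subset_right
  have b2 : BddBelow (A ∩ Icc x t) := bddBelow_Icc.mono inter_subset_right
  have h1 := (hA.inter isClosed_Icc).csSup_mem ⟨s, hs, le_rfl, hx.1⟩ b1
  have h2 := (hA.inter isClosed_Icc).csInf_mem ⟨t, ht, hx.2, le_rfl⟩ b2
  have h3 : sSup (A ∩ Icc s x) < x := lt_of_le_of_ne h1.2.2 fun e => hn (e ▸ h1.1)
  have h4 : x < sInf (A ∩ Icc x t) := lt_of_le_of_ne h2.2.1 fun e => hn (e ▸ h2.1)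
  have h5 := h _ h1.1 _ h2.1
  rcases le_total ((sSup (A ∩ Icc s x) + sInf (A ∩ Icc x t)) / 2) x with c | c
  · have := le_csSup b1 ⟨h5, by linarith [h1.2.1], c⟩
    linarith
  · have := csInf_le b2 ⟨h5, c, by linarith [h2.2.2]⟩
    linarith

/-- `A = {t | 0 ≤ t ∧ C * exp (-a t) ≤ p t}` is closed and contains midpoints
(`exp (-a s) exp (-a t) = exp (-a (s + t) / 2) ^ 2`, `abs_le_abs`/`pow_le_pow_left`). If `A` is empty
take `s = t = 0`; if bounded `s = sInf A`, `t = sSup A`; otherwise the second case, `s = sInf A`. -/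
theorem sign_pat {p : ℝ → ℝ} (hp : Continuous p) (h0 : ∀ t, 0 ≤ p t)
    (hm : ∀ s t, 0 ≤ s → 0 ≤ t → p s * p t ≤ p ((s + t) / 2) ^ 2) {C a : ℝ} (hC : 0 < C) :
    (∃ s t : ℝ, ∀ x, 0 < x →
      (p x - C * Real.exp (-(a * x))) * ((x ^ 2 - s ^ 2) * (x ^ 2 - t ^ 2)) ≤ 0) ∨
    ∃ s : ℝ, ∀ x, 0 < x → 0 ≤ (p x - C * Real.exp (-(a * x))) * (x ^ 2 - s ^ 2) := by
  obtain ⟨A, hA⟩ : ∃ A : Set ℝ, ∀ t, t ∈ A ↔ 0 ≤ t ∧ C * Real.exp (-(a * t)) ≤ p t :=
    ⟨{t | 0 ≤ t ∧ C * Real.exp (-(a * t)) ≤ p t}, fun _ => Iff.rfl⟩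
  have hc : IsClosed A := by
    rw [show A = {t | 0 ≤ t} ∩ {t | C * Real.exp (-(a * t)) ≤ p t} from Set.ext hA]
    exact (isClosed_le continuous_const continuous_id).inter (isClosed_le (by fun_prop) hp)
  have ho : A.OrdConnected := mid_conv hc fun s hs t ht => by
    rw [hA] at hs ht ⊢
    refine ⟨by linarith [hs.1, ht.1], le_of_sq_le_sq ?_ (h0 _)⟩
    refine le_trans (le_of_eq ?_)
      ((mul_le_mul hs.2 ht.2 (by positivity) (h0 s)).trans (hm s t hs.1 ht.1))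
    rw [mul_pow, ← Real.exp_nat_mul, mul_mul_mul_comm, ← Real.exp_add, sq]
    congr 2
    push_cast
    ring
  have hb : BddBelow A := ⟨0, fun t ht => ((hA t).1 ht).1⟩
  have n1 : ∀ x, 0 < x → x ∉ A → p x - C * Real.exp (-(a * x)) ≤ 0 := fun x hx hn => by
    by_contra h
    exact hn ((hA x).2 ⟨hx.le, by linarith⟩)
  have n2 : ∀ x ∈ A, 0 ≤ p x - C * Real.exp (-(a * x)) := fun x hx =>
    sub_nonneg.2 ((hA x).1 hx).2
  have q1 : ∀ x y : ℝ, 0 ≤ x → x ≤ y → 0 ≤ y ^ 2 - x ^ 2 := fun x y h1 h2 => by nlinarith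
  have q2 : ∀ x y : ℝ, 0 ≤ x → x ≤ y → x ^ 2 - y ^ 2 ≤ 0 := fun x y h1 h2 => by nlinarith
  rcases A.eq_empty_or_nonempty with he | hne
  · refine Or.inl ⟨0, 0, fun x hx => mul_nonpos_of_nonpos_of_nonneg (n1 x hx (by simp [he])) ?_⟩
    exact mul_self_nonneg _
  have hs := hc.csInf_mem hne hb
  have hs0 := ((hA _).1 hs).1
  by_cases hu : BddAbove A
  · have ht := hc.csSup_mem hne hu
    have hst := le_csSup hu hs
    refine Or.inl ⟨sInf A, sSup A, fun x hx => ?_⟩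
    by_cases c : x ∈ A
    · exact mul_nonpos_of_nonneg_of_nonpos (n2 x c) (mul_nonpos_of_nonneg_of_nonpos
        (q1 _ _ hs0 (csInf_le hb c)) (q2 _ _ hx.le (le_csSup hu c)))
    · refine mul_nonpos_of_nonpos_of_nonneg (n1 x hx c) ?_
      rcases le_total x (sInf A) with c1 | c1
      · exact mul_nonneg_of_nonpos_of_nonpos (q2 _ _ hx.le c1) (q2 _ _ hx.le (c1.trans hst))
      · have c2 : sSup A ≤ x := le_of_not_ge fun c2 => c (ho.out hs ht ⟨c1, c2⟩)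
        exact mul_nonneg (q1 _ _ hs0 c1) (q1 _ _ (hs0.trans hst) c2)
  · refine Or.inr ⟨sInf A, fun x hx => ?_⟩
    by_cases c : x ∈ A
    · exact mul_nonneg (n2 x c) (q1 _ _ hs0 (csInf_le hb c))
    · obtain ⟨t, ht, h1⟩ := not_bddAbove_iff.1 hu x
      have c1 : x ≤ sInf A := le_of_not_ge fun c1 => c (ho.out hs ht ⟨c1, h1.le⟩)
      exact mul_nonneg_of_nonpos_of_nonpos (n1 x hx c) (q2 _ _ hx.le c1)

end Vale.Agent.P153
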