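import Vale.Agent.P153.C3F

/-! The variance of the mixture vanishes. -/

open MeasureTheory Filter Topology

noncomputable section

namespace Vale.Agent.P153

variable {σ : ℝ} {S : List (ℂ → ℝ) → ℝ} {T : ℕ → List (ℂ → ℝ) → ℝ}

theorem d2_fam {l : List (ℂ → ℝ)} (hl : Tests l) (N : ℕ) : ∃ e : Fin N → ℂ → ℝ,
    (∀ i, Test (e i)) ∧ (∀ i j, cov (e i) (e j) = if i = j then 1 else 0) ∧
      ∀ i, ∀ g ∈ l, cov (e i) g = 0 := by
  induction N with
  | zero => exact ⟨Fin.elim0, fun i => i.elim0, fun i => i.elim0, fun i => i.elim0⟩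
  | succ N ih =>
    obtain ⟨e, h1, h2, h3⟩ := ih
    have h4 : Tests (List.ofFn e ++ l) := fun g hg => (List.mem_append.1 hg).elim
      (fun h => by
        obtain ⟨i, rfl⟩ := List.mem_ofFn.1 h
        exact h1 i) (hl g)
    obtain ⟨_, hN⟩ := exists_far
    obtain ⟨v, a, b, -, c⟩ := hN _ fun f hf => (h4 f hf).2.1
    have h5 := c3_orth a h4 c
    have h6 : ∀ i, cov (lap v) (e i) = 0 := fun i =>
      h5 _ (List.mem_append_left _ (List.mem_ofFn.2 ⟨i, rfl⟩))
    refine ⟨Fin.cons (lap v) e, Fin.cases a.test_lap h1, Fin.cases (Fin.cases ?_ fun j => ?_)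
      fun i => Fin.cases ?_ fun j => ?_,
      Fin.cases (fun g hg => h5 g (List.mem_append_right _ hg)) h3⟩
    · simpa using b
    · simpa [(Fin.succ_ne_zero j).symm] using h6 j
    · simpa [cov_symm (e i)] using h6 i
    · simpa using h2 i j

theorem d2_psd (h : Lim σ S) {ι : Type} [Fintype ι] (a : ι → ℝ) (l : ι → List (ℂ → ℝ))
    (hl : ∀ i, Tests (l i)) : 0 ≤ ∑ i, ∑ j, a i * a j * S (l i ++ l j) := by
  have e := (Fintype.equivFin ι).symm
  have h1 := h.psd _ (fun i => a (e i)) (fun i => l (e i)) fun i => hl _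
  rw [← e.sum_comp]
  exact h1.trans_eq (Finset.sum_congr rfl fun i _ =>
    e.sum_comp fun j => a (e i) * a j * S (l (e i) ++ l j))

theorem d2_pair (hT : Mix σ S T) {e : ℂ → ℝ} {l : List (ℂ → ℝ)} (he : Test e) (hl : Tests l)
    (h1 : cov e e = 1) (h0 : ∀ g ∈ l, cov e g = 0) : S (e :: e :: l) = T 1 l := by
  rw [← hT.zero _ ((hl.cns he).cns he), hT.step 0 e _ he (hl.cns he)]
  simp only [List.length_cons]
  rw [Fin.sum_univ_succ, Finset.sum_eq_zero fun j _ => ?_]
  · simp [h1]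
  · exact mul_eq_zero_of_left (h0 _ (by simp)) _

theorem d2_two (hT : Mix σ S T) {e g : ℂ → ℝ} (he : Test e) (hg : Test g) :
    T 1 [e, g] = cov e g * T 2 [] := by
  rw [hT.step 1 e _ he (Tests.cns hg fun _ h => (List.not_mem_nil h).elim)]
  simp

theorem d2_four (hT : Mix σ S T) {e : ℂ → ℝ} (he : Test e) (h1 : cov e e = 1) :
    S [e, e, e, e] = 3 * T 2 [] := by
  have h0 : Tests [] := fun _ h => nomatch h
  have h3 := ((h0.cns he).cns he).cns he
  rw [← hT.zero _ (h3.cns he), hT.step 0 e _ he h3]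
  simp [Fin.sum_univ_succ, d2_two hT he he, h1]
  ring

theorem d2_one (h : Lim σ S) (hT : Mix σ S T) (h2 : T 2 [] ≤ σ ^ 4) {l : List (ℂ → ℝ)}
    (hl : Tests l) : T 1 l = σ ^ 2 * S l := by
  have h0 : Tests [] := fun _ h => nomatch h
  have key : ∀ (t : ℝ) (N : ℕ), 0 ≤ 2 * σ ^ 4 * (1 / ((N : ℝ) + 1)) +
      (S (l ++ l) * (t * t) + 2 * (T 1 l - σ ^ 2 * S l) * t + 0) := fun t N => by
    obtain ⟨e, a, b, c⟩ := d2_fam hl (N + 1)
    have b1 : ∀ i, cov (e i) (e i) = 1 := fun i => by simpa using b i i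
    have e1 : ∀ i j, S [e i, e i, e j, e j] = T 2 [] + if i = j then 2 * T 2 [] else 0 := by
      intro i j
      split_ifs with hij
      · rw [hij, d2_four hT (a j) (b1 j)]
        ring
      · rw [d2_pair hT (a i) ((h0.cns (a j)).cns (a j)) (b1 i) (by simp [b, hij]),
          d2_two hT (a j) (a j), b1, one_mul, add_zero]
    have e2 : ∀ i, S [e i, e i] = σ ^ 2 := fun i => by rw [h.two _ _ (a i) (a i), b1, mul_one]
    have e3 : ∀ i, S (e i :: e i :: l) = T 1 l := fun i => d2_pair hT (a i) hl (b1 i) (c i)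
    have e4 : ∀ i, S (l ++ [e i, e i]) = T 1 l := fun i =>
      (h.perm _ _ List.perm_append_comm).trans (e3 i)
    have h3 := d2_psd h (ι := Option (Option (Fin (N + 1))))
      (fun o => o.elim t fun o' => o'.elim (-σ ^ 2) fun _ => 1 / ((N : ℝ) + 1))
      (fun o => o.elim l fun o' => o'.elim [] fun i => [e i, e i]) (by
        rintro (_ | _ | i)
        exacts [hl, h0, (h0.cns (a i)).cns (a i)])
    simp only [Fintype.sum_option, Option.elim, List.cons_append, List.nil_append,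
      List.append_nil, e1, e2, e3, e4, h.nil, mul_add, Finset.sum_add_distrib, mul_ite, mul_zero,
      Finset.sum_ite_eq, Finset.mem_univ, if_true, Finset.sum_const, Finset.card_univ,
      Fintype.card_fin, nsmul_eq_mul, Nat.cast_add, Nat.cast_one] at h3
    have hN : ((N : ℝ) + 1) * (1 / ((N : ℝ) + 1)) = 1 := mul_one_div_cancel (by positivity)
    have hp : 0 ≤ 1 / ((N : ℝ) + 1) := by positivity
    generalize 1 / ((N : ℝ) + 1) = x at h3 hN hp ⊢
    generalize (N : ℝ) + 1 = n at h3 hN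
    have h4 := mul_le_mul_of_nonneg_left h2 (show 0 ≤ 1 + 2 * x by positivity)
    refine h3.trans (sub_nonneg.1 ?_)
    refine (sub_nonneg.2 h4).trans_eq ?_
    linear_combination (2 * t * T 1 l - 2 * σ ^ 4 + T 2 [] * (n * x + 1) + 2 * x * T 2 []) * hN
  have h5 : ∀ t : ℝ, 0 ≤ S (l ++ l) * (t * t) + 2 * (T 1 l - σ ^ 2 * S l) * t + 0 := fun t => by
    have h6 := (tendsto_one_div_add_atTop_nhds_zero_nat.const_mul (2 * σ ^ 4)).add_const
      (S (l ++ l) * (t * t) + 2 * (T 1 l - σ ^ 2 * S l) * t + 0)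
    simpa only [mul_zero, zero_add] using ge_of_tendsto' h6 (key t)
  have h7 := discrim_le_zero h5
  rw [discrim] at h7
  nlinarith [sq_nonneg (T 1 l - σ ^ 2 * S l)]

theorem pow_of_shell {σ : ℝ} {S : List (ℂ → ℝ) → ℝ} (h : Lim σ S) {T : ℕ → List (ℂ → ℝ) → ℝ}
    (hT : Mix σ S T) (h2 : T 2 [] ≤ σ ^ 4) (f : ℂ → ℝ) (hf : Test f) (n : ℕ) :
    S (List.replicate (n + 2) f) = (n + 1) * (σ ^ 2 * cov f f) * S (List.replicate n f) := by
  have h0 : ∀ m, Tests (List.replicate m f) := fun m g hg => List.eq_of_mem_replicate hg ▸ hf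
  rw [← hT.zero _ (h0 _), List.replicate_succ, hT.step 0 f _ hf (h0 _),
    Finset.sum_congr rfl (g := fun _ => cov f f * T 1 (List.replicate n f)) fun j _ => ?_,
    d2_one h hT h2 (h0 n)]
  · simp
    ring
  · have hj : (j : ℕ) < n + 1 := by simpa using j.2
    rw [List.eq_of_mem_replicate (List.get_mem _ j), List.eraseIdx_replicate, if_pos hj]
    rfl

end Vale.Agent.P153
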