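import Vale.Agent.P153.Stmt

/-! Interfaces between the parts of the proof. -/

open MeasureTheory Filter Topology

noncomputable section

namespace Vale.Agent.P153

/-! ### Lattice level -/

/-- Rotation by `π / 3` (multiplication by `ω`). -/
def rot (x : ℤ × ℤ) : ℤ × ℤ := (-x.2, x.1 + x.2)

/-- Reflection in the row `j = 0` (complex conjugation). -/
def rfl0 (x : ℤ × ℤ) : ℤ × ℤ := (x.1 + x.2, -x.2)

/-- `F` depends only on the height differences in `S`. -/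
def Loc (S : Finset (ℤ × ℤ)) (F : Cfg → ℝ) : Prop :=
  ∀ k k' : Cfg, (∀ x ∈ S, ∀ y ∈ S, k x - k y = k' x - k' y) → F k = F k'

/-- A finitely supported weight tested against the heights. -/
def ev (w : ℤ × ℤ →₀ ℝ) (k : Cfg) : ℝ := w.sum fun x a => a * (k x : ℝ)

/-- Weights of total sum zero. -/
def Zs (w : ℤ × ℤ →₀ ℝ) : Prop := (w.sum fun _ a => a) = 0

/-- The `ℓ¹` norm of a weight. -/
def l1 (w : ℤ × ℤ →₀ ℝ) : ℝ := w.sum fun _ a => |a|

/-- Output of part A. -/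
structure Good (P : Measure Cfg) : Prop where
  lip : ∀ᵐ k ∂P, Lip k ∧ k 0 = 0
  shift : ∀ S F, Loc S F → ∀ y : ℤ × ℤ, ∫ k, F (fun x => k (x + y)) ∂P = ∫ k, F k ∂P
  rot : ∀ S F, Loc S F → ∫ k, F (fun x => k (rot x)) ∂P = ∫ k, F k ∂P
  rfl0 : ∀ S F, Loc S F → ∫ k, F (fun x => k (rfl0 x)) ∂P = ∫ k, F k ∂P
  neg : ∀ S F, Loc S F → ∫ k, F (fun x => -k x) ∂P = ∫ k, F k ∂P
  rp : ∀ S F, Loc S F → (∀ x ∈ S, 0 ≤ x.2) → 0 ≤ ∫ k, F k * F (fun x => k (P153.rfl0 x)) ∂P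
  pl : ∀ S F G H, Loc S F → Loc S G → Loc S H → (∀ k, 0 ≤ F k) → (∀ k, 0 ≤ G k) →
    (∀ k, 0 ≤ H k) → (∀ a b : Cfg, Lip a → Lip b →
      F a * G b ≤ H (fun x => (a x + b x) / 2) * H (fun x => (a x + b x + 1) / 2)) →
    (∫ k, F k ∂P) * (∫ k, G k ∂P) ≤ (∫ k, H k ∂P) ^ 2
  sub : Tendsto (fun n : ℕ => (∫ k, ((k (n, 0) - k 0 : ℤ) : ℝ) ^ 2 ∂P) / (n : ℝ) ^ 2) atTop (𝓝 0)

/-- Exponential moments of linear observables (part A5). -/
def Mom (P : Measure Cfg) : Prop :=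
  ∃ C : ℝ, 0 < C ∧ ∀ w : ℤ × ℤ →₀ ℝ, Zs w → ∀ L : ℝ, 0 < L →
    √(∫ k, ev w k ^ 2 ∂P) + l1 w ≤ L → ∫ k, Real.exp (|ev w k| / (C * L)) ∂P ≤ C

/-- The weight of the vertex `x` in `fld δ f`. -/
def wt (δ : ℝ) (f : ℂ → ℝ) (x : ℤ × ℤ) : ℝ := ∫ z : ℂ, hat (z / δ - pos x) * f z

/-! ### Test functions -/

/-- Smooth compactly supported functions. -/
def Cc (u : ℂ → ℝ) : Prop := ContDiff ℝ (⊤ : ℕ∞) u ∧ HasCompactSupport u

/-- All members of the list are test functions. -/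
def Tests (l : List (ℂ → ℝ)) : Prop := ∀ f ∈ l, Test f

/-- The Laplacian. -/
def lap (u : ℂ → ℝ) : ℂ → ℝ := Laplacian.laplacian u

/-- Translation by `a`. -/
def tr (a : ℂ) (f : ℂ → ℝ) : ℂ → ℝ := fun z => f (z - a)

/-- The norm controlling all moments. -/
def nn (f : ℂ → ℝ) : ℝ := √(cov f f) + ∫ z, |f z|

/-- First moment of the absolute value. -/
def m1 (f : ℂ → ℝ) : ℝ := ∫ z, ‖z‖ * |f z|

/-- Total variation. -/
def tv (f : ℂ → ℝ) : ℝ := ∫ z, ‖fderiv ℝ f z‖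

/-- Output of part B. -/
structure CovT (P : Measure Cfg) (σ : ℝ) : Prop where
  lim : ∀ f g, Test f → Test g →
    Tendsto (fun δ => ∫ k, fld δ f k * fld δ g k ∂P) (𝓝[>] 0) (𝓝 (σ ^ 2 * cov f g))
  le : ∃ C : ℝ, 0 ≤ C ∧ ∀ δ ∈ Set.Ioc (0 : ℝ) 1, ∀ f, Test f →
    ∫ k, fld δ f k ^ 2 ∂P ≤ C * m1 f * tv f

/-! ### The limit functional -/

/-- The six normals `i ω ^ m` of the lattice lines. -/
def nv (m : ℕ) : ℂ := Complex.I * om ^ m

/-- The coordinate along the normal. -/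
def co (m : ℕ) (z : ℂ) : ℝ := (z * (starRingEnd ℂ) (nv m)).re

/-- All members of the list are supported in `O`. -/
def Sup (l : List (ℂ → ℝ)) (O : Set ℂ) : Prop := ∀ f ∈ l, tsupport f ⊆ O

/-- The moment of a list of test functions at mesh `δ`. -/
def mom (P : Measure Cfg) (δ : ℝ) (l : List (ℂ → ℝ)) : ℝ :=
  ∫ k, (l.map fun f => fld δ f k).prod ∂P

/-- Output of part C0: limit moments along an ultrafilter. -/
structure Lim (σ : ℝ) (S : List (ℂ → ℝ) → ℝ) : Prop where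
  nil : S [] = 1
  perm : ∀ l l', l.Perm l' → S l = S l'
  lin : ∀ (a b : ℝ) f g l, Test f → Test g → Tests l →
    S ((fun z => a * f z + b * g z) :: l) = a * S (f :: l) + b * S (g :: l)
  one : ∀ f, Test f → S [f] = 0
  two : ∀ f g, Test f → Test g → S [f, g] = σ ^ 2 * cov f g
  bdd : ∀ n : ℕ, ∃ C : ℝ, 0 ≤ C ∧ ∀ f l, Test f → Tests l → l.length = n →
    |S (f :: l)| ≤ C * √(cov f f) * (l.map nn).prod
  psd : ∀ (n : ℕ) (a : Fin n → ℝ) (l : Fin n → List (ℂ → ℝ)), (∀ i, Tests (l i)) →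
    0 ≤ ∑ i, ∑ j, a i * a j * S (l i ++ l j)
  ext : ∀ (m : ℕ) (c : ℝ) u A, Cc u → Tests A → tsupport u ⊆ {z | c < co m z} →
    Sup A {z | co m z < c} → S (lap u :: A) = 0
  move : ∀ (m : ℕ) (c : ℝ) A B, Tests A → Tests B → Sup A {z | co m z < c} →
    Sup B {z | c < co m z} →
    (∀ᶠ t : ℝ in atTop, S (A ++ B.map (tr (t * nv m))) = 0) → S (A ++ B) = 0

/-- Output of part C1: locality. -/
def Local (S : List (ℂ → ℝ) → ℝ) : Prop :=
  ∀ u A, Cc u → Tests A → Sup A (tsupport u)ᶜ → S (lap u :: A) = 0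

/-- Output of part C2: the Schwinger-Dyson equation, with a far away insertion `w = lap v`. -/
def SD (S : List (ℂ → ℝ) → ℝ) : Prop :=
  ∀ u v A, Cc u → Cc v → cov (lap v) (lap v) = 1 → Tests A → Sup A (tsupport v)ᶜ →
    Disjoint (tsupport u) (tsupport v) →
    S (lap u :: A) = ∑ j : Fin A.length,
      cov (lap u) (A.get j) * S (lap v :: lap v :: A.eraseIdx j)

/-- Output of part C3: a mixture of Gaussian moments. -/
structure Mix (σ : ℝ) (S : List (ℂ → ℝ) → ℝ) (T : ℕ → List (ℂ → ℝ) → ℝ) : Prop where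
  zero : ∀ l, Tests l → T 0 l = S l
  one : T 1 [] = σ ^ 2
  step : ∀ n f A, Test f → Tests A → T n (f :: A) =
    ∑ j : Fin A.length, cov f (A.get j) * T (n + 1) (A.eraseIdx j)

end Vale.Agent.P153
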