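import Vale.Agent.P153.H1

/-! Equivariance of the tested heights. -/

open MeasureTheory Filter Topology

noncomputable section

namespace Vale.Agent.P153

variable {δ : ℝ}

theorem h3_shift (k : Cfg) (y : ℤ × ℤ) (z : ℂ) :
    interp (fun x => k (x + y)) z = interp k (z + pos y) := by
  unfold interp
  refine finsum_eq_of_bijective (fun x => x + y) (Equiv.addRight y).bijective fun x => ?_
  rw [pos_add, add_sub_add_right_eq_sub]

theorem h3_rot (k : Cfg) (z : ℂ) : interp (fun x => k (rot x)) z = interp k (om * z) := by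
  unfold interp
  refine finsum_eq_of_bijective rot rot_bij fun x => ?_
  rw [pos_rot, ← mul_sub, hat_rot]

theorem h3_rfl0 (k : Cfg) (z : ℂ) :
    interp (fun x => k (rfl0 x)) z = interp k ((starRingEnd ℂ) z) := by
  unfold interp
  refine finsum_eq_of_bijective rfl0 (Function.Involutive.bijective rfl0_rfl0) fun x => ?_
  rw [pos_rfl0, ← map_sub, hat_conj]

theorem h3_neg (k : Cfg) (z : ℂ) : interp (fun x => -k x) z = -interp k z := by
  unfold interp
  rw [← finsum_neg_distrib]
  refine finsum_congr fun x => ?_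
  rw [Int.cast_neg, neg_mul]

/-- Reindex the `finsum` (`finsum_eq_of_bijective`, `finsum_comp_equiv`), translate the integral. -/
theorem fld_shift (hδ : 0 < δ) (f : ℂ → ℝ) (y : ℤ × ℤ) (k : Cfg) :
    fld δ (tr (δ * pos y) f) k = fld δ f fun x => k (x + y) := by
  have h0 : (δ : ℂ) ≠ 0 := Complex.ofReal_ne_zero.2 hδ.ne'
  unfold fld
  rw [← integral_add_right_eq_self (fun z : ℂ => interp k (z / δ) * tr (δ * pos y) f z)
    (δ * pos y)]
  refine integral_congr_ae (Eventually.of_forall fun z => ?_)
  simp only [tr, h3_shift, add_sub_cancel_right, add_div, mul_div_cancel_left₀ _ h0]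

/-- Multiplication by a unit complex number preserves the volume
(`LinearIsometryEquiv.measurePreserving`, `rotation`). -/
theorem integral_unit {a : ℂ} (ha : ‖a‖ = 1) (F : ℂ → ℝ) : ∫ z, F (a * z) = ∫ z, F z :=
  (rotation ⟨a, mem_sphere_zero_iff_norm.2 ha⟩).measurePreserving.integral_comp
    (rotation ⟨a, mem_sphere_zero_iff_norm.2 ha⟩).toHomeomorph.measurableEmbedding F

theorem integral_conj' (F : ℂ → ℝ) : ∫ z, F ((starRingEnd ℂ) z) = ∫ z, F z :=
  Complex.conjLIE.measurePreserving.integral_comp
    Complex.conjLIE.toHomeomorph.measurableEmbedding F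

theorem fld_rot (f : ℂ → ℝ) (k : Cfg) :
    fld δ (fun z => f (om * z)) (fun x => k (rot x)) = fld δ f k := by
  unfold fld
  rw [← integral_unit om_norm fun z => interp k (z / δ) * f z]
  refine integral_congr_ae (Eventually.of_forall fun z => ?_)
  simp only [h3_rot, mul_div_assoc]

theorem fld_rfl0 (f : ℂ → ℝ) (k : Cfg) :
    fld δ f (fun x => k (rfl0 x)) = fld δ (fun z => f ((starRingEnd ℂ) z)) k := by
  unfold fld
  rw [← integral_conj' fun z => interp k (z / δ) * f ((starRingEnd ℂ) z)]
  refine integral_congr_ae (Eventually.of_forall fun z => ?_)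
  simp only [h3_rfl0, map_div₀, Complex.conj_ofReal, Complex.conj_conj]

theorem fld_neg (f : ℂ → ℝ) (k : Cfg) : fld δ f (fun x => -k x) = -fld δ f k := by
  unfold fld
  rw [← integral_neg]
  refine integral_congr_ae (Eventually.of_forall fun z => ?_)
  simp only [h3_neg, neg_mul]

end Vale.Agent.P153

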