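import Vale.Agent.P153.A
import Vale.Agent.P153.A5
import Vale.Agent.P153.B
import Vale.Agent.P153.C0
import Vale.Agent.P153.C1
import Vale.Agent.P153.C2
import Vale.Agent.P153.C3
import Vale.Agent.P153.D1
import Vale.Agent.P153.D2
import Vale.Agent.P153.D3

/-! Assembly. -/

open MeasureTheory Filter Topology

noncomputable section

namespace Vale.Agent.P153

theorem main_of_good (P : Measure Cfg) [IsProbabilityMeasure P] (hG : Good P) :
    ∃ σ : ℝ, 0 ≤ σ ∧ ToGFF P σ ∧ LogVar P σ := by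
  have hM := mom_of_good hG
  obtain ⟨σ, h0, hC, hV⟩ := covT_of_good hG
  refine ⟨σ, h0, toGFF_of_mom hG hM hC fun U hU => ?_, hV⟩
  obtain ⟨S, hS, hl⟩ := lim_of_covT hG hM hC U hU
  obtain ⟨T, hT⟩ := mix_of_sd hS (sd_of_local hS (local_of_lim hS))
  exact ⟨S, hS, hl, pow_of_shell hS hT (shell hG hM hC U hU hl hT)⟩

theorem main (P : Measure Cfg) [IsProbabilityMeasure P] (h : IsLimit P) :
    ∃ σ : ℝ, 0 ≤ σ ∧ ToGFF P σ ∧ LogVar P σ :=
  main_of_good P (good_of_lim h)

end Vale.Agent.P153
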