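import Mathlib

/-! Uniform Lipschitz heights on the triangular lattice and the Gaussian free field. -/

open MeasureTheory Filter Topology
open scoped FourierTransform

noncomputable section

namespace Vale.Agent.P153

/-- Integer functions on the vertices; `(i, j)` is the vertex `i + j ω`. -/
abbrev Cfg := ℤ × ℤ → ℤ

/-- The sixth root of unity `ω = 1 / 2 + i √3 / 2`. -/
def om : ℂ := ⟨1 / 2, √3 / 2⟩

/-- Position of a vertex in the plane. -/
def pos (x : ℤ × ℤ) : ℂ := (x.1 : ℂ) + (x.2 : ℂ) * om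

/-- Neighbouring values differ by at most one. -/
def Lip (k : Cfg) : Prop :=
  ∀ x : ℤ × ℤ, |k (x + (1, 0)) - k x| ≤ 1 ∧ |k (x + (0, 1)) - k x| ≤ 1 ∧
    |k (x + (-1, 1)) - k x| ≤ 1

/-- Graph distance to the origin. -/
def hx (x : ℤ × ℤ) : ℤ := max |x.1| (max |x.2| |x.1 + x.2|)

/-- Lipschitz functions vanishing outside the hexagon of centre `c` and radius `n`. -/
def Adm (c : ℤ × ℤ) (n : ℕ) : Set Cfg := {k | Lip k ∧ ∀ x, (n : ℤ) < hx (x - c) → k x = 0}

/-- Probability, under the uniform measure on `Adm c n`, that `k - k 0` equals `η` on `S`. -/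
def hexP (c : ℤ × ℤ) (n : ℕ) (S : Finset (ℤ × ℤ)) (η : Cfg) : ℝ :=
  ({k ∈ Adm c n | ∀ x ∈ S, k x - k 0 = η x}.ncard : ℝ) / (Adm c n).ncard

/-- `P` is the local limit of the law of `k - k 0` on growing hexagons. -/
def IsLimit (P : Measure Cfg) : Prop :=
  ∀ (c : ℤ × ℤ) (S : Finset (ℤ × ℤ)) (η : Cfg),
    Tendsto (fun n => hexP c n S η) atTop (𝓝 (P.real {k | ∀ x ∈ S, k x = η x}))

/-- The function equal to one at the origin, zero at the other vertices, affine on triangles;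
`z = u + v ω` with `u = re z - im z / √3` and `v = 2 im z / √3`. -/
def hat (z : ℂ) : ℝ :=
  max 0 (1 - max |z.re - z.im / √3| (max |2 * z.im / √3| |z.re + z.im / √3|))

/-- The extension of `k` which is affine on each triangle. -/
def interp (k : Cfg) (z : ℂ) : ℝ := ∑ᶠ x : ℤ × ℤ, (k x : ℝ) * hat (z - pos x)

/-- The height function at mesh `δ` tested against `f`. -/
def fld (δ : ℝ) (f : ℂ → ℝ) (k : Cfg) : ℝ := ∫ z : ℂ, interp k (z / δ) * f z

/-- The Fourier transform of a real function of the plane. -/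
def ft (f : ℂ → ℝ) : ℂ → ℂ := 𝓕 fun z : ℂ => (f z : ℂ)

/-- The covariance of the Gaussian free field of the plane, the form of `(-Δ)⁻¹`. -/
def cov (f g : ℂ → ℝ) : ℝ :=
  ∫ ξ : ℂ, (ft f ξ * (starRingEnd ℂ) (ft g ξ)).re / (4 * Real.pi ^ 2 * ‖ξ‖ ^ 2)

/-- Test functions: smooth, compactly supported, of integral zero. -/
def Test (f : ℂ → ℝ) : Prop := ContDiff ℝ (⊤ : ℕ∞) f ∧ HasCompactSupport f ∧ ∫ z, f z = 0

/-- Convergence in law of the tested heights to `σ` times the Gaussian free field. -/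
def ToGFF (P : Measure Cfg) (σ : ℝ) : Prop :=
  ∀ (m : ℕ) (f : Fin m → ℂ → ℝ), (∀ j, Test (f j)) →
    (Matrix.of fun j k => σ ^ 2 * cov (f j) (f k)).PosSemidef ∧
    ∀ φ : BoundedContinuousFunction (EuclideanSpace ℝ (Fin m)) ℝ,
      Tendsto (fun δ => ∫ k, φ (WithLp.toLp 2 fun j => fld δ (f j) k) ∂P) (𝓝[>] 0)
        (𝓝 (∫ x, φ x ∂(ProbabilityTheory.multivariateGaussian 0
          (Matrix.of fun j k => σ ^ 2 * cov (f j) (f k)))))

/-- The variance of height differences along a row grows like `(σ ^ 2 / π) log n`. -/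
def LogVar (P : Measure Cfg) (σ : ℝ) : Prop :=
  Tendsto (fun n : ℕ => (∫ k, ((k (n, 0) - k 0 : ℤ) : ℝ) ^ 2 ∂P) / Real.log n) atTop
    (𝓝 (σ ^ 2 / Real.pi))

end Vale.Agent.P153
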