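import Vale.Agent.P153.Defs

/-! Test functions and the Laplacian. -/

open MeasureTheory Filter Topology

noncomputable section

namespace Vale.Agent.P153

variable {f g u v : ℂ → ℝ}

/-- Directional derivative. -/
def dd (e : ℂ) (u : ℂ → ℝ) : ℂ → ℝ := fun z => fderiv ℝ u z e

theorem Test.cc (h : Test f) : Cc f := ⟨h.1, h.2.1⟩

theorem Cc.int (h : Cc u) : Integrable u :=
  h.1.continuous.integrable_of_hasCompactSupport h.2

theorem t1_smul (hu : HasCompactSupport u) (g : ℂ → ℝ) : HasCompactSupport fun z => g z * u z :=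
  hu.mul_left (f := g)

theorem Cc.lin (hu : Cc u) (hv : Cc v) (a b : ℝ) : Cc fun z => a * u z + b * v z :=
  ⟨(contDiff_const.mul hu.1).add (contDiff_const.mul hv.1),
    (t1_smul hu.2 fun _ => a).add (t1_smul hv.2 fun _ => b)⟩

theorem t1_zero : Cc fun _ => 0 := ⟨contDiff_const, HasCompactSupport.zero⟩

theorem Cc.sum {ι : Type} (s : Finset ι) {F : ι → ℂ → ℝ} (hF : ∀ i ∈ s, Cc (F i)) :
    Cc fun z => ∑ i ∈ s, F i z := by
  classical
  induction s using Finset.induction_on with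
  | empty => simpa using t1_zero
  | insert a s ha ih =>
    have h := (hF a (Finset.mem_insert_self _ _)).lin
      (ih fun i hi => hF i (Finset.mem_insert_of_mem hi)) 1 1
    simpa [Finset.sum_insert ha] using h

theorem Cc.mul (hu : Cc u) (hg : ContDiff ℝ (⊤ : ℕ∞) g) : Cc fun z => g z * u z :=
  ⟨hg.mul hu.1, t1_smul hu.2 g⟩

theorem Cc.tr (hu : Cc u) (a : ℂ) : Cc (tr a u) :=
  ⟨hu.1.comp (contDiff_id.sub contDiff_const), hu.2.comp_homeomorph (Homeomorph.subRight a)⟩

theorem t1_dd (hu : ContDiff ℝ (⊤ : ℕ∞) u) (e : ℂ) : ContDiff ℝ (⊤ : ℕ∞) (dd e u) :=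
  (hu.fderiv_right (m := (⊤ : ℕ∞)) le_rfl).clm_apply contDiff_const

theorem Cc.dd (hu : Cc u) (e : ℂ) : Cc (dd e u) := ⟨t1_dd hu.1 e, hu.2.fderiv_apply ℝ e⟩

theorem Test.lin (hf : Test f) (hg : Test g) (a b : ℝ) : Test fun z => a * f z + b * g z := by
  have h := hf.cc.lin hg.cc a b
  refine ⟨h.1, h.2, ?_⟩
  rw [integral_add (hf.cc.int.const_mul a) (hg.cc.int.const_mul b), integral_const_mul,
    integral_const_mul, hf.2.2, hg.2.2]
  simp

theorem Test.sub (hf : Test f) (hg : Test g) : Test fun z => f z - g z := by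
  simpa [sub_eq_add_neg] using hf.lin hg 1 (-1)

theorem Test.smul (hf : Test f) (a : ℝ) : Test fun z => a * f z := by
  simpa using hf.lin hf a 0

theorem test_zero : Test fun _ => 0 := ⟨t1_zero.1, t1_zero.2, by simp⟩

theorem Test.sum {ι : Type} (s : Finset ι) {F : ι → ℂ → ℝ} (hF : ∀ i ∈ s, Test (F i)) :
    Test fun z => ∑ i ∈ s, F i z := by
  classical
  induction s using Finset.induction_on with
  | empty => simpa using test_zero
  | insert a s ha ih =>
    have h := (hF a (Finset.mem_insert_self _ _)).lin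
      (ih fun i hi => hF i (Finset.mem_insert_of_mem hi)) 1 1
    simpa [Finset.sum_insert ha] using h

theorem Test.tr (hf : Test f) (a : ℂ) : Test (tr a f) :=
  ⟨(hf.cc.tr a).1, (hf.cc.tr a).2, (integral_sub_right_eq_self f a).trans hf.2.2⟩

theorem tsupport_tr (a : ℂ) (f : ℂ → ℝ) : tsupport (tr a f) = (fun z => z + a) '' tsupport f := by
  have h : Function.support (tr a f) = Homeomorph.addRight a '' Function.support f := by
    ext z
    refine ⟨fun hz => ⟨z - a, hz, by simp⟩, ?_⟩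
    rintro ⟨w, hw, rfl⟩
    simpa [tr] using hw
  rw [tsupport, h, ← Homeomorph.image_closure]
  rfl

theorem tr_tr (a b : ℂ) (f : ℂ → ℝ) : tr a (tr b f) = tr (a + b) f := by
  funext z
  simp only [tr, sub_sub]

theorem tr_zero (f : ℂ → ℝ) : tr 0 f = f := by
  funext z
  simp only [tr, sub_zero]

theorem t1_diff (hu : ContDiff ℝ (⊤ : ℕ∞) u) : Differentiable ℝ u := hu.differentiable (by simp)

/-- `integral_fderiv_eq_zero` style lemmas (`integral_bilinear_hasLineDerivAt_right_eq_neg_left_of_integrable`). -/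
theorem Cc.test_dd (hu : Cc u) (e : ℂ) : Test (P153.dd e u) := by
  refine ⟨(hu.dd e).1, (hu.dd e).2, ?_⟩
  have h1 : Integrable fun z => fderiv ℝ u z e := (hu.dd e).int
  have h2 := integral_mul_fderiv_eq_neg_fderiv_mul_of_integrable (μ := volume) (f := fun _ => 1)
    (g := u) (v := e) (by simp) (by simpa using h1) (by simpa using hu.int)
    (fun _ _ => differentiableAt_const _) fun x _ => t1_diff hu.1 x
  simpa [P153.dd] using h2

theorem tsupport_dd (e : ℂ) (u : ℂ → ℝ) : tsupport (dd e u) ⊆ tsupport u := by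
  refine closure_minimal (fun z hz => ?_) (isClosed_tsupport u)
  refine support_fderiv_subset ℝ (f := u) fun h => hz ?_
  simp [dd, h]

theorem t1_dd2 (hu : ContDiff ℝ (⊤ : ℕ∞) u) (e z : ℂ) :
    dd e (dd e u) z = fderiv ℝ (fderiv ℝ u) z e e := by
  have h2 : DifferentiableAt ℝ (fderiv ℝ u) z :=
    (hu.fderiv_right (m := (⊤ : ℕ∞)) le_rfl).differentiable (by simp) z
  change fderiv ℝ (fun w => fderiv ℝ u w e) z e = _
  rw [fderiv_clm_apply h2 (differentiableAt_const e)]
  simp

/-- `laplacian_eq_iteratedFDeriv_complexPlane`. -/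
theorem lap_eq (hu : ContDiff ℝ (⊤ : ℕ∞) u) :
    lap u = fun z => dd 1 (dd 1 u) z + dd Complex.I (dd Complex.I u) z := by
  funext z
  rw [t1_dd2 hu, t1_dd2 hu, lap, InnerProductSpace.laplacian_eq_iteratedFDeriv_complexPlane]
  simp [iteratedFDeriv_two_apply]

theorem Cc.test_lap (hu : Cc u) : Test (lap u) := by
  rw [lap_eq hu.1]
  simpa using ((hu.dd 1).test_dd 1).lin ((hu.dd Complex.I).test_dd Complex.I) 1 1

theorem tsupport_lap (u : ℂ → ℝ) (hu : ContDiff ℝ (⊤ : ℕ∞) u) : tsupport (lap u) ⊆ tsupport u := by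
  rw [lap_eq hu]
  refine closure_minimal (fun z hz => ?_) (isClosed_tsupport u)
  by_contra h
  have h1 : ∀ e, dd e (dd e u) z = 0 := fun e => image_eq_zero_of_notMem_tsupport fun h' =>
    h (tsupport_dd e u (tsupport_dd e _ h'))
  exact hz (by simp [h1])

theorem t1_mul (hu : ContDiff ℝ (⊤ : ℕ∞) u) (hv : ContDiff ℝ (⊤ : ℕ∞) v) (e : ℂ) :
    dd e (fun z => u z * v z) = fun z => u z * dd e v z + dd e u z * v z := by
  funext z
  simp only [dd, fderiv_fun_mul (t1_diff hu z) (t1_diff hv z), ContinuousLinearMap.add_apply,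
    ContinuousLinearMap.smul_apply, smul_eq_mul]
  ring

theorem t1_add (hu : ContDiff ℝ (⊤ : ℕ∞) u) (hv : ContDiff ℝ (⊤ : ℕ∞) v) (e : ℂ) :
    dd e (fun z => u z + v z) = fun z => dd e u z + dd e v z := by
  funext z
  simp only [dd, fderiv_fun_add (t1_diff hu z) (t1_diff hv z), ContinuousLinearMap.add_apply]

theorem t1_const (a : ℝ) (e : ℂ) : dd e (fun _ => a) = fun _ => 0 := by
  funext z
  simp [dd]

theorem t1_lin (hu : ContDiff ℝ (⊤ : ℕ∞) u) (hv : ContDiff ℝ (⊤ : ℕ∞) v) (a b : ℝ) (e : ℂ) :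
    dd e (fun z => a * u z + b * v z) = fun z => a * dd e u z + b * dd e v z := by
  rw [t1_add (contDiff_const.mul hu) (contDiff_const.mul hv), t1_mul contDiff_const hu,
    t1_mul contDiff_const hv, t1_const, t1_const]
  simp

theorem lap_lin (hu : Cc u) (hv : Cc v) (a b : ℝ) :
    lap (fun z => a * u z + b * v z) = fun z => a * lap u z + b * lap v z := by
  rw [lap_eq (hu.lin hv a b).1, lap_eq hu.1, lap_eq hv.1, t1_lin hu.1 hv.1, t1_lin hu.1 hv.1,
    t1_lin (t1_dd hu.1 _) (t1_dd hv.1 _), t1_lin (t1_dd hu.1 _) (t1_dd hv.1 _)]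
  funext z
  ring

theorem lap_sum {ι : Type} (s : Finset ι) {F : ι → ℂ → ℝ} (hF : ∀ i ∈ s, Cc (F i)) :
    lap (fun z => ∑ i ∈ s, F i z) = fun z => ∑ i ∈ s, lap (F i) z := by
  classical
  induction s using Finset.induction_on with
  | empty =>
    simp only [Finset.sum_empty]
    rw [lap_eq contDiff_const]
    simp [t1_const]
  | insert a s ha ih =>
    have h0 := fun i hi => hF i (Finset.mem_insert_of_mem (s := s) (b := a) hi)
    have h := lap_lin (hF a (Finset.mem_insert_self _ _)) (Cc.sum s h0) 1 1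
    rw [ih h0] at h
    simpa [Finset.sum_insert ha] using h

theorem t1_tr (a e : ℂ) (u : ℂ → ℝ) : dd e (tr a u) = tr a (dd e u) := by
  funext z
  change fderiv ℝ (fun w => u (w - a)) z e = fderiv ℝ u (z - a) e
  rw [fderiv_comp_sub]

theorem lap_tr (hu : Cc u) (a : ℂ) : lap (tr a u) = tr a (lap u) := by
  rw [lap_eq (hu.tr a).1, lap_eq hu.1]
  simp only [t1_tr]
  rfl

theorem t1_clm (L : ℂ →L[ℝ] ℝ) (e : ℂ) : dd e (fun z => L z) = fun _ => L e := by
  funext z
  simp [dd]

theorem t1_clm_mul (L : ℂ →L[ℝ] ℝ) (hv : ContDiff ℝ (⊤ : ℕ∞) v) (e : ℂ) :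
    dd e (dd e fun z => L z * v z) = fun z => L z * dd e (dd e v) z + 2 * L e * dd e v z := by
  have hL : ContDiff ℝ (⊤ : ℕ∞) fun z => L z := L.contDiff
  rw [t1_mul hL hv, t1_clm, t1_add (hL.mul (t1_dd hv e)) (contDiff_const.mul hv),
    t1_mul hL (t1_dd hv e), t1_mul contDiff_const hv, t1_clm, t1_const]
  funext z
  ring

theorem lap_re_mul (hv : Cc v) :
    lap (fun z => z.re * v z) = fun z => z.re * lap v z + 2 * dd 1 v z := by
  have h1 := t1_clm_mul Complex.reCLM hv.1
  simp only [Complex.reCLM_apply] at h1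
  rw [lap_eq (hv.mul (g := fun z => z.re) Complex.reCLM.contDiff).1, lap_eq hv.1, h1, h1]
  funext z
  simp only [Complex.one_re, Complex.I_re]
  ring

theorem lap_im_mul (hv : Cc v) :
    lap (fun z => z.im * v z) = fun z => z.im * lap v z + 2 * dd Complex.I v z := by
  have h1 := t1_clm_mul Complex.imCLM hv.1
  simp only [Complex.imCLM_apply] at h1
  rw [lap_eq (hv.mul (g := fun z => z.im) Complex.imCLM.contDiff).1, lap_eq hv.1, h1, h1]
  funext z
  simp only [Complex.one_im, Complex.I_im]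
  ring

theorem t1_congr {z : ℂ} (h : u =ᶠ[𝓝 z] v) (e : ℂ) : dd e u =ᶠ[𝓝 z] dd e v := by
  filter_upwards [h.fderiv (𝕜 := ℝ)] with w hw
  simp only [dd, hw]

/-- The Laplacian vanishes where the function is affine. -/
theorem lap_affine (hu : ContDiff ℝ (⊤ : ℕ∞) u) {O : Set ℂ} (hO : IsOpen O) {a b c : ℝ}
    (h : ∀ z ∈ O, u z = a + b * z.re + c * z.im) : Disjoint (tsupport (lap u)) O := by
  refine Disjoint.closure_left (s := Function.support (lap u))
    (Set.disjoint_left.2 fun z hz hz' => Function.mem_support.1 hz ?_) hO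
  let L : ℂ →L[ℝ] ℝ := b • Complex.reCLM + c • Complex.imCLM
  have h1 : u =ᶠ[𝓝 z] fun w => a + L w := by
    filter_upwards [hO.mem_nhds hz'] with w hw
    simp [h w hw, L, add_assoc]
  have h2 : ∀ e, dd e (dd e u) z = 0 := fun e => by
    rw [(t1_congr (t1_congr h1 e) e).eq_of_nhds, t1_add contDiff_const L.contDiff, t1_const,
      t1_clm]
    simp [dd]
  rw [lap_eq hu]
  simp [h2]

end Vale.Agent.P153
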