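import Vale.Agent.P153.T2

/-! Laplacians are dense. -/

open MeasureTheory Filter Topology

noncomputable section

namespace Vale.Agent.P153

open scoped InnerProductSpace

theorem t5_cos (x : ℝ) : |Real.cos x - 1 + x ^ 2 / 2| ≤ (x ^ 2) ^ 2 := by
  have h0 := Real.one_sub_sq_div_two_le_cos (x := x)
  rw [abs_of_nonneg (by linarith)]
  rcases le_total |x| 1 with h | h
  · have h1 := (abs_le.1 (Real.cos_bound h)).2
    rw [show |x| ^ 4 = (x ^ 2) ^ 2 by rw [← sq_abs x]; ring] at h1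
    nlinarith [sq_nonneg (x ^ 2)]
  · have h1 : 1 ≤ x ^ 2 := by rw [← sq_abs x]; exact one_le_pow₀ h
    nlinarith [Real.cos_le_one x]

theorem t5_al (x y : ℝ) : |(Real.cos x + Real.cos y) / 2| ≤ 1 :=
  abs_le.2 ⟨by linarith [Real.neg_one_le_cos x, Real.neg_one_le_cos y],
    by linarith [Real.cos_le_one x, Real.cos_le_one y]⟩

theorem t5_err (x y : ℝ) (N : ℕ) :
    |1 - (x ^ 2 + y ^ 2) / 4 * ∑ j ∈ Finset.range N, ((Real.cos x + Real.cos y) / 2) ^ j| ≤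
      |(Real.cos x + Real.cos y) / 2| ^ N + (x ^ 2 + y ^ 2) ^ 2 * N := by
  have ha := t5_al x y
  have hx := abs_le.1 (t5_cos x)
  have hy := abs_le.1 (t5_cos y)
  have h2 : |(x ^ 2 + y ^ 2) / 4 - (1 - (Real.cos x + Real.cos y) / 2)| ≤ (x ^ 2 + y ^ 2) ^ 2 := by
    have := mul_nonneg (sq_nonneg x) (sq_nonneg y)
    have := sq_nonneg (x ^ 2)
    have := sq_nonneg (y ^ 2)
    exact abs_le.2 ⟨by nlinarith, by nlinarith⟩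
  generalize (Real.cos x + Real.cos y) / 2 = a at ha h2 ⊢
  have h1 : |∑ j ∈ Finset.range N, a ^ j| ≤ N := by
    refine (Finset.abs_sum_le_sum_abs _ _).trans ?_
    refine (Finset.sum_le_card_nsmul _ _ 1 fun j _ => ?_).trans_eq (by simp)
    rw [abs_pow]
    exact pow_le_one₀ (abs_nonneg _) ha
  have e : 1 - (x ^ 2 + y ^ 2) / 4 * ∑ j ∈ Finset.range N, a ^ j =
      a ^ N - ((x ^ 2 + y ^ 2) / 4 - (1 - a)) * ∑ j ∈ Finset.range N, a ^ j := by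
    linear_combination -mul_neg_geom_sum a N
  rw [e]
  refine (abs_sub _ _).trans ?_
  rw [abs_pow, abs_mul]
  gcongr

theorem t5_pow {x y : ℝ} (hx : |x| ≤ 1) (hy : |y| ≤ 1) (N : ℕ) :
    |(Real.cos x + Real.cos y) / 2| ^ N ≤ Real.exp (-((x ^ 2 + y ^ 2) * N / Real.pi ^ 2)) := by
  have hp : (1 : ℝ) ≤ Real.pi := by linarith [Real.pi_gt_three]
  have h1 := Real.cos_le_one_sub_mul_cos_sq (hx.trans hp)
  have h2 := Real.cos_le_one_sub_mul_cos_sq (hy.trans hp)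
  have h3 := Real.add_one_le_exp (-((x ^ 2 + y ^ 2) / Real.pi ^ 2))
  rw [abs_of_nonneg (by linarith [Real.cos_pos_of_le_one hx, Real.cos_pos_of_le_one hy]),
    show -((x ^ 2 + y ^ 2) * N / Real.pi ^ 2) = N * -((x ^ 2 + y ^ 2) / Real.pi ^ 2) by ring,
    Real.exp_nat_mul]
  refine pow_le_pow_left₀ (by linarith [Real.cos_pos_of_le_one hx, Real.cos_pos_of_le_one hy])
    (le_trans ?_ h3) N
  have e : (x ^ 2 + y ^ 2) / Real.pi ^ 2 = (2 / Real.pi ^ 2 * x ^ 2 + 2 / Real.pi ^ 2 * y ^ 2) / 2 := by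
    ring
  linarith

/-- The symbol of the average of four translates. -/
def t5_a (h : ℝ) (ξ : ℂ) : ℝ :=
  (Real.cos (2 * Real.pi * h * ξ.re) + Real.cos (2 * Real.pi * h * ξ.im)) / 2

/-- The symbol of the remainder. -/
def t5_e (n : ℕ) (ξ : ℂ) : ℝ :=
  1 - (n : ℝ)⁻¹ ^ 2 * (4 * Real.pi ^ 2 * ‖ξ‖ ^ 2) / 4 *
    ∑ j ∈ Finset.range (n ^ 3), t5_a (n : ℝ)⁻¹ ξ ^ j

theorem t5_sq (h : ℝ) (ξ : ℂ) : (2 * Real.pi * h * ξ.re) ^ 2 + (2 * Real.pi * h * ξ.im) ^ 2 =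
    h ^ 2 * (4 * Real.pi ^ 2 * ‖ξ‖ ^ 2) := by
  rw [← Complex.normSq_eq_norm_sq, Complex.normSq_apply]
  ring

theorem t5_e_le (n : ℕ) (ξ : ℂ) : |t5_e n ξ| ≤
    |t5_a (n : ℝ)⁻¹ ξ| ^ n ^ 3 + (4 * Real.pi ^ 2 * ‖ξ‖ ^ 2) ^ 2 * (n : ℝ)⁻¹ := by
  have h := t5_err (2 * Real.pi * (n : ℝ)⁻¹ * ξ.re) (2 * Real.pi * (n : ℝ)⁻¹ * ξ.im) (n ^ 3)
  rw [t5_sq] at h
  refine h.trans_eq (congrArg₂ (· + ·) rfl ?_)
  rcases eq_or_ne (n : ℝ) 0 with h0 | h0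
  · simp [h0]
  · push_cast
    field_simp

theorem t5_e_bd (n : ℕ) (ξ : ℂ) : t5_e n ξ ^ 2 ≤ 2 + 2 * ((4 * Real.pi ^ 2 * ‖ξ‖ ^ 2) ^ 2) ^ 2 := by
  have h1 : |t5_a (n : ℝ)⁻¹ ξ| ^ n ^ 3 ≤ 1 := pow_le_one₀ (abs_nonneg _) (t5_al _ _)
  have h2 : (n : ℝ)⁻¹ ≤ 1 := Nat.cast_inv_le_one n
  have h3 := (t5_e_le n ξ).trans (add_le_add h1 (mul_le_of_le_one_right (sq_nonneg _) h2))
  generalize (4 * Real.pi ^ 2 * ‖ξ‖ ^ 2) ^ 2 = W at h3 ⊢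
  have h4 := pow_le_pow_left₀ (abs_nonneg _) h3 2
  rw [sq_abs] at h4
  nlinarith [sq_nonneg (W - 1)]

theorem t5_e_lim {ξ : ℂ} (hξ : ξ ≠ 0) : Tendsto (fun n => t5_e n ξ) atTop (𝓝 0) := by
  have hW : 0 < 4 * Real.pi ^ 2 * ‖ξ‖ ^ 2 / Real.pi ^ 2 := by
    have := norm_pos_iff.2 hξ
    positivity
  have h0 : Tendsto (fun n : ℕ => (n : ℝ)⁻¹) atTop (𝓝 0) := tendsto_inv_atTop_nhds_zero_nat
  have h1 := Real.tendsto_exp_neg_atTop_nhds_zero.comp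
    ((tendsto_natCast_atTop_atTop (R := ℝ)).const_mul_atTop hW)
  have h2 := h1.add (h0.const_mul ((4 * Real.pi ^ 2 * ‖ξ‖ ^ 2) ^ 2))
  rw [mul_zero, add_zero] at h2
  have h3 : ∀ t : ℝ, ∀ᶠ n : ℕ in atTop, |2 * Real.pi * (n : ℝ)⁻¹ * t| ≤ 1 := fun t => by
    have h4 := ((h0.const_mul (2 * Real.pi)).mul_const t).abs
    rw [mul_zero, zero_mul, abs_zero] at h4
    exact h4.eventually_le_const one_pos
  refine squeeze_zero_norm' ?_ h2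
  filter_upwards [h3 ξ.re, h3 ξ.im, eventually_ne_atTop 0] with n hx hy hn
  refine (t5_e_le n ξ).trans (add_le_add ((t5_pow hx hy _).trans_eq ?_) le_rfl)
  have h5 : (n : ℝ) ≠ 0 := Nat.cast_ne_zero.2 hn
  rw [t5_sq, Function.comp_apply]
  congr 2
  push_cast
  field_simp

theorem t5_pair {u : ℂ → ℝ} (hu : Cc u) (a : ℂ) : ∃ v, Cc v ∧ ∀ ξ,
    ft v ξ = (Real.cos (2 * Real.pi * ⟪a, ξ⟫_ℝ) : ℝ) * ft u ξ := by
  refine ⟨_, (hu.tr a).lin (hu.tr (-a)) (1 / 2) (1 / 2), fun ξ => ?_⟩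
  rw [ft_lin (hu.tr a) (hu.tr (-a)), ft_tr, ft_tr, inner_neg_left]
  generalize ⟪a, ξ⟫_ℝ = t
  have h := Complex.two_cos (2 * Real.pi * t)
  push_cast
  rw [show -2 * (Real.pi : ℂ) * t = -(2 * Real.pi * t) by ring,
    show -2 * (Real.pi : ℂ) * -t = 2 * Real.pi * t by ring]
  linear_combination (-(1 / 2) * ft u ξ) * h

theorem t5_step {u : ℂ → ℝ} (hu : Cc u) (h : ℝ) : ∃ v, Cc v ∧ ∀ ξ,
    ft v ξ = (t5_a h ξ : ℝ) * ft u ξ := by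
  obtain ⟨v, hv, e⟩ := t5_pair hu h
  obtain ⟨w, hw, e'⟩ := t5_pair hu (h * Complex.I)
  refine ⟨_, hv.lin hw (1 / 2) (1 / 2), fun ξ => ?_⟩
  have h1 : 2 * Real.pi * ⟪(h : ℂ), ξ⟫_ℝ = 2 * Real.pi * h * ξ.re := by
    simp [Complex.inner]
    ring
  have h2 : 2 * Real.pi * ⟪(h : ℂ) * Complex.I, ξ⟫_ℝ = 2 * Real.pi * h * ξ.im := by
    simp [Complex.inner]
    ring
  rw [ft_lin hv hw, e, e', h1, h2, t5_a, Complex.ofReal_div _ 2, Complex.ofReal_div _ 2,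
    Complex.ofReal_add, Complex.ofReal_one, Complex.ofReal_ofNat]
  ring

theorem t5_sum {f : ℂ → ℝ} (hf : Cc f) (h : ℝ) (N : ℕ) : ∃ v, Cc v ∧ ∀ ξ,
    ft v ξ = (∑ j ∈ Finset.range N, t5_a h ξ ^ j : ℝ) * ft f ξ := by
  induction N with
  | zero => exact ⟨_, hf.lin hf 0 0, fun ξ => by rw [ft_lin hf hf]; simp⟩
  | succ N ih =>
    obtain ⟨v, hv, e⟩ := ih
    obtain ⟨w, hw, e'⟩ := t5_step hv h
    refine ⟨_, hw.lin hf 1 1, fun ξ => ?_⟩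
    rw [ft_lin hw hf, e', e, geom_sum_succ, Complex.ofReal_add, Complex.ofReal_mul,
      Complex.ofReal_one]
    ring

theorem t5_ex {f : ℂ → ℝ} (hf : Cc f) (n : ℕ) : ∃ u, Cc u ∧ ∀ ξ,
    ft (fun z => f z - lap u z) ξ = (t5_e n ξ : ℝ) * ft f ξ := by
  obtain ⟨v, hv, e⟩ := t5_sum hf (n : ℝ)⁻¹ (n ^ 3)
  have hu := hv.lin hv (-((n : ℝ)⁻¹ ^ 2 / 4)) 0
  refine ⟨_, hu, fun ξ => ?_⟩
  have h1 := ft_lin hf hu.test_lap.cc 1 (-1) ξ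
  simp only [one_mul, neg_one_mul, ← sub_eq_add_neg] at h1
  rw [h1, ft_lap hu, ft_lin hv hv, e, t5_e]
  generalize ∑ j ∈ Finset.range (n ^ 3), t5_a (n : ℝ)⁻¹ ξ ^ j = S
  generalize (n : ℝ)⁻¹ = h
  push_cast
  ring

theorem t5_int {f : ℂ → ℝ} (hf : Test f) :
    Integrable fun ξ : ℂ => ‖ft f ξ‖ ^ 2 / (4 * Real.pi ^ 2 * ‖ξ‖ ^ 2) :=
  (cov_int hf hf).congr (.of_forall fun ξ => by
    simp only [Complex.mul_conj, Complex.ofReal_re, Complex.normSq_eq_norm_sq])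

/-- Let `A f` be the average of the four translates by `± h`, `± h i`, `h = 1 / n`, `N = n ^ 3`,
`u = -(h ^ 2 / 4) ∑_{j < N} A ^ j f`. With `α(ξ) = (cos (2 π h ξ₁) + cos (2 π h ξ₂)) / 2` the
transform of `lap u` is `m ft f`, `m = π ^ 2 h ^ 2 ‖ξ‖ ^ 2 ∑_{j < N} α ^ j`. For `ξ ≠ 0`,
`m = π ^ 2 h ^ 2 ‖ξ‖ ^ 2 (1 - α ^ N) / (1 - α) → 1`; `|m| ≤ C` if `|ξ₁|, |ξ₂| ≤ n / 2`
(`1 - cos x ≥ 2 x ^ 2 / π ^ 2`) and `|m| ≤ π ^ 2 n ‖ξ‖ ^ 2 ≤ 2 π ^ 2 ‖ξ‖ ^ 3` otherwise. Dominated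
convergence: `‖ξ‖ ^ 4 ‖ft f‖ ^ 2` is integrable by `ft_planch`, `ft_lap`. -/
theorem lap_dense {f : ℂ → ℝ} (hf : Test f) {ε : ℝ} (hε : 0 < ε) :
    ∃ u, Cc u ∧ cov (fun z => f z - lap u z) (fun z => f z - lap u z) ≤ ε := by
  choose u hu e using t5_ex hf.cc
  have e2 : ∀ n ξ, ‖ft (fun z => f z - lap (u n) z) ξ‖ ^ 2 = t5_e n ξ ^ 2 * ‖ft f ξ‖ ^ 2 :=
    fun n ξ => by rw [e, norm_mul, Complex.norm_real, mul_pow, Real.norm_eq_abs, sq_abs]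
  have h1 := hf.cc.test_lap.cc
  have e3 : ∀ ξ, ‖ft (lap (lap f)) ξ‖ ^ 2 =
      ((4 * Real.pi ^ 2 * ‖ξ‖ ^ 2) ^ 2) ^ 2 * ‖ft f ξ‖ ^ 2 := fun ξ => by
    rw [ft_lap h1, ft_lap hf.cc, norm_mul, norm_mul, Complex.norm_real, mul_pow, mul_pow,
      Real.norm_eq_abs, sq_abs]
    ring
  have h2 := tendsto_integral_of_dominated_convergence (μ := (volume : Measure ℂ))
    (F := fun n ξ => ‖ft (fun z => f z - lap (u n) z) ξ‖ ^ 2 / (4 * Real.pi ^ 2 * ‖ξ‖ ^ 2))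
    (f := fun _ => (0 : ℝ)) _
    (fun n => (t5_int (hf.sub (hu n).test_lap)).aestronglyMeasurable)
    (((t5_int hf).const_mul 2).add ((t5_int h1.test_lap).const_mul 2))
    (fun n => .of_forall fun ξ => by
      rw [Real.norm_of_nonneg (by positivity), Pi.add_apply, e2, e3, ← mul_div_assoc,
        ← mul_div_assoc, ← add_div, ← mul_assoc, ← add_mul]
      gcongr
      exact t5_e_bd n ξ)
    (.of_forall fun ξ => by
      rcases eq_or_ne ξ 0 with rfl | hξ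
      · simp
      · have h3 := (((t5_e_lim hξ).pow 2).mul_const (‖ft f ξ‖ ^ 2)).div_const
          (4 * Real.pi ^ 2 * ‖ξ‖ ^ 2)
        rw [zero_pow two_ne_zero, zero_mul, zero_div] at h3
        exact h3.congr fun n => by rw [e2])
  rw [integral_zero] at h2
  obtain ⟨n, hn⟩ := (h2.eventually_le_const hε).exists
  exact ⟨u n, hu n, (cov_self _).trans_le hn⟩

end Vale.Agent.P153

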