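import Vale.Agent.P153.T3
import Vale.Agent.P153.T4

/-! Normalised families. -/

open MeasureTheory Filter Topology

noncomputable section

namespace Vale.Agent.P153

theorem t6_pos : 0 < cov (lap (bump 1 0)) (lap (bump 1 0)) := by
  have hu : Cc (bump 1 0) := bump_cc one_pos 0
  refine lt_of_le_of_ne (cov_nonneg _) fun h => ?_
  rw [cov_lap_lap hu] at h
  have h1 := hu.dd 1
  have h2 := hu.dd Complex.I
  have hc : Continuous fun z => dd 1 (bump 1 0) z ^ 2 + dd Complex.I (bump 1 0) z ^ 2 :=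
    (h1.1.continuous.pow 2).add (h2.1.continuous.pow 2)
  have hi : Integrable fun z => dd 1 (bump 1 0) z ^ 2 + dd Complex.I (bump 1 0) z ^ 2 := by
    have a1 := (h1.mul h1.1).int
    have a2 := (h2.mul h2.1).int
    refine (a1.add a2).congr (Eventually.of_forall fun z => ?_)
    simp only [Pi.add_apply, sq]
  have h0 := (integral_eq_zero_iff_of_nonneg (fun z => by positivity) hi).1 h.symm
  have h0' := (Continuous.ae_eq_iff_eq volume hc continuous_zero).1 h0
  have hd : ∀ z, fderiv ℝ (bump 1 0) z = 0 := by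
    intro z
    have hz : dd 1 (bump 1 0) z ^ 2 + dd Complex.I (bump 1 0) z ^ 2 = 0 := congrFun h0' z
    have e1 : fderiv ℝ (bump 1 0) z 1 = 0 := by
      have : dd 1 (bump 1 0) z ^ 2 = 0 := by
        nlinarith [sq_nonneg (dd 1 (bump 1 0) z), sq_nonneg (dd Complex.I (bump 1 0) z)]
      exact pow_eq_zero_iff two_ne_zero |>.1 this
    have e2 : fderiv ℝ (bump 1 0) z Complex.I = 0 := by
      have : dd Complex.I (bump 1 0) z ^ 2 = 0 := by
        nlinarith [sq_nonneg (dd 1 (bump 1 0) z), sq_nonneg (dd Complex.I (bump 1 0) z)]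
      exact pow_eq_zero_iff two_ne_zero |>.1 this
    refine ContinuousLinearMap.ext fun w => ?_
    have hw : w = w.re • (1 : ℂ) + w.im • Complex.I := by
      apply Complex.ext <;> simp
    rw [hw, map_add, map_smul, map_smul, e1, e2]
    simp
  have hconst := is_const_of_fderiv_eq_zero (hu.1.differentiable (by simp)) hd
  have h2z : bump 1 0 2 = 0 := by
    by_contra hne
    have : (2 : ℂ) ∈ Metric.closedBall (0 : ℂ) 1 :=
      bump_supp one_pos 0 (subset_tsupport _ hne)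
    rw [Metric.mem_closedBall, dist_zero_right] at this
    norm_num at this
  have hint := bump_int one_pos (0 : ℂ)
  have hz : (fun z => bump 1 0 z) = fun _ => 0 := funext fun z => (hconst z 2).trans h2z
  rw [hz, integral_zero] at hint
  exact zero_ne_one hint

/-- A multiple of a bump; `cov_lap_lap` is positive as the bump is not constant. -/
theorem exists_unit : ∃ v, Cc v ∧ cov (lap v) (lap v) = 1 ∧ tsupport v ⊆ Metric.closedBall 0 1 := by
  have hu : Cc (bump 1 0) := bump_cc one_pos 0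
  have hp := t6_pos
  obtain ⟨c, hc⟩ : ∃ c, c = cov (lap (bump 1 0)) (lap (bump 1 0)) := ⟨_, rfl⟩
  rw [← hc] at hp
  have hl := hu.test_lap
  refine ⟨fun z => (√c)⁻¹ * bump 1 0 z + 0 * bump 1 0 z, hu.lin hu _ _, ?_, ?_⟩
  · rw [lap_lin hu hu, cov_lin hl hl (hl.lin hl _ _), cov_symm, cov_lin hl hl hl, ← hc]
    have h1 : √c * √c = c := Real.mul_self_sqrt hp.le
    have h2 : √c ≠ 0 := (Real.sqrt_pos.2 hp).ne'
    field_simp
    linarith
  · refine (closure_mono fun z hz => ?_).trans (bump_supp one_pos 0)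
    intro h0
    exact hz (by simp only [h0, mul_zero, add_zero])

/-- The dipole between the scales `1` and `R`. -/
def dip (R : ℝ) (z : ℂ) : ℝ := bump 1 0 z - bump R 0 z

theorem t6_dip (R : ℝ) : dip R = fun z => 1 * bump 1 0 z + (-1) * bump R 0 z := by
  funext z
  simp only [dip]
  ring

theorem dip_test {R : ℝ} (hR : 0 < R) : Test (dip R) ∧ ∫ z, |dip R z| ≤ 2 := by
  have h1 : Cc (bump 1 0) := bump_cc one_pos 0
  have h2 : Cc (bump R 0) := bump_cc hR 0
  have h3 : Cc (dip R) := by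
    rw [t6_dip]
    exact h1.lin h2 _ _
  refine ⟨⟨h3.1, h3.2, ?_⟩, ?_⟩
  · simp only [dip]
    rw [integral_sub h1.int h2.int, bump_int one_pos, bump_int hR, sub_self]
  · have h4 : ∫ z, |dip R z| ≤ ∫ z, (bump 1 0 z + bump R 0 z) := by
      refine integral_mono h3.int.abs (h1.int.add h2.int) fun z => ?_
      have a1 := bump_nonneg 1 0 z
      have a2 := bump_nonneg R 0 z
      simp only [dip]
      rw [abs_le]
      constructor <;> linarith
    rw [integral_add h1.int h2.int, bump_int one_pos, bump_int hR] at h4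
    linarith

theorem t6_ft {R : ℝ} (hR : 0 < R) (ξ : ℂ) :
    ft (dip R) ξ = ft (bump 1 0) ξ - ft (bump 1 0) (R * ξ) := by
  have h1 : Cc (bump 1 0) := bump_cc one_pos 0
  have h2 : Cc (bump R 0) := bump_cc hR 0
  have h3 : bump R 0 = fun z => (R ^ 2)⁻¹ * bump 1 0 (z / R) := by
    funext z
    simp [bump]
  rw [t6_dip, ft_lin h1 h2, ← ft_scale _ hR, ← h3]
  push_cast
  ring

theorem t6_low : ∃ a b : ℝ, 0 < a ∧ 0 < b ∧ ∀ R : ℝ, 0 < R → ∀ ξ : ℂ, b / R < ‖ξ‖ → ‖ξ‖ ≤ a →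
    1 / 2 ≤ ‖ft (dip R) ξ‖ := by
  have h1 : Cc (bump 1 0) := bump_cc one_pos 0
  have hM := m1_nonneg (bump 1 0)
  have hT := tv_nonneg (bump 1 0)
  have hpi := Real.pi_gt_three
  refine ⟨1 / (8 * Real.pi * m1 (bump 1 0) + 1), tv (bump 1 0) + 1, by positivity, by positivity,
    fun R hR ξ hb ha => ?_⟩
  have e1 := ft_sub_le h1 ξ
  rw [ft_zero, bump_int one_pos] at e1
  have e2 := ft_le_tv h1 (R * ξ)
  rw [norm_mul, Complex.norm_real, Real.norm_of_nonneg hR.le] at e2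
  rw [div_lt_iff₀ hR] at hb
  rw [le_div_iff₀ (by positivity)] at ha
  have n0 := norm_nonneg ξ
  have n1 := norm_nonneg (ft (bump 1 0) (R * ξ))
  have f1 : ‖ft (bump 1 0) ξ - ((1 : ℝ) : ℂ)‖ ≤ 1 / 4 := by nlinarith
  have f2 : ‖ft (bump 1 0) (R * ξ)‖ ≤ 1 / 4 := by
    by_contra hc
    push Not at hc
    have g1 : (tv (bump 1 0) + 1) * (1 / 4) ≤ R * ‖ξ‖ * ‖ft (bump 1 0) (R * ξ)‖ :=
      mul_le_mul (by linarith) hc.le (by norm_num) (by positivity)
    have g2 : 0 ≤ R * ‖ξ‖ * ‖ft (bump 1 0) (R * ξ)‖ := by positivity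
    nlinarith
  rw [t6_ft hR]
  have f3 : ‖((1 : ℝ) : ℂ)‖ ≤ ‖ft (bump 1 0) ξ - ft (bump 1 0) (R * ξ)‖ +
      ‖ft (bump 1 0) (R * ξ)‖ + ‖ft (bump 1 0) ξ - ((1 : ℝ) : ℂ)‖ := by
    have : ((1 : ℝ) : ℂ) = (ft (bump 1 0) ξ - ft (bump 1 0) (R * ξ)) + ft (bump 1 0) (R * ξ) -
      (ft (bump 1 0) ξ - ((1 : ℝ) : ℂ)) := by ring
    refine (congrArg norm this).le.trans ?_
    exact (norm_sub_le _ _).trans (add_le_add_left (norm_add_le _ _) _)
  rw [Complex.norm_real, norm_one] at f3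
  linarith

/-- On `b / R < ‖ξ‖ ≤ a` the transform has norm at least `1 / 2` (`ft_sub_le`, `ft_scale`,
`ft_le_tv`); `int_annulus`. -/
theorem dip_top : Tendsto (fun R => cov (dip R) (dip R)) atTop atTop := by
  obtain ⟨a, b, ha, hb, h⟩ := t6_low
  have hpi := Real.pi_pos
  have hl : Tendsto (fun R : ℝ => (16 * Real.pi ^ 2)⁻¹ * (2 * Real.pi * Real.log (a / b * R)))
      atTop atTop := by
    refine Tendsto.const_mul_atTop (by positivity) (Tendsto.const_mul_atTop (by positivity) ?_)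
    exact Real.tendsto_log_atTop.comp (Tendsto.const_mul_atTop (by positivity) tendsto_id)
  refine tendsto_atTop_mono' atTop ?_ hl
  filter_upwards [eventually_ge_atTop (b / a), eventually_gt_atTop 0] with R hR hR0
  have hab : b / R ≤ a := by
    rw [div_le_iff₀ ha] at hR
    rw [div_le_iff₀ hR0]
    linarith
  obtain ⟨i1, i2⟩ := int_annulus (div_pos hb hR0) hab
  have e : a / (b / R) = a / b * R := by field_simp
  rw [e] at i2
  rw [← i2, ← integral_const_mul]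
  have ht := (dip_test hR0).1
  refine integral_mono (i1.const_mul _) (cov_int ht ht) fun ξ => ?_
  beta_reduce
  rw [Complex.mul_conj, Complex.ofReal_re, Complex.normSq_eq_norm_sq]
  by_cases hξ : ξ ∈ {ξ : ℂ | b / R < ‖ξ‖ ∧ ‖ξ‖ ≤ a}
  · rw [Set.indicator_of_mem hξ]
    have h2 := h R hR0 ξ hξ.1 hξ.2
    have h3 : 0 < ‖ξ‖ := (div_pos hb hR0).trans hξ.1
    have h4 : 1 / 4 ≤ ‖ft (dip R) ξ‖ ^ 2 := by nlinarith
    have h5 : (16 * Real.pi ^ 2)⁻¹ * (‖ξ‖ ^ 2)⁻¹ = (1 / 4) / (4 * Real.pi ^ 2 * ‖ξ‖ ^ 2) := by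
      field_simp
      norm_num
    rw [h5]
    exact div_le_div_of_nonneg_right h4 (by positivity)
  · rw [Set.indicator_of_notMem hξ, mul_zero]
    positivity

/-- `‖ft (dip R)‖ ≤ 2`; `int_inv_ball`, `int_cube_tail`. -/
theorem dip_bdd {g : ℂ → ℝ} (hg : Test g) : ∃ C : ℝ, ∀ R : ℝ, 0 < R → |cov (dip R) g| ≤ C := by
  have hi := (int_inv_ball.const_mul (m1 g)).add (int_cube_tail.const_mul (tv g))
  refine ⟨_, fun R hR => (Real.norm_eq_abs (cov (dip R) g)).symm.le.trans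
    (norm_integral_le_of_norm_le (f := fun ξ : ℂ =>
      (ft (dip R) ξ * (starRingEnd ℂ) (ft g ξ)).re / (4 * Real.pi ^ 2 * ‖ξ‖ ^ 2)) hi
      (Eventually.of_forall fun ξ => ?_))⟩
  have hpi := Real.pi_gt_three
  have hM := m1_nonneg g
  have hT := tv_nonneg g
  have h1 : ‖ft (dip R) ξ‖ ≤ 2 := (ft_le _ ξ).trans (dip_test hR).2
  have h2 : |(ft (dip R) ξ * (starRingEnd ℂ) (ft g ξ)).re| ≤ 2 * ‖ft g ξ‖ := by
    refine (Complex.abs_re_le_norm _).trans ?_
    rw [norm_mul, Complex.norm_conj]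
    exact mul_le_mul_of_nonneg_right h1 (norm_nonneg _)
  have n0 := norm_nonneg ξ
  have n1 := norm_nonneg (ft g ξ)
  rw [Real.norm_eq_abs, abs_div, abs_of_nonneg (a := 4 * Real.pi ^ 2 * ‖ξ‖ ^ 2) (by positivity)]
  refine (div_le_div_of_nonneg_right h2 (by positivity)).trans ?_
  simp only [Pi.add_apply]
  by_cases hξ : ‖ξ‖ ≤ 1
  · rw [Set.indicator_of_mem (show ξ ∈ {ξ : ℂ | ‖ξ‖ ≤ 1} from hξ),
      Set.indicator_of_notMem (show ξ ∉ {ξ : ℂ | 1 < ‖ξ‖} from not_lt.2 hξ), mul_zero, add_zero]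
    rcases n0.eq_or_lt with h0 | h0
    · rw [← h0]
      simp
    · have h3 := ft_le_m1 hg ξ
      rw [div_le_iff₀ (by positivity)]
      have h4 : m1 g * ‖ξ‖⁻¹ * (4 * Real.pi ^ 2 * ‖ξ‖ ^ 2) =
          Real.pi * (2 * (2 * Real.pi * ‖ξ‖ * m1 g)) := by
        field_simp
        norm_num
      rw [h4]
      have h5 : 0 ≤ 2 * Real.pi * ‖ξ‖ * m1 g := by positivity
      nlinarith
  · push Not at hξ
    rw [Set.indicator_of_notMem (show ξ ∉ {ξ : ℂ | ‖ξ‖ ≤ 1} from not_le.2 hξ),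
      Set.indicator_of_mem (show ξ ∈ {ξ : ℂ | 1 < ‖ξ‖} from hξ), mul_zero, zero_add]
    have h0 : 0 < ‖ξ‖ := one_pos.trans hξ
    have h3 := ft_le_tv hg.cc ξ
    rw [div_le_iff₀ (by positivity)]
    have h4 : tv g * (‖ξ‖ ^ 3)⁻¹ * (4 * Real.pi ^ 2 * ‖ξ‖ ^ 2) =
        4 * Real.pi ^ 2 * tv g / ‖ξ‖ := by
      field_simp
    rw [h4, le_div_iff₀ h0]
    have h5 : 0 ≤ ‖ξ‖ * ‖ft g ξ‖ := by positivity
    have h6 : 2 * (‖ξ‖ * ‖ft g ξ‖) ≤ tv g := by nlinarith
    have h7 : 1 * tv g ≤ 4 * Real.pi ^ 2 * tv g :=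
      mul_le_mul_of_nonneg_right (by nlinarith) hT
    linarith

theorem t6_step {N : ℕ} {ε : ℝ} (hε : 0 < ε) {f : Fin N → ℂ → ℝ} (hf : ∀ i, Test (f i))
    (ho : ∀ i j, cov (f i) (f j) = if i = j then 1 else 0) (hl : ∀ i, ∫ z, |f i z| ≤ ε) :
    ∃ g, Test g ∧ cov g g = 1 ∧ (∀ i, cov g (f i) = 0) ∧ ∫ z, |g z| ≤ ε := by
  choose C hC using fun i => dip_bdd (hf i)
  obtain ⟨K, hK⟩ : ∃ K, K = 2 + ∑ i, |C i| * ε := ⟨_, rfl⟩
  have hK0 : 0 < K := by
    have : 0 ≤ ∑ i, |C i| * ε := Finset.sum_nonneg fun i _ => by positivity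
    linarith
  obtain ⟨R, hR, hR0⟩ := ((dip_top.eventually_ge_atTop (∑ i, C i ^ 2 + (K / ε) ^ 2)).and
    (eventually_gt_atTop 0)).exists
  obtain ⟨hd, hd1⟩ := dip_test hR0
  obtain ⟨c, hc⟩ : ∃ c : Fin N → ℝ, ∀ i, c i = cov (dip R) (f i) := ⟨_, fun _ => rfl⟩
  have hcC : ∀ i, |c i| ≤ C i := fun i => by rw [hc]; exact hC i R hR0
  have hs : Test fun z => ∑ i, c i * f i z := Test.sum _ fun i _ => (hf i).smul _
  obtain ⟨h, hh⟩ : ∃ h : ℂ → ℝ, h = fun z => 1 * dip R z + (-1) * ∑ i, c i * f i z := ⟨_, rfl⟩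
  have ht : Test h := by
    rw [hh]
    exact hd.lin hs _ _
  have hcov : ∀ g, Test g → cov h g = cov (dip R) g - ∑ i, c i * cov (f i) g := by
    intro g hg
    rw [hh, cov_lin hd hs hg, cov_sum _ _ hf hg]
    ring
  have h0 : ∀ j, cov h (f j) = 0 := by
    intro j
    rw [hcov _ (hf j), ← hc]
    simp [ho]
  have h1 : cov h h = cov (dip R) (dip R) - ∑ i, c i ^ 2 := by
    rw [hcov _ ht, cov_symm (dip R) h, hcov _ hd]
    have e1 : ∑ i, c i * cov (f i) h = 0 :=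
      Finset.sum_eq_zero fun i _ => by rw [cov_symm, h0, mul_zero]
    have e2 : ∑ i, c i * cov (f i) (dip R) = ∑ i, c i ^ 2 :=
      Finset.sum_congr rfl fun i _ => by rw [cov_symm, ← hc, sq]
    rw [e1, e2, sub_zero]
  have h2 : (K / ε) ^ 2 ≤ cov h h := by
    have : ∑ i, c i ^ 2 ≤ ∑ i, C i ^ 2 := Finset.sum_le_sum fun i _ => by
      rw [← sq_abs (c i)]
      exact pow_le_pow_left₀ (abs_nonneg _) (hcC i) 2
    linarith
  have h3 : ∫ z, |h z| ≤ K := by
    have i1 : ∀ i, Integrable fun z => |C i| * |f i z| := fun i => (hf i).cc.int.abs.const_mul _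
    have i2 : Integrable fun z => ∑ i, |C i| * |f i z| := integrable_finsetSum _ fun i _ => i1 i
    have e1 : ∫ z, |h z| ≤ ∫ z, (|dip R z| + ∑ i, |C i| * |f i z|) := by
      refine integral_mono ht.cc.int.abs (hd.cc.int.abs.add i2) fun z => ?_
      rw [hh]
      beta_reduce
      refine (abs_add_le _ _).trans (add_le_add ?_ ?_)
      · rw [one_mul]
      · rw [neg_one_mul, abs_neg]
        refine (Finset.abs_sum_le_sum_abs _ _).trans (Finset.sum_le_sum fun i _ => ?_)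
        rw [abs_mul]
        exact mul_le_mul_of_nonneg_right ((hcC i).trans (le_abs_self _)) (abs_nonneg _)
    rw [integral_add hd.cc.int.abs i2, integral_finsetSum _ fun i _ => i1 i] at e1
    have e2 : ∑ i, ∫ z, |C i| * |f i z| ≤ ∑ i, |C i| * ε := Finset.sum_le_sum fun i _ => by
      rw [integral_const_mul]
      exact mul_le_mul_of_nonneg_left (hl i) (abs_nonneg _)
    linarith
  obtain ⟨s, hs'⟩ : ∃ s, s = cov h h := ⟨_, rfl⟩
  rw [← hs'] at h2
  have hKe : 0 < K / ε := div_pos hK0 hε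
  have hs0 : 0 < s := (pow_pos hKe 2).trans_le h2
  have hq : 0 < √s := Real.sqrt_pos.2 hs0
  have hq1 : K / ε ≤ √s := Real.le_sqrt_of_sq_le h2
  refine ⟨fun z => (√s)⁻¹ * h z, ht.smul _, ?_, fun i => ?_, ?_⟩
  · rw [cov_smul ht (ht.smul _), cov_symm, cov_smul ht ht, ← hs']
    have e : √s * √s = s := Real.mul_self_sqrt hs0.le
    field_simp
    linarith
  · rw [cov_smul ht (hf i), h0, mul_zero]
  · have e : (fun z => |(√s)⁻¹ * h z|) = fun z => (√s)⁻¹ * |h z| := by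
      funext z
      rw [abs_mul, abs_of_pos (inv_pos.2 hq)]
    rw [e, integral_const_mul, inv_mul_le_iff₀ hq]
    rw [div_le_iff₀ hε] at hq1
    linarith

/-- Induction on `N`, Gram-Schmidt with a normalised dipole, `R` large. -/
theorem exists_ortho (N : ℕ) {ε : ℝ} (hε : 0 < ε) : ∃ f : Fin N → ℂ → ℝ, (∀ i, Test (f i)) ∧
    (∀ i j, cov (f i) (f j) = if i = j then 1 else 0) ∧ ∀ i, ∫ z, |f i z| ≤ ε := by
  induction N with
  | zero => exact ⟨fun i => i.elim0, fun i => i.elim0, fun i => i.elim0, fun i => i.elim0⟩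
  | succ N ih =>
    obtain ⟨f, hf, ho, hl⟩ := ih
    obtain ⟨g, hg, h1, h0, h2⟩ := t6_step hε hf ho hl
    refine ⟨Fin.cons g f, fun i => ?_, fun i j => ?_, fun i => ?_⟩
    · refine Fin.cases ?_ (fun i => ?_) i
      · exact hg
      · exact hf i
    · refine Fin.cases ?_ (fun i => ?_) i <;> refine Fin.cases ?_ (fun j => ?_) j
      · rw [if_pos rfl]
        exact h1
      · rw [if_neg (Fin.succ_ne_zero j).symm]
        exact h0 j
      · rw [if_neg (Fin.succ_ne_zero i)]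
        exact (cov_symm _ _).trans (h0 i)
      · simp only [Fin.cons_succ, Fin.succ_inj]
        exact ho i j
    · refine Fin.cases ?_ (fun i => ?_) i
      · exact h2
      · exact hl i

end Vale.Agent.P153
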