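import Vale.Agent.P153.T1

/-! Functions of integral zero are divergences. -/

open MeasureTheory Filter Topology

noncomputable section

namespace Vale.Agent.P153

/-- An open square. -/
def sq (p : ℂ) (r : ℝ) : Set ℂ := {z | |z.re - p.re| < r ∧ |z.im - p.im| < r}

theorem t8_conv {f : ℝ → ℝ} (hf : LocallyIntegrable f) {G : ℂ → ℝ} (hG : Cc G) :
    ContDiff ℝ (⊤ : ℕ∞) fun q : ℝ × ℝ => ∫ t, f t * G ⟨q.2 - t, q.1⟩ := by
  have hk : IsCompact (Complex.re '' tsupport G) := hG.2.isCompact.image Complex.continuous_re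
  have hs : ContDiff ℝ (⊤ : ℕ∞) fun q : ℝ × ℝ => G ⟨q.2, q.1⟩ := by
    have e : (fun q : ℝ × ℝ => G ⟨q.2, q.1⟩) =
        fun q : ℝ × ℝ => G (Complex.equivRealProdCLM.symm (q.2, q.1)) := rfl
    rw [e]
    exact hG.1.comp (Complex.equivRealProdCLM.symm.contDiff.comp (contDiff_snd.prodMk contDiff_fst))
  have h := contDiffOn_convolution_right_with_param (μ := volume) (n := ⊤)
    (ContinuousLinearMap.mul ℝ ℝ) (g := fun y x : ℝ => G ⟨x, y⟩) isOpen_univ hk
    (fun y x _ hx => by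
      by_contra h0
      exact hx ⟨⟨x, y⟩, subset_tsupport _ h0, rfl⟩) hf hs.contDiffOn
  rw [Set.univ_prod_univ, contDiffOn_univ] at h
  exact h

/-- The primitive in the first variable is smooth
(`contDiffOn_convolution_right_with_param` with the indicator of a half line). -/
theorem prim_smooth {G : ℂ → ℝ} (hG : Cc G) :
    ContDiff ℝ (⊤ : ℕ∞) fun z : ℂ => ∫ s in Set.Iic z.re, G ⟨s, z.im⟩ := by
  have hf : LocallyIntegrable ((Set.Ici (0 : ℝ)).indicator fun _ => (1 : ℝ)) :=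
    (locallyIntegrable_const (1 : ℝ)).indicator measurableSet_Ici
  have h := (t8_conv hf hG).comp (Complex.imCLM.contDiff.prodMk Complex.reCLM.contDiff)
  refine (congrArg _ (funext fun z => ?_)).mp h
  simp only [Function.comp, Complex.imCLM_apply, Complex.reCLM_apply]
  rw [← integral_indicator measurableSet_Iic,
    ← integral_sub_left_eq_self ((Set.Iic z.re).indicator fun s => G ⟨s, z.im⟩) volume z.re]
  refine integral_congr_ae (Eventually.of_forall fun t => ?_)
  by_cases ht : 0 ≤ t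
  · have h1 : z.re - t ∈ Set.Iic z.re := by simp [ht]
    simp only [Set.indicator_of_mem h1, Set.indicator_of_mem (Set.mem_Ici.2 ht), one_mul]
  · have h1 : z.re - t ∉ Set.Iic z.re := by simp [not_le.1 ht]
    simp only [Set.indicator_of_notMem h1, Set.indicator_of_notMem (mt Set.mem_Ici.1 ht), zero_mul]

theorem marg_smooth {G : ℂ → ℝ} (hG : Cc G) :
    ContDiff ℝ (⊤ : ℕ∞) fun y : ℝ => ∫ s : ℝ, G ⟨s, y⟩ := by
  have h := (t8_conv (locallyIntegrable_const (1 : ℝ)) hG).comp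
    (contDiff_id.prodMk (contDiff_const (c := (0 : ℝ))))
  refine (congrArg _ (funext fun y => ?_)).mp h
  simp only [Function.comp, id, one_mul]
  exact integral_sub_left_eq_self (fun s => G ⟨s, y⟩) volume 0

theorem t8_ftc {F : ℝ → ℝ} (hc : Continuous F) (hi : Integrable F) (x : ℝ) :
    HasDerivAt (fun x => ∫ s in Set.Iic x, F s) (F x) x := by
  have e : (fun x => ∫ s in Set.Iic x, F s) =
      fun x => (∫ s in Set.Iic 0, F s) + ∫ s in (0 : ℝ)..x, F s := by
    funext x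
    rw [← intervalIntegral.integral_Iic_sub_Iic hi.integrableOn hi.integrableOn]
    ring
  rw [e]
  exact (hc.integral_hasStrictDerivAt 0 x).hasDerivAt.const_add _

theorem t8_zero {F : ℝ → ℝ} {c ρ x : ℝ} (h0 : ∀ s, ρ < |s - c| → F s = 0) (hi : ∫ s, F s = 0)
    (hx : ρ < |x - c|) : ∫ s in Set.Iic x, F s = 0 := by
  rcases le_total x c with h | h
  · refine setIntegral_eq_zero_of_forall_eq_zero fun s hs => h0 s ?_
    have hs' : s ≤ x := hs
    rw [abs_of_nonpos (by linarith)] at hx ⊢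
    linarith
  · rw [setIntegral_eq_integral_of_forall_compl_eq_zero fun s hs => h0 s ?_, hi]
    have hs' : x < s := not_le.1 hs
    rw [abs_of_nonneg (by linarith)] at hx ⊢
    linarith

theorem t8_supp {u : ℂ → ℝ} {p : ℂ} {ρ r : ℝ} (hr : ρ < r)
    (h0 : ∀ z : ℂ, ρ < |z.re - p.re| ∨ ρ < |z.im - p.im| → u z = 0) :
    HasCompactSupport u ∧ tsupport u ⊆ sq p r := by
  have hQ : IsClosed {z : ℂ | |z.re - p.re| ≤ ρ ∧ |z.im - p.im| ≤ ρ} :=
    (isClosed_le (f := fun z : ℂ => |z.re - p.re|) (by fun_prop) continuous_const).inter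
      (isClosed_le (f := fun z : ℂ => |z.im - p.im|) (by fun_prop) continuous_const)
  have hs : tsupport u ⊆ {z : ℂ | |z.re - p.re| ≤ ρ ∧ |z.im - p.im| ≤ ρ} := by
    refine closure_minimal (fun z hz => ?_) hQ
    by_contra h
    refine hz (h0 z ?_)
    exact (not_and_or.1 h).imp not_le.1 not_le.1
  refine ⟨(isCompact_closedBall p (2 * ρ)).of_isClosed_subset (isClosed_tsupport u)
    fun z hz => ?_, fun z hz => ⟨(hs hz).1.trans_lt hr, (hs hz).2.trans_lt hr⟩⟩
  have h1 := Complex.norm_le_abs_re_add_abs_im (z - p)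
  rw [Complex.sub_re, Complex.sub_im] at h1
  rw [mem_closedBall_iff_norm]
  linarith [(hs hz).1, (hs hz).2]

theorem t8_dd {u : ℂ → ℝ} (hu : Cc u) {e z : ℂ} {a : ℝ}
    (h : HasDerivAt (fun t : ℝ => u (z + t • e)) a 0) : dd e u z = a :=
  ((hu.1.differentiable (by simp) z).hasFDerivAt.hasLineDerivAt e).unique h

theorem t8_slice {G : ℂ → ℝ} (hG : Cc G) (y : ℝ) :
    Continuous (fun s : ℝ => G ⟨s, y⟩) ∧ Integrable fun s : ℝ => G ⟨s, y⟩ := by
  have hc : Continuous fun s : ℝ => G ⟨s, y⟩ :=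
    hG.1.continuous.comp (Complex.equivRealProdCLM.symm.continuous.comp
      (continuous_id.prodMk continuous_const))
  refine ⟨hc, hc.integrable_of_hasCompactSupport (HasCompactSupport.intro
    (hG.2.isCompact.image Complex.continuous_re) fun x hx => ?_)⟩
  by_contra h0
  exact hx ⟨⟨x, y⟩, subset_tsupport _ h0, rfl⟩

theorem t8_fub {g : ℂ → ℝ} (hg : Cc g) : ∫ y : ℝ, ∫ s : ℝ, g ⟨s, y⟩ = ∫ z, g z := by
  have hm := Complex.volume_preserving_equiv_real_prod.symm
  have hi : Integrable (fun q : ℝ × ℝ => g (Complex.measurableEquivRealProd.symm q))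
      (volume.prod volume) :=
    (hm.integrable_comp_emb Complex.measurableEquivRealProd.symm.measurableEmbedding).2 hg.int
  rw [← hm.integral_comp' g]
  exact (integral_prod_symm _ hi).symm

theorem t8_small {g : ℂ → ℝ} (hg : Cc g) {p : ℂ} {r : ℝ} (hs : tsupport g ⊆ sq p r)
    (hne : (tsupport g).Nonempty) :
    ∃ ρ, 0 < ρ ∧ ρ < r ∧ ∀ z : ℂ, ρ < |z.re - p.re| ∨ ρ < |z.im - p.im| → g z = 0 := by
  obtain ⟨w, hw, hm⟩ := hg.2.isCompact.exists_isMaxOn hne
    (f := fun z : ℂ => max |z.re - p.re| |z.im - p.im|) (by fun_prop)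
  have h1 : max |w.re - p.re| |w.im - p.im| < r := max_lt (hs hw).1 (hs hw).2
  have h2 : 0 ≤ max |w.re - p.re| |w.im - p.im| := (abs_nonneg _).trans (le_max_left _ _)
  refine ⟨(max |w.re - p.re| |w.im - p.im| + r) / 2, by linarith, by linarith, fun z hz => ?_⟩
  by_contra h0
  have h3 : max |z.re - p.re| |z.im - p.im| ≤ max |w.re - p.re| |w.im - p.im| :=
    hm (subset_tsupport _ h0)
  have h4 := le_max_left |z.re - p.re| |z.im - p.im|
  have h5 := le_max_right |z.re - p.re| |z.im - p.im|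
  rcases hz with hz | hz <;> linarith

/-- `m y = ∫ g (s, y) ds`, `α` a bump of mass one, `v₁ = ∫_{-∞}^x (g (s, y) - α s * m y) ds`,
`v₂ = α x * ∫_{-∞}^y m`. The support of `g` lies in a smaller closed square. -/
theorem exists_div {g : ℂ → ℝ} (hg : Test g) {p : ℂ} {r : ℝ} (hs : tsupport g ⊆ sq p r) :
    ∃ v₁ v₂, Cc v₁ ∧ Cc v₂ ∧ tsupport v₁ ⊆ sq p r ∧ tsupport v₂ ⊆ sq p r ∧
      g = fun z => dd 1 v₁ z + dd Complex.I v₂ z := by
  rcases (tsupport g).eq_empty_or_nonempty with he | hne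
  · have e : g = 0 := tsupport_eq_empty_iff.1 he
    refine ⟨fun _ => 0, fun _ => 0, test_zero.cc, test_zero.cc, by simp [tsupport],
      by simp [tsupport], ?_⟩
    rw [e]
    funext z
    simp [dd]
  obtain ⟨ρ, hρ, hr, h0⟩ := t8_small hg.cc hs hne
  let b : ContDiffBump p.re := ⟨ρ / 2, ρ, by linarith, by linarith⟩
  obtain ⟨α, hα, hα1, hαi, hα0⟩ : ∃ α : ℝ → ℝ, ContDiff ℝ (⊤ : ℕ∞) α ∧ ∫ s, α s = 1 ∧
      Integrable α ∧ ∀ s, ρ < |s - p.re| → α s = 0 := by
    refine ⟨b.normed volume, b.contDiff_normed, b.integral_normed, b.integrable_normed,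
      fun s hs => ?_⟩
    by_contra h
    have h1 : s ∈ Function.support (b.normed volume) := h
    rw [b.support_normed_eq, Metric.mem_ball, Real.dist_eq] at h1
    exact lt_asymm hs h1
  obtain ⟨m, hm⟩ : ∃ m : ℝ → ℝ, m = fun y => ∫ s : ℝ, g ⟨s, y⟩ := ⟨_, rfl⟩
  have hms : ContDiff ℝ (⊤ : ℕ∞) m := hm ▸ marg_smooth hg.cc
  have hm0 : ∀ y, ρ < |y - p.im| → m y = 0 := fun y hy => by
    rw [hm]
    exact integral_eq_zero_of_ae (Eventually.of_forall fun s => h0 ⟨s, y⟩ (Or.inr hy))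
  have hmi : Integrable m := hms.continuous.integrable_of_hasCompactSupport
    (HasCompactSupport.intro (isCompact_closedBall p.im ρ) fun y hy => hm0 y (by
      rwa [Metric.mem_closedBall, Real.dist_eq, not_le] at hy))
  have hm1 : ∫ y, m y = 0 := by
    rw [hm, t8_fub hg.cc]
    exact hg.2.2
  have hre : ContDiff ℝ (⊤ : ℕ∞) fun z : ℂ => α z.re := hα.comp Complex.reCLM.contDiff
  have hG0 : ∀ z : ℂ, ρ < |z.re - p.re| ∨ ρ < |z.im - p.im| →
      g z - α z.re * m z.im = 0 := fun z hz => by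
    rw [h0 z hz]
    rcases hz with hz | hz
    · rw [hα0 _ hz]; ring
    · rw [hm0 _ hz]; ring
  have hG : Cc fun z => g z - α z.re * m z.im :=
    ⟨hg.1.sub (hre.mul (hms.comp Complex.imCLM.contDiff)), (t8_supp hr hG0).1⟩
  have hM : ∀ y, HasDerivAt (fun x => ∫ s in Set.Iic x, m s) (m y) y :=
    t8_ftc hms.continuous hmi
  have hMs : ContDiff ℝ (⊤ : ℕ∞) fun x => ∫ s in Set.Iic x, m s := by
    refine contDiff_infty_iff_deriv.2 ⟨fun y => (hM y).differentiableAt, ?_⟩
    rw [funext fun y => (hM y).deriv]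
    exact hms
  have s1 := t8_supp (u := fun z : ℂ => ∫ s in Set.Iic z.re, (g ⟨s, z.im⟩ - α s * m z.im)) hr
    fun z hz => by
      rcases hz with hz | hz
      · refine t8_zero (fun s hs => hG0 ⟨s, z.im⟩ (Or.inl hs)) ?_ hz
        rw [integral_sub (t8_slice hg.cc z.im).2 (hαi.mul_const _), integral_mul_const, hα1, hm]
        ring
      · exact setIntegral_eq_zero_of_forall_eq_zero fun s _ => hG0 ⟨s, z.im⟩ (Or.inr hz)
  have s2 := t8_supp (u := fun z : ℂ => α z.re * ∫ s in Set.Iic z.im, m s) hr fun z hz => by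
    rcases hz with hz | hz
    · rw [hα0 _ hz, zero_mul]
    · rw [t8_zero hm0 hm1 hz, mul_zero]
  have c1 : Cc fun z : ℂ => ∫ s in Set.Iic z.re, (g ⟨s, z.im⟩ - α s * m z.im) :=
    ⟨prim_smooth hG, s1.1⟩
  have c2 : Cc fun z : ℂ => α z.re * ∫ s in Set.Iic z.im, m s :=
    ⟨hre.mul (hMs.comp Complex.imCLM.contDiff), s2.1⟩
  refine ⟨_, _, c1, c2, s1.2, s2.2, funext fun z => ?_⟩
  have d1 : HasDerivAt (fun t : ℝ => z.re + t) 1 0 := (hasDerivAt_id' (0 : ℝ)).const_add _
  have d2 : HasDerivAt (fun t : ℝ => z.im + t) 1 0 := (hasDerivAt_id' (0 : ℝ)).const_add _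
  have e1 := (t8_ftc (t8_slice hG z.im).1 (t8_slice hG z.im).2 (z.re + 0)).comp (0 : ℝ) d1
  have e2 := ((hM (z.im + 0)).comp (0 : ℝ) d2).const_mul (α z.re)
  rw [t8_dd c1 (a := g z - α z.re * m z.im) (by simpa [Function.comp_def] using e1),
    t8_dd c2 (a := α z.re * m z.im) (by simpa [Function.comp_def] using e2)]
  ring

end Vale.Agent.P153
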